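import Vale.Agent.P168.Lower.Lip

/-!
# P168: the pressure and the trial value are continuous in the laws of the interaction and of the field
-/

open MeasureTheory Real Finset

namespace Vale.Agent.P168

variable {K : ℕ}

theorem measurable_theta : Measurable (theta (K := K)) :=
  measurable_pi_lambda _ fun s => measurable_log.comp
    ((measurable_fst.comp measurable_fst).mul (((measurable_snd.comp measurable_fst).mul
      (Finset.measurable_prod _ fun j _ => ((measurable_pi_apply (s j)).comp
        ((measurable_pi_apply j).comp measurable_snd)))).const_add 1))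

theorem measurable_tnorm_theta : Measurable fun c : Clause K => tnorm (theta c) :=
  Finset.measurable_sum _ fun s _ => ((measurable_pi_apply s).comp measurable_theta).abs

theorem mean_abs_bound {α : Type*} [Fintype α] {f : α → ℝ} {d : ℝ} (hd : 0 ≤ d) (h : ∀ a, |f a| ≤ d) :
    |mean f| ≤ d := by
  rcases isEmpty_or_nonempty α with he | hne
  · simpa [mean] using hd
  · rw [mean, abs_div, Nat.abs_cast, div_le_iff₀ (Nat.cast_pos.2 Fintype.card_pos)]
    exact (abs_sum_le_sum_abs _ _).trans ((sum_le_sum fun a _ => h a).trans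
      (le_of_eq (by rw [sum_const, nsmul_eq_mul, card_univ, mul_comm])))

theorem mean_sub {α : Type*} [Fintype α] (f g : α → ℝ) : mean f - mean g = mean fun a => f a - g a := by
  simp [mean, sum_sub_distrib, sub_div]

theorem mean_diff_le {α : Type*} [Fintype α] {f g : α → ℝ} {d : ℝ} (hd : 0 ≤ d)
    (h : ∀ a, |f a - g a| ≤ d) : |mean f - mean g| ≤ d := mean_sub f g ▸ mean_abs_bound hd h

/-! ### Product laws -/

section Pi

variable {X : Type} [MeasurableSpace X] {μ : Measure X} [IsProbabilityMeasure μ] {n : ℕ}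

theorem integrable_sum_pi {B : X → ℝ} (hB : Integrable B μ) :
    Integrable (fun θ : Fin n → X => ∑ k, B (θ k)) (Measure.pi fun _ => μ) :=
  integrable_finsetSum _ fun _ _ => integrable_comp_eval hB

theorem integral_sum_pi {B : X → ℝ} (hB : Integrable B μ) :
    ∫ θ : Fin n → X, ∑ k, B (θ k) ∂(Measure.pi fun _ => μ) = n * ∫ x, B x ∂μ := by
  rw [integral_finsetSum _ fun _ _ => integrable_comp_eval hB,
    sum_congr rfl fun k _ => integral_comp_eval (μ := fun _ : Fin n => μ) (i := k) hB.1, sum_const,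
    card_univ, Fintype.card_fin, nsmul_eq_mul]

theorem integrable_of_sum_bound {F : (Fin n → X) → ℝ} {B : X → ℝ} {c : ℝ} (hF : Measurable F)
    (hB : Integrable B μ) (h : ∀ θ, |F θ| ≤ ∑ k, B (θ k) + c) :
    Integrable F (Measure.pi fun _ => μ) :=
  ((integrable_sum_pi hB).fun_add (integrable_const c)).mono' hF.aestronglyMeasurable
    (ae_of_all _ fun θ => (Real.norm_eq_abs _).trans_le (h θ))

theorem integral_abs_sum_bound {F : (Fin n → X) → ℝ} {B : X → ℝ} {c : ℝ}
    (hB : Integrable B μ) (h : ∀ θ, |F θ| ≤ ∑ k, B (θ k) + c) :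
    |∫ θ, F θ ∂Measure.pi fun _ => μ| ≤ n * ∫ x, B x ∂μ + c := by
  refine (norm_integral_le_of_norm_le ((integrable_sum_pi hB).fun_add (integrable_const c))
    (ae_of_all _ fun θ => (Real.norm_eq_abs _).trans_le (h θ))).trans (le_of_eq ?_)
  rw [integral_add (integrable_sum_pi hB) (integrable_const c), integral_sum_pi hB, integral_const,
    probReal_univ, one_smul]

variable {Y : Type} [MeasurableSpace Y] {ν : Measure Y} [IsProbabilityMeasure ν]
  {G G' : (Fin n → X) → Y → ℝ} {B B' D : X → ℝ} {A A' E : Y → ℝ}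

omit [MeasurableSpace X] in
theorem integral_fibre_bound {c : ℝ} (hA : Integrable A ν) (θ : Fin n → X)
    (h : ∀ y, |G θ y| ≤ c + A y) : |∫ y, G θ y ∂ν| ≤ c + ∫ y, A y ∂ν := by
  refine (norm_integral_le_of_norm_le ((integrable_const c).fun_add hA)
    (ae_of_all _ fun y => (Real.norm_eq_abs _).trans_le (h y))).trans (le_of_eq ?_)
  rw [integral_add (integrable_const c) hA, integral_const, probReal_univ, one_smul]

theorem double_abs (hB : Integrable B μ) (hA : Integrable A ν)
    (h : ∀ θ y, |G θ y| ≤ ∑ k, B (θ k) + A y) :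
    |∫ θ, (∫ y, G θ y ∂ν) ∂Measure.pi fun _ => μ| ≤ n * ∫ x, B x ∂μ + ∫ y, A y ∂ν :=
  integral_abs_sum_bound hB fun θ => integral_fibre_bound hA θ (h θ)

theorem double_diff (hG : Measurable fun q : (Fin n → X) × Y => G q.1 q.2)
    (hG' : Measurable fun q : (Fin n → X) × Y => G' q.1 q.2) (hB : Integrable B μ) (hB' : Integrable B' μ)
    (hA : Integrable A ν) (hA' : Integrable A' ν) (hD : Integrable D μ) (hE : Integrable E ν)
    (h : ∀ θ y, |G θ y| ≤ ∑ k, B (θ k) + A y) (h' : ∀ θ y, |G' θ y| ≤ ∑ k, B' (θ k) + A' y)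
    (hd : ∀ θ y, |G' θ y - G θ y| ≤ ∑ k, D (θ k) + E y) :
    |∫ θ, (∫ y, G' θ y ∂ν) ∂(Measure.pi fun _ => μ) - ∫ θ, (∫ y, G θ y ∂ν) ∂Measure.pi fun _ => μ|
      ≤ n * ∫ x, D x ∂μ + ∫ y, E y ∂ν := by
  have inner : ∀ (G : (Fin n → X) → Y → ℝ) (B : X → ℝ) (A : Y → ℝ),
      Measurable (fun q : (Fin n → X) × Y => G q.1 q.2) → Integrable A ν →
      (∀ θ y, |G θ y| ≤ ∑ k, B (θ k) + A y) → ∀ θ, Integrable (G θ) ν := fun G B A hG hA h θ =>
    ((integrable_const _).fun_add hA).mono'
      (hG.comp (measurable_const.prodMk measurable_id)).aestronglyMeasurable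
      (ae_of_all _ fun y => (Real.norm_eq_abs _).trans_le (h θ y))
  have i1 : Integrable (fun θ => ∫ y, G' θ y ∂ν) (Measure.pi fun _ => μ) :=
    integrable_of_sum_bound (hG'.stronglyMeasurable.integral_prod_right').measurable hB'
      fun θ => integral_fibre_bound hA' θ (h' θ)
  have i2 : Integrable (fun θ => ∫ y, G θ y ∂ν) (Measure.pi fun _ => μ) :=
    integrable_of_sum_bound (hG.stronglyMeasurable.integral_prod_right').measurable hB
      fun θ => integral_fibre_bound hA θ (h θ)
  rw [← integral_sub i1 i2]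
  refine integral_abs_sum_bound hD fun θ => ?_
  rw [← integral_sub (inner G' B' A' hG' hA' h' θ) (inner G B A hG hA h θ)]
  exact integral_fibre_bound (G := fun θ y => G' θ y - G θ y) hE θ (hd θ)

end Pi

/-! ### Poisson sums -/

theorem hasSum_pois (c : ℝ) : HasSum (pois c) 1 := by
  have h := (NormedSpace.expSeries_div_hasSum_exp c).mul_left (exp (-c))
  rw [← Real.exp_eq_exp_ℝ, ← exp_add, neg_add_cancel, exp_zero] at h
  exact h.congr_fun fun n => by rw [pois]; ring

theorem hasSum_pois_mul (c : ℝ) : HasSum (fun n => pois c n * n) c := by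
  rw [← hasSum_nat_add_iff' 1]
  simp only [sum_range_one, Nat.cast_zero, mul_zero, sub_zero]
  have h := (hasSum_pois c).mul_left c
  rw [mul_one] at h
  refine h.congr_fun fun n => ?_
  simp only [pois, Nat.factorial_succ, Nat.cast_mul, Nat.cast_succ, pow_succ]
  field_simp

theorem pois_nonneg {c : ℝ} (hc : 0 ≤ c) (n : ℕ) : 0 ≤ pois c n := by rw [pois]; positivity

theorem summable_pois_mul {c α β : ℝ} (hc : 0 ≤ c) {a : ℕ → ℝ} (ha : ∀ n, |a n| ≤ α * n + β) :
    Summable fun n => pois c n * a n := by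
  refine Summable.of_norm_bounded
    (((hasSum_pois_mul c).summable.mul_left α).add ((hasSum_pois c).summable.mul_left β)) fun n => ?_
  rw [Real.norm_eq_abs, abs_mul, abs_of_nonneg (pois_nonneg hc n)]
  exact (mul_le_mul_of_nonneg_left (ha n) (pois_nonneg hc n)).trans (le_of_eq (by ring))

theorem tsum_pois_diff {c α β δ η : ℝ} (hc : 0 ≤ c) {a a' : ℕ → ℝ} (ha : ∀ n, |a n| ≤ α * n + β)
    (hd : ∀ n, |a' n - a n| ≤ δ * n + η) :
    |∑' n, pois c n * a' n - ∑' n, pois c n * a n| ≤ δ * c + η := by
  have ha' : ∀ n, |a' n| ≤ (α + δ) * n + (β + η) := fun n => by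
    have h1 := ha n; have h2 := hd n
    rw [abs_le] at h1 h2 ⊢
    constructor <;> nlinarith
  rw [← (summable_pois_mul hc ha').tsum_sub (summable_pois_mul hc ha)]
  have hb := ((hasSum_pois_mul c).mul_left δ).add ((hasSum_pois c).mul_left η)
  rw [mul_one] at hb
  refine tsum_of_norm_bounded (f := fun n => pois c n * a' n - pois c n * a n) hb fun n => ?_
  rw [Real.norm_eq_abs, ← mul_sub, abs_mul, abs_of_nonneg (pois_nonneg hc n)]
  exact (mul_le_mul_of_nonneg_left (hd n) (pois_nonneg hc n)).trans (le_of_eq (by ring))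

/-! ### The integrands -/

/-- Rules reading an interaction table from a clause and a field from a real number. -/
structure Reading (M : Model K) where
  /-- the table of a clause -/
  tab : Clause K → (Fin K → Bool) → ℝ
  /-- the field -/
  fld : ℝ → ℝ
  tab_meas : Measurable tab
  fld_meas : Measurable fld
  tab_int : Integrable (fun c => tnorm (tab c)) M.clause
  fld_int : Integrable (fun h => |fld h|) M.field

variable {M : Model K}

/-- The reading of the model itself. -/
noncomputable def Model.Admissible.reading (hM : M.Admissible) : Reading M where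
  tab := theta
  fld := id
  tab_meas := measurable_theta
  fld_meas := measurable_id
  tab_int := integrable_finsetSum _ fun s _ => (hM.theta_int s).abs
  fld_int := hM.field_int.abs

/-- The pressure integrand for `n` clauses. -/
noncomputable def Reading.pressTerm (R : Reading M) (N n : ℕ) : ℝ :=
  ∫ θ, (∫ h : Fin N → ℝ, mean (fun i : Fin n → Fin K → Fin N =>
      rawZ (fun k => R.tab (θ k)) i fun v => R.fld (h v))
    ∂Measure.pi fun _ : Fin N => M.field) ∂Measure.pi fun _ : Fin n => M.clause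

/-- The pressure of a reading. -/
noncomputable def Reading.press (R : Reading M) (lam : ℝ) (N : ℕ) : ℝ :=
  (∑' n, pois (lam * N) n * R.pressTerm N n) / N

/-- The integrand of `T U` for `n` clauses. -/
noncomputable def Reading.uTerm (R : Reading M) (r : ℕ) (m : Fin r → ℝ)
    (x : (Fin (r + 1) → ℝ) → ℝ) (n : ℕ) : ℝ :=
  ∫ θ, (∫ h, mean (fun ℓ : Fin n → Fin K =>
      trialT (Fin n × Fin K) r m x (rawU (fun k => R.tab (θ k)) ℓ (R.fld h))) ∂M.field)
    ∂Measure.pi fun _ : Fin n => M.clause

/-- The integrand of `T V` for `n` clauses. -/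
noncomputable def Reading.vTerm (R : Reading M) (r : ℕ) (m : Fin r → ℝ)
    (x : (Fin (r + 1) → ℝ) → ℝ) (n : ℕ) : ℝ :=
  ∫ θ, trialT (Fin n × Fin K) r m x (rawV fun k => R.tab (θ k)) ∂Measure.pi fun _ : Fin n => M.clause

/-- The trial value of a reading. -/
noncomputable def Reading.trial (R : Reading M) (lam : ℝ) (r : ℕ) (m : Fin r → ℝ)
    (x : (Fin (r + 1) → ℝ) → ℝ) : ℝ :=
  ∑' n, pois (K * lam) n * R.uTerm r m x n - ∑' n, pois ((K - 1) * lam) n * R.vTerm r m x n

theorem pressure_eq (hM : M.Admissible) (lam : ℝ) (N : ℕ) :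
    pressure M lam N = hM.reading.press lam N := rfl

theorem trialValue_eq (hM : M.Admissible) (lam : ℝ) (r : ℕ) (m : Fin r → ℝ)
    (x : (Fin (r + 1) → ℝ) → ℝ) : trialValue M lam r m x = hM.reading.trial lam r m x := rfl

/-- The mean change of the table. -/
noncomputable def Reading.tabShift (R R' : Reading M) : ℝ :=
  ∫ c, tnorm (fun s => R'.tab c s - R.tab c s) ∂M.clause

/-- The mean change of the field. -/
noncomputable def Reading.fldShift (R R' : Reading M) : ℝ := ∫ h, |R'.fld h - R.fld h| ∂M.field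

/-- The mean size of the table. -/
noncomputable def Reading.tabSize (R : Reading M) : ℝ := ∫ c, tnorm (R.tab c) ∂M.clause

/-- The mean size of the field. -/
noncomputable def Reading.fldSize (R : Reading M) : ℝ := ∫ h, |R.fld h| ∂M.field

theorem Reading.tabShift_int (R R' : Reading M) :
    Integrable (fun c => tnorm fun s => R'.tab c s - R.tab c s) M.clause := by
  refine (R'.tab_int.fun_add R.tab_int).mono' ?_ (ae_of_all _ fun c => ?_)
  · exact (Finset.measurable_sum _ fun s _ => ((measurable_pi_iff.1 R'.tab_meas s).sub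
      (measurable_pi_iff.1 R.tab_meas s)).abs).aestronglyMeasurable
  · rw [Real.norm_eq_abs, abs_of_nonneg (tnorm_nonneg _), tnorm, tnorm, tnorm, ← sum_add_distrib]
    exact sum_le_sum fun s _ => abs_sub _ _

theorem Reading.fldShift_int (R R' : Reading M) :
    Integrable (fun h => |R'.fld h - R.fld h|) M.field :=
  (R'.fld_int.fun_add R.fld_int).mono' (R'.fld_meas.sub R.fld_meas).abs.aestronglyMeasurable
    (ae_of_all _ fun h => by rw [Real.norm_eq_abs, abs_abs]; exact abs_sub _ _)

theorem measurable_rawZ_read (R : Reading M) {n N : ℕ} :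
    Measurable fun q : (Fin n → Clause K) × (Fin N → ℝ) => mean fun i : Fin n → Fin K → Fin N =>
      rawZ (fun k => R.tab (q.1 k)) i fun v => R.fld (q.2 v) := by
  have ht : ∀ (k : Fin n) (s : Fin K → Bool),
      Measurable fun q : (Fin n → Clause K) × (Fin N → ℝ) => R.tab (q.1 k) s := fun k s =>
    (measurable_pi_iff.1 R.tab_meas s).comp ((measurable_pi_apply k).comp measurable_fst)
  have hh : ∀ v : Fin N, Measurable fun q : (Fin n → Clause K) × (Fin N → ℝ) => R.fld (q.2 v) := fun v =>
    R.fld_meas.comp ((measurable_pi_apply v).comp measurable_snd)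
  unfold rawZ
  exact (Finset.measurable_sum _ fun i _ => Measurable.log (Finset.measurable_sum _ fun σ _ =>
    Measurable.exp (Measurable.add (Finset.measurable_sum _ fun k _ => ht k _)
    (Finset.measurable_sum _ fun v _ => (hh v).mul_const _)))).div_const _

section trial

variable {r n : ℕ} {m : Fin r → ℝ} {x : (Fin (r + 1) → ℝ) → ℝ}
  (hm : ∀ p, 0 < m p) (hx : Measurable x) (hxb : ∀ w, x w ∈ Set.Icc (-1 : ℝ) 1)

include hm hx hxb

theorem trialU_lip (T T' : Fin n → (Fin K → Bool) → ℝ) (ℓ : Fin n → Fin K) (h h' : ℝ)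
    {d : Fin n → ℝ} (hd : ∀ k s, |T k s - T' k s| ≤ d k) :
    |trialT (Fin n × Fin K) r m x (rawU T ℓ h) - trialT (Fin n × Fin K) r m x (rawU T' ℓ h')|
      ≤ ∑ k, d k + |h - h'| :=
  trialT_lip hm hx hxb (measurable_rawU _ _ _) (measurable_rawU _ _ _) (fun a ha => rawU_abs T ℓ a h ha)
    (fun a ha => rawU_abs T' ℓ a h' ha) fun a ha => rawU_lip T T' ℓ a h h' hd ha

theorem trialV_lip (T T' : Fin n → (Fin K → Bool) → ℝ) {d : Fin n → ℝ}
    (hd : ∀ k s, |T k s - T' k s| ≤ d k) :
    |trialT (Fin n × Fin K) r m x (rawV T) - trialT (Fin n × Fin K) r m x (rawV T')| ≤ ∑ k, d k :=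
  trialT_lip hm hx hxb (measurable_rawV _) (measurable_rawV _) (fun a ha => rawV_abs T a ha)
    (fun a ha => rawV_abs T' a ha) fun a ha => rawV_lip T T' a hd ha

theorem trialU_abs (T : Fin n → (Fin K → Bool) → ℝ) (ℓ : Fin n → Fin K) (h : ℝ) :
    |trialT (Fin n × Fin K) r m x (rawU T ℓ h)| ≤ ∑ k, tnorm (T k) + |h| + log 2 :=
  trialT_abs_le hm hx hxb (measurable_rawU _ _ _) fun a ha => rawU_abs T ℓ a h ha

theorem trialV_abs (T : Fin n → (Fin K → Bool) → ℝ) :
    |trialT (Fin n × Fin K) r m x (rawV T)| ≤ ∑ k, tnorm (T k) :=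
  trialT_abs_le hm hx hxb (measurable_rawV _) fun a ha => rawV_abs T a ha

theorem lip_trialU (ℓ : Fin n → Fin K) :
    LipschitzWith (n + 1 : ℕ) fun q : (Fin n → (Fin K → Bool) → ℝ) × ℝ =>
      trialT (Fin n × Fin K) r m x (rawU q.1 ℓ q.2) := by
  refine LipschitzWith.of_dist_le_mul fun p q => ?_
  have h1 : ∀ k s, |p.1 k s - q.1 k s| ≤ dist p q := fun k s => by
    rw [← Real.dist_eq]
    exact (dist_le_pi_dist (p.1 k) (q.1 k) s).trans ((dist_le_pi_dist p.1 q.1 k).trans (le_max_left _ _))
  have h2 : |p.2 - q.2| ≤ dist p q := by rw [← Real.dist_eq]; exact le_max_right _ _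
  have h3 := trialU_lip hm hx hxb p.1 q.1 ℓ p.2 q.2 (d := fun _ => dist p q) h1
  simp only [sum_const, card_univ, Fintype.card_fin, nsmul_eq_mul] at h3
  rw [Real.dist_eq]
  push_cast
  linarith

theorem measurable_meanU (R : Reading M) :
    Measurable fun q : (Fin n → Clause K) × ℝ => mean fun ℓ : Fin n → Fin K =>
      trialT (Fin n × Fin K) r m x (rawU (fun k => R.tab (q.1 k)) ℓ (R.fld q.2)) := by
  have hp : Measurable fun q : (Fin n → Clause K) × ℝ =>
      ((fun k => R.tab (q.1 k), R.fld q.2) : (Fin n → (Fin K → Bool) → ℝ) × ℝ) := by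
    have hθ : ∀ k : Fin n, Measurable fun q : (Fin n → Clause K) × ℝ => q.1 k := fun k =>
      (measurable_pi_apply k).comp measurable_fst
    exact Measurable.prodMk (measurable_pi_lambda _ fun k => R.tab_meas.comp (hθ k))
      (R.fld_meas.comp measurable_snd)
  refine (Finset.measurable_sum _ fun ℓ _ => ?_).div_const _
  have hc : Measurable fun q : (Fin n → (Fin K → Bool) → ℝ) × ℝ =>
      trialT (Fin n × Fin K) r m x (rawU q.1 ℓ q.2) := (lip_trialU hm hx hxb ℓ).continuous.measurable
  exact hc.fun_comp hp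

theorem measurable_trialV (R : Reading M) : Measurable fun θ : Fin n → Clause K =>
    trialT (Fin n × Fin K) r m x (rawV fun k => R.tab (θ k)) := by
  have hl : LipschitzWith (n : ℕ) fun q : Fin n → (Fin K → Bool) → ℝ =>
      trialT (Fin n × Fin K) r m x (rawV q) := LipschitzWith.of_dist_le_mul fun p q => by
    rw [Real.dist_eq]
    refine (trialV_lip hm hx hxb p q (d := fun _ => dist p q) fun k s => ?_).trans ?_
    · rw [← Real.dist_eq]
      exact (dist_le_pi_dist (p k) (q k) s).trans (dist_le_pi_dist p q k)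
    · simp
  have hc : Measurable fun q : Fin n → (Fin K → Bool) → ℝ =>
      trialT (Fin n × Fin K) r m x (rawV q) := hl.continuous.measurable
  have hp : Measurable fun θ : Fin n → Clause K => (fun k => R.tab (θ k)) :=
    measurable_pi_lambda _ fun k => R.tab_meas.comp (measurable_pi_apply k)
  exact hc.fun_comp hp

end trial

/-! ### Continuity -/

namespace Reading

variable (R R' : Reading M)

theorem pressG_abs {n N : ℕ} (θ : Fin n → Clause K) (h : Fin N → ℝ) :
    |mean fun i : Fin n → Fin K → Fin N => rawZ (fun k => R.tab (θ k)) i fun v => R.fld (h v)|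
      ≤ ∑ k, tnorm (R.tab (θ k)) + (∑ v, |R.fld (h v)| + N * log 2) :=
  mean_abs_bound (add_nonneg (sum_nonneg fun _ _ => tnorm_nonneg _) (add_nonneg
    (sum_nonneg fun _ _ => abs_nonneg _) (mul_nonneg (Nat.cast_nonneg _) (log_nonneg one_le_two))))
    fun i => (rawZ_abs _ i _).trans (le_of_eq (add_assoc _ _ _))

variable [IsProbabilityMeasure M.clause] [IsProbabilityMeasure M.field]

theorem field_pi_int (N : ℕ) :
    Integrable (fun h : Fin N → ℝ => ∑ v, |R.fld (h v)| + N * log 2) (Measure.pi fun _ => M.field) :=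
  (integrable_sum_pi R.fld_int).fun_add (integrable_const _)

theorem pressTerm_abs (N n : ℕ) :
    |R.pressTerm N n| ≤ R.tabSize * n + (N * R.fldSize + N * log 2) := by
  refine (double_abs R.tab_int (R.field_pi_int N) R.pressG_abs).trans (le_of_eq ?_)
  rw [integral_add (integrable_sum_pi R.fld_int) (integrable_const _), integral_sum_pi R.fld_int,
    integral_const, probReal_univ, one_smul, fldSize, tabSize, mul_comm]

theorem pressTerm_diff (N n : ℕ) :
    |R'.pressTerm N n - R.pressTerm N n| ≤ R.tabShift R' * n + N * R.fldShift R' := by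
  refine (double_diff (E := fun h => ∑ v, |R'.fld (h v) - R.fld (h v)|)
    (D := fun c => tnorm fun s => R'.tab c s - R.tab c s)
    (measurable_rawZ_read R) (measurable_rawZ_read R') R.tab_int R'.tab_int
    (R.field_pi_int N) (R'.field_pi_int N) (R.tabShift_int R')
    (integrable_sum_pi (R.fldShift_int R')) R.pressG_abs R'.pressG_abs fun θ h => ?_).trans (le_of_eq ?_)
  · refine mean_diff_le (add_nonneg (sum_nonneg fun _ _ => tnorm_nonneg _)
      (sum_nonneg fun _ _ => abs_nonneg _)) fun i => ?_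
    exact rawZ_lip _ _ i _ _ fun k s => abs_le_tnorm (fun s => R'.tab (θ k) s - R.tab (θ k) s) s
  · rw [integral_sum_pi (R.fldShift_int R'), tabShift, fldShift, mul_comm]

theorem press_diff {lam : ℝ} (hlam : 0 ≤ lam) {N : ℕ} (hN : 0 < N) :
    |R'.press lam N - R.press lam N| ≤ R.tabShift R' * lam + R.fldShift R' := by
  rw [press, press, div_sub_div_same, abs_div, Nat.abs_cast, div_le_iff₀ (Nat.cast_pos.2 hN)]
  exact (tsum_pois_diff (mul_nonneg hlam (Nat.cast_nonneg N)) (R.pressTerm_abs N)
    (R.pressTerm_diff R' N)).trans (le_of_eq (by ring))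

section terms

variable {r : ℕ} {m : Fin r → ℝ} {x : (Fin (r + 1) → ℝ) → ℝ}
  (hm : ∀ p, 0 < m p) (hx : Measurable x) (hxb : ∀ w, x w ∈ Set.Icc (-1 : ℝ) 1)

include hm hx hxb

omit [IsProbabilityMeasure M.clause] [IsProbabilityMeasure M.field] in
theorem uG_abs {n : ℕ} (θ : Fin n → Clause K) (h : ℝ) :
    |mean fun ℓ : Fin n → Fin K =>
        trialT (Fin n × Fin K) r m x (rawU (fun k => R.tab (θ k)) ℓ (R.fld h))|
      ≤ ∑ k, tnorm (R.tab (θ k)) + (|R.fld h| + log 2) :=
  mean_abs_bound (add_nonneg (sum_nonneg fun _ _ => tnorm_nonneg _)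
    (add_nonneg (abs_nonneg _) (log_nonneg one_le_two)))
    fun ℓ => (trialU_abs hm hx hxb _ ℓ _).trans (le_of_eq (add_assoc _ _ _))

theorem uTerm_abs (n : ℕ) : |R.uTerm r m x n| ≤ R.tabSize * n + (R.fldSize + log 2) := by
  refine (double_abs R.tab_int (R.fld_int.fun_add (integrable_const (log 2)))
    (R.uG_abs hm hx hxb)).trans (le_of_eq ?_)
  rw [integral_add R.fld_int (integrable_const _), integral_const, probReal_univ, one_smul,
    fldSize, tabSize, mul_comm]

omit [IsProbabilityMeasure M.field] in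
theorem vTerm_abs (n : ℕ) : |R.vTerm r m x n| ≤ R.tabSize * n + 0 :=
  (integral_abs_sum_bound (c := 0) R.tab_int fun θ =>
    (trialV_abs hm hx hxb _).trans (le_of_eq (add_zero _).symm)).trans
      (le_of_eq (by rw [tabSize, mul_comm]))

theorem uTerm_diff (n : ℕ) :
    |R'.uTerm r m x n - R.uTerm r m x n| ≤ R.tabShift R' * n + R.fldShift R' := by
  refine (double_diff (E := fun h => |R'.fld h - R.fld h|)
    (D := fun c => tnorm fun s => R'.tab c s - R.tab c s)
    (measurable_meanU hm hx hxb R) (measurable_meanU hm hx hxb R') R.tab_int R'.tab_int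
    (R.fld_int.fun_add (integrable_const _)) (R'.fld_int.fun_add (integrable_const _))
    (R.tabShift_int R') (R.fldShift_int R') (R.uG_abs hm hx hxb) (R'.uG_abs hm hx hxb)
    fun θ h => ?_).trans (le_of_eq (by rw [tabShift, fldShift, mul_comm]))
  refine mean_diff_le (add_nonneg (sum_nonneg fun _ _ => tnorm_nonneg _) (abs_nonneg _)) fun ℓ => ?_
  exact trialU_lip hm hx hxb _ _ ℓ _ _ fun k s => abs_le_tnorm (fun s => R'.tab (θ k) s - R.tab (θ k) s) s

omit [IsProbabilityMeasure M.field] in
theorem vTerm_diff (n : ℕ) : |R'.vTerm r m x n - R.vTerm r m x n| ≤ R.tabShift R' * n + 0 := by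
  rw [add_zero, mul_comm]
  have hi : ∀ R : Reading M, Integrable (fun θ : Fin n → Clause K =>
      trialT (Fin n × Fin K) r m x (rawV fun k => R.tab (θ k))) (Measure.pi fun _ => M.clause) :=
    fun R => integrable_of_sum_bound (c := 0) (measurable_trialV hm hx hxb R) R.tab_int fun θ =>
      (trialV_abs hm hx hxb _).trans (le_of_eq (add_zero _).symm)
  rw [vTerm, vTerm, ← integral_sub (hi R') (hi R)]
  refine (integral_abs_sum_bound (c := 0) (R.tabShift_int R') fun θ => ?_).trans
    (le_of_eq (add_zero _))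
  rw [add_zero]
  exact trialV_lip hm hx hxb _ _ fun k s => abs_le_tnorm (fun s => R'.tab (θ k) s - R.tab (θ k) s) s

theorem trial_diff {lam : ℝ} (hlam : 0 ≤ lam) (hK : 1 ≤ K) :
    |R'.trial lam r m x - R.trial lam r m x|
      ≤ R.tabShift R' * ((2 * K - 1) * lam) + R.fldShift R' := by
  rw [trial, trial, sub_sub_sub_comm]
  have hK' : (1 : ℝ) ≤ K := Nat.one_le_cast.2 hK
  have a := tsum_pois_diff (c := (K : ℝ) * lam) (by positivity) (R.uTerm_abs hm hx hxb)
    (R.uTerm_diff R' hm hx hxb)
  have b := tsum_pois_diff (c := ((K : ℝ) - 1) * lam) (mul_nonneg (by linarith) hlam)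
    (R.vTerm_abs hm hx hxb) (R.vTerm_diff R' hm hx hxb)
  exact (abs_sub _ _).trans ((add_le_add a b).trans (le_of_eq (by ring)))

end terms

end Reading

end Vale.Agent.P168
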