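import Vale.Agent.P168.Defs

/-!
# P168: variances of functions of independent coordinates
-/

open Real Finset

namespace Vale.Agent.P168

variable {α β : Type*} [Fintype α] [Fintype β]

/-- The mean under weights. -/
noncomputable def wmean (w f : α → ℝ) : ℝ := ∑ a, w a * f a

/-- The variance under weights. -/
noncomputable def wvar (w f : α → ℝ) : ℝ := ∑ a, w a * (f a - wmean w f) ^ 2

/-- Nonnegative weights of total one. -/
structure IsWeight (w : α → ℝ) : Prop where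
  nonneg : ∀ a, 0 ≤ w a
  sum : ∑ a, w a = 1

theorem wmean_lip {w : α → ℝ} (hw : IsWeight w) {f g : α → ℝ} {B : ℝ} (h : ∀ a, |f a - g a| ≤ B) :
    |wmean w f - wmean w g| ≤ B := by
  rw [wmean, wmean, ← sum_sub_distrib]
  refine (abs_sum_le_sum_abs _ _).trans ((sum_le_sum fun a _ => ?_).trans
    (le_of_eq (show ∑ a, w a * B = B by rw [← sum_mul, hw.sum, one_mul])))
  rw [← mul_sub, abs_mul, abs_of_nonneg (hw.nonneg a)]
  exact mul_le_mul_of_nonneg_left (h a) (hw.nonneg a)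

theorem wvar_eq {w : α → ℝ} (hw : IsWeight w) (f : α → ℝ) (c : ℝ) :
    ∑ a, w a * (f a - c) ^ 2 = wvar w f + (wmean w f - c) ^ 2 := by
  have h : ∀ a, w a * (f a - c) ^ 2 = w a * (f a - wmean w f) ^ 2
      + 2 * (wmean w f - c) * (w a * f a) + (c ^ 2 - wmean w f ^ 2) * w a := fun a => by ring
  simp only [h, sum_add_distrib, ← mul_sum, hw.sum, wvar]
  rw [show ∑ a, w a * f a = wmean w f from rfl]
  ring

theorem wvar_le_sq {w : α → ℝ} (hw : IsWeight w) (f : α → ℝ) (c : ℝ) :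
    wvar w f ≤ ∑ a, w a * (f a - c) ^ 2 := by
  rw [wvar_eq hw f c]; nlinarith [sq_nonneg (wmean w f - c)]

theorem wvar_le_diam {w : α → ℝ} (hw : IsWeight w) {f : α → ℝ} {B : ℝ}
    (h : ∀ a a', |f a - f a'| ≤ B) : wvar w f ≤ B ^ 2 := by
  rcases isEmpty_or_nonempty α with hα | ⟨⟨a₀⟩⟩
  · simpa using hw.sum
  refine (wvar_le_sq hw f (f a₀)).trans ((sum_le_sum fun a _ => mul_le_mul_of_nonneg_left
    (sq_le_sq' (abs_le.1 (h a a₀)).1 (abs_le.1 (h a a₀)).2) (hw.nonneg a)).trans (le_of_eq ?_))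
  rw [← sum_mul, hw.sum, one_mul]

theorem wvar_comp {w g f : α → ℝ} (hw : IsWeight w) {B : ℝ}
    (h : ∀ a a', |f a - f a'| ≤ B * |g a - g a'|) (c : ℝ) :
    wvar w f ≤ B ^ 2 * ∑ a, w a * (g a - c) ^ 2 := by
  have pair : ∀ f : α → ℝ, ∑ a, ∑ a', w a * w a' * (f a - f a') ^ 2 = 2 * wvar w f := fun f => by
    calc ∑ a, ∑ a', w a * w a' * (f a - f a') ^ 2
        = ∑ a, w a * (wvar w f + (wmean w f - f a) ^ 2) := sum_congr rfl fun a _ => by
          rw [← wvar_eq hw f (f a), mul_sum]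
          exact sum_congr rfl fun a' _ => by ring
      _ = 2 * wvar w f := by
          simp only [mul_add, sum_add_distrib, ← sum_mul, hw.sum, one_mul]
          rw [sum_congr rfl fun a _ => show w a * (wmean w f - f a) ^ 2 = w a * (f a - wmean w f) ^ 2 by
            ring]
          rw [wvar]; ring
  refine le_trans ?_ (mul_le_mul_of_nonneg_left (wvar_le_sq hw g c) (sq_nonneg B))
  have h2 : 2 * wvar w f ≤ B ^ 2 * (2 * wvar w g) := by
    rw [← pair f, ← pair g, mul_sum]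
    refine sum_le_sum fun a _ => ?_
    rw [mul_sum]
    refine sum_le_sum fun a' _ => ?_
    calc w a * w a' * (f a - f a') ^ 2 ≤ w a * w a' * (B * |g a - g a'|) ^ 2 :=
          mul_le_mul_of_nonneg_left (sq_le_sq' (abs_le.1 (h a a')).1 (abs_le.1 (h a a')).2)
            (mul_nonneg (hw.nonneg a) (hw.nonneg a'))
      _ = B ^ 2 * (w a * w a' * (g a - g a') ^ 2) := by rw [mul_pow, sq_abs]; ring
  linarith

theorem wdev_le {w : α → ℝ} (hw : IsWeight w) (f : α → ℝ) :
    ∑ a, w a * |f a - wmean w f| ≤ √(wvar w f) := by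
  refine Real.le_sqrt_of_sq_le ?_
  have h := wvar_le_sq hw (fun a => |f a - wmean w f|) 0
  have e := wvar_eq hw (fun a => |f a - wmean w f|) 0
  have h0 : 0 ≤ wvar w fun a => |f a - wmean w f| := sum_nonneg fun a _ =>
    mul_nonneg (hw.nonneg a) (sq_nonneg _)
  simp only [sub_zero, sq_abs] at e
  have : (wmean w fun a => |f a - wmean w f|) = ∑ a, w a * |f a - wmean w f| := rfl
  rw [this] at e
  change (∑ a, w a * |f a - wmean w f|) ^ 2 ≤ ∑ a, w a * (f a - wmean w f) ^ 2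
  linarith

theorem IsWeight.prod {w : α → ℝ} {v : β → ℝ} (hw : IsWeight w) (hv : IsWeight v) :
    IsWeight fun p : α × β => w p.1 * v p.2 :=
  ⟨fun p => mul_nonneg (hw.nonneg _) (hv.nonneg _), by
    rw [Fintype.sum_prod_type]; simp [← mul_sum, hv.sum, hw.sum]⟩

theorem IsWeight.sigma {γ : α → Type*} [∀ a, Fintype (γ a)] {w : α → ℝ} {v : ∀ a, γ a → ℝ}
    (hw : IsWeight w) (hv : ∀ a, IsWeight (v a)) : IsWeight fun p : Sigma γ => w p.1 * v p.1 p.2 :=
  ⟨fun p => mul_nonneg (hw.nonneg _) ((hv _).nonneg _), by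
    rw [Fintype.sum_sigma]; simp [← mul_sum, (hv _).sum, hw.sum]⟩

theorem wvar_sigma {γ : α → Type*} [∀ a, Fintype (γ a)] {w : α → ℝ} {v : ∀ a, γ a → ℝ}
    (hw : IsWeight w) (hv : ∀ a, IsWeight (v a)) (f : Sigma γ → ℝ) {b c : ℝ}
    (h1 : ∀ a, wvar (v a) (fun y => f ⟨a, y⟩) ≤ b)
    (h2 : wvar w (fun a => wmean (v a) fun y => f ⟨a, y⟩) ≤ c) :
    wvar (fun p : Sigma γ => w p.1 * v p.1 p.2) f ≤ b + c := by
  refine (wvar_le_sq (hw.sigma hv) f (wmean w fun a => wmean (v a) fun y => f ⟨a, y⟩)).trans ?_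
  rw [Fintype.sum_sigma]
  simp only [mul_assoc, ← mul_sum]
  simp only [wvar_eq (hv _), mul_add, sum_add_distrib]
  refine add_le_add ((sum_le_sum fun a _ => mul_le_mul_of_nonneg_left (h1 a) (hw.nonneg a)).trans
    (le_of_eq (by rw [← sum_mul, hw.sum, one_mul]))) ?_
  exact h2

theorem wvar_prod {w : α → ℝ} {v : β → ℝ} (hw : IsWeight w) (hv : IsWeight v) (f : α × β → ℝ)
    {b c : ℝ} (h1 : ∀ a, wvar v (fun y => f (a, y)) ≤ b)
    (h2 : wvar w (fun a => wmean v fun y => f (a, y)) ≤ c) :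
    wvar (fun p : α × β => w p.1 * v p.2) f ≤ b + c := by
  refine (wvar_le_sq (hw.prod hv) f (wmean w fun a => wmean v fun y => f (a, y))).trans ?_
  rw [Fintype.sum_prod_type]
  simp only [mul_assoc, ← mul_sum]
  simp only [wvar_eq hv, mul_add, sum_add_distrib]
  refine add_le_add ((sum_le_sum fun a _ => mul_le_mul_of_nonneg_left (h1 a) (hw.nonneg a)).trans
    (le_of_eq (by rw [← sum_mul, hw.sum, one_mul]))) ?_
  exact h2

theorem IsWeight.equiv {w : α → ℝ} (hw : IsWeight w) (e : β ≃ α) : IsWeight fun b => w (e b) :=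
  ⟨fun b => hw.nonneg _, (e.sum_comp w).trans hw.sum⟩

theorem wvar_equiv (e : β ≃ α) (w f : α → ℝ) : wvar (fun b => w (e b)) (fun b => f (e b)) = wvar w f := by
  have hm : wmean (fun b => w (e b)) (fun b => f (e b)) = wmean w f :=
    e.sum_comp fun a => w a * f a
  simp only [wvar, hm]
  exact e.sum_comp fun a => w a * (f a - wmean w f) ^ 2

theorem IsWeight.piProd {ι : Type*} [Fintype ι] [DecidableEq ι] {X : ι → Type*} [∀ i, Fintype (X i)]
    {w : ∀ i, X i → ℝ} (hw : ∀ i, IsWeight (w i)) : IsWeight fun x : ∀ i, X i => ∏ i, w i (x i) :=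
  ⟨fun x => prod_nonneg fun i _ => (hw i).nonneg _, by
    rw [← Fintype.prod_sum]; exact prod_eq_one fun i _ => (hw i).sum⟩

theorem wvar_fin :
    ∀ (n : ℕ) (X : Fin n → Type) [∀ i, Fintype (X i)] (w : ∀ i, X i → ℝ), (∀ i, IsWeight (w i)) →
      ∀ (f : (∀ i, X i) → ℝ) (B : ℝ),
        (∀ i x x', (∀ j, j ≠ i → x j = x' j) → |f x - f x'| ≤ B) →
          wvar (fun x : ∀ i, X i => ∏ i, w i (x i)) f ≤ n * B ^ 2
  | 0, X, _, w, hw, f, B, _ => by
    have h : ∀ a a' : ∀ i, X i, |f a - f a'| ≤ 0 := fun a a' => by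
      rw [show a = a' from funext fun i => i.elim0, sub_self, abs_zero]
    simpa using wvar_le_diam (IsWeight.piProd hw) h
  | n + 1, X, inst, w, hw, f, B, h => by
    rw [← wvar_equiv (Fin.consEquiv X)]
    have e : (fun p : X 0 × ∀ i : Fin n, X i.succ => ∏ i, w i (Fin.consEquiv X p i))
        = fun p => w 0 p.1 * ∏ i : Fin n, w i.succ (p.2 i) := funext fun p => by
      simp [Fin.prod_univ_succ, Fin.consEquiv]
    rw [e]
    refine (wvar_prod (hw 0) (IsWeight.piProd fun i => hw i.succ) _ (b := n * B ^ 2) (c := B ^ 2)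
      (fun a => ?_) (wvar_le_diam (hw 0) fun a a' => ?_)).trans (le_of_eq (by push_cast; ring))
    · refine wvar_fin n _ _ (fun i => hw i.succ) _ B fun i x x' hx => h i.succ _ _ fun j hj => ?_
      induction j using Fin.cases with
      | zero => rfl
      | succ k => simpa [Fin.consEquiv] using hx k fun hk => hj (congrArg Fin.succ hk)
    · refine wmean_lip (IsWeight.piProd fun i => hw i.succ) fun y => h 0 _ _ fun j hj => ?_
      induction j using Fin.cases with
      | zero => exact absurd rfl hj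
      | succ k => simp [Fin.consEquiv]

theorem wvar_pi {ι : Type} [Fintype ι] [DecidableEq ι] {X : ι → Type} [∀ i, Fintype (X i)]
    (w : ∀ i, X i → ℝ) (hw : ∀ i, IsWeight (w i)) (f : (∀ i, X i) → ℝ) (B : ℝ)
    (h : ∀ i x x', (∀ j, j ≠ i → x j = x' j) → |f x - f x'| ≤ B) :
    wvar (fun x : ∀ i, X i => ∏ i, w i (x i)) f ≤ Fintype.card ι * B ^ 2 := by
  set e := (Fintype.equivFin ι).symm
  rw [← wvar_equiv (Equiv.piCongrLeft X e)]
  refine le_of_eq_of_le ?_ (wvar_fin _ (fun i => X (e i)) (fun i => w (e i)) (fun i => hw (e i))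
    (fun y => f (Equiv.piCongrLeft X e y)) B fun i x x' hx => h (e i) _ _ fun j hj => ?_)
  · congr 1
    funext y
    rw [← e.prod_comp]
    simp
  · obtain ⟨j, rfl⟩ := e.surjective j
    simpa using hx j fun hk => hj (congrArg e hk)

theorem IsWeight.uniform [Nonempty α] : IsWeight fun _ : α => 1 / (Fintype.card α : ℝ) :=
  ⟨fun _ => by positivity, by simp [Finset.card_univ]⟩

end Vale.Agent.P168
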