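import Vale.Agent.P168.Lower.AsmTools
import Vale.Agent.P168.Lower.Continuity
import Vale.Agent.P168.Lower.Variance
import Vale.Agent.P168.Perturb.Energy

/-!
# P168: the root value of a cavity system fluctuates by the square root of its size
-/

open Real Finset

namespace Vale.Agent.P168

variable {K L N : ℕ}

theorem abs_log_le_one {y : ℝ} (h1 : 1 / 2 ≤ y) (h2 : y ≤ 3 / 2) : |log y| ≤ 1 := by
  have h0 : 0 < y := by linarith
  have hu := log_le_sub_one_of_pos h0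
  have hl := one_sub_inv_le_log_of_pos h0
  have hi : y⁻¹ ≤ 2 := by
    rw [inv_le_comm₀ h0 two_pos]; linarith
  exact abs_le.2 ⟨by linarith, by linarith⟩

/-- One term is bounded. -/
theorem abs_term_le {τ : Kind L} (hu : |τ.u| * τ.n ≤ 1 / 2) {t : ℝ} (ht : |t| ≤ 2) (root : τ.Root N)
    (lab : Fin L → τ.Lab) (σ : Fin N → Bool) : |τ.term t root lab σ| ≤ 5 := by
  have h : |τ.u * τ.field root lab σ| ≤ 1 / 2 := by
    rw [abs_mul]
    exact (mul_le_mul_of_nonneg_left (abs_field_le τ root lab σ) (abs_nonneg _)).trans hu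
  have h1 := abs_log_le_one (y := 1 + τ.u * τ.field root lab σ) (by linarith [(abs_le.1 h).1])
    (by linarith [(abs_le.1 h).2])
  have h2 : |t * τ.energy root lab σ| ≤ 2 * 2 := by
    rw [abs_mul]; exact mul_le_mul ht (abs_energy_le hu _ _ _) (abs_nonneg _) two_pos.le
  exact (abs_add_le _ _).trans (by linarith)

/-- The total size of the tables of a finite model. -/
noncomputable def FinModel.tabBound (M : FinModel K) : ℝ := ∑ d, ∑ s, |M.th d s|

/-- The total size of the fields of a finite model. -/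
noncomputable def FinModel.fldBound (M : FinModel K) : ℝ := ∑ h, |M.hv h|

theorem tabBound_nonneg (M : FinModel K) : 0 ≤ M.tabBound :=
  sum_nonneg fun _ _ => sum_nonneg fun _ _ => abs_nonneg _

theorem fldBound_nonneg (M : FinModel K) : 0 ≤ M.fldBound := sum_nonneg fun _ _ => abs_nonneg _

theorem abs_th_le (M : FinModel K) (d : M.D) (s : Fin K → Bool) : |M.th d s| ≤ M.tabBound :=
  (single_le_sum (f := fun s => |M.th d s|) (fun _ _ => abs_nonneg _) (mem_univ s)).trans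
    (single_le_sum (f := fun d => ∑ s, |M.th d s|) (fun _ _ => sum_nonneg fun _ _ => abs_nonneg _)
      (mem_univ d))

theorem abs_fld_le (M : FinModel K) (h : M.Hh) (b : Bool) : |M.hv h * spin b| ≤ M.fldBound := by
  rw [abs_mul, spin_abs, mul_one]
  exact single_le_sum (f := fun h => |M.hv h|) (fun _ _ => abs_nonneg _) (mem_univ h)

theorem sum_diff_one {ι : Type*} [Fintype ι] {f g : ι → ℝ} (i : ι) {B : ℝ}
    (h : ∀ j, j ≠ i → f j = g j) (hi : |f i - g i| ≤ B) : |∑ j, f j - ∑ j, g j| ≤ B := by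
  rw [← sum_sub_distrib, sum_eq_single i (fun j _ hj => by rw [h j hj, sub_self])
    fun hi' => absurd (mem_univ i) hi']
  exact hi

theorem hasSum_pois_sq (c : ℝ) : HasSum (fun n : ℕ => pois c n * ((n : ℝ) - c) ^ 2) c := by
  have h2 : HasSum (fun n : ℕ => pois c n * (n : ℝ) ^ 2) (c * (c + 1)) := by
    rw [← hasSum_nat_add_iff' 1]
    simp only [sum_range_one, Nat.cast_zero, ne_eq, OfNat.ofNat_ne_zero, not_false_eq_true, zero_pow,
      mul_zero, sub_zero]
    refine (((hasSum_pois_mul c).add (hasSum_pois c)).mul_left c).congr_fun fun n => ?_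
    simp only [pois, Nat.factorial_succ, Nat.cast_mul, Nat.cast_succ, pow_succ]
    field_simp
  have h := (h2.add ((hasSum_pois_mul c).mul_left (-2 * c))).add ((hasSum_pois c).mul_left (c ^ 2))
  rw [show c * (c + 1) + -2 * c * c + c ^ 2 * 1 = c by ring] at h
  exact h.congr_fun fun n => by ring

theorem pois_mass_ge {c : ℝ} (hc : 0 ≤ c) {m : ℕ} (hm : 2 * c ≤ m) :
    1 / 2 ≤ ∑ n : Fin (m + 1), pois c n := by
  rw [Fin.sum_univ_eq_sum_range fun n => pois c n]
  have hm' : (0 : ℝ) < (m : ℝ) + 1 := by positivity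
  have h1 : HasSum (fun n => if n ∈ range (m + 1) then pois c n else 0)
      (∑ n ∈ range (m + 1), pois c n) := by
    have h := hasSum_sum_of_ne_finset_zero (α := ℝ) (f := fun n => if n ∈ range (m + 1) then pois c n else 0)
      (s := range (m + 1)) (L := SummationFilter.unconditional ℕ) fun n hn => if_neg hn
    rwa [sum_congr rfl fun n hn => if_pos hn] at h
  have h2 := h1.add ((hasSum_pois_mul c).div_const ((m : ℝ) + 1))
  have h3 := hasSum_le (fun n => ?_) (hasSum_pois c) h2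
  · have : c / ((m : ℝ) + 1) ≤ 1 / 2 := by rw [div_le_iff₀ hm']; linarith
    linarith
  · have hp := pois_nonneg hc n
    split_ifs with hn
    · linarith [div_nonneg (mul_nonneg hp (Nat.cast_nonneg (α := ℝ) n)) hm'.le]
    · rw [mem_range, not_lt] at hn
      rw [zero_add, le_div_iff₀ hm']
      exact mul_le_mul_of_nonneg_left (by exact_mod_cast hn) hp

theorem termCount_le (n : ℕ) : (termCount (n + 1) : ℝ) ≤ (n : ℝ) + 1 := by
  refine (Nat.floor_le (rpow_nonneg (Nat.cast_nonneg _) _)).trans ?_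
  push_cast
  calc ((n : ℝ) + 1) ^ (3 / 4 : ℝ) ≤ ((n : ℝ) + 1) ^ (1 : ℝ) :=
        rpow_le_rpow_of_exponent_le (le_add_of_nonneg_left (Nat.cast_nonneg n)) (by norm_num)
    _ = _ := rpow_one _

theorem cut_bounds {lam : ℝ} (hlam : 0 ≤ lam) (n : ℕ) (K : ℕ) :
    2 * (lam * ((n : ℝ) + 2) * (((n : ℝ) + 1) / ((n : ℝ) + 2)) ^ K)
      ≤ (⌈4 * lam * ((n : ℝ) + 1)⌉₊ + 4 * (n + 1) : ℕ) ∧
    lam * ((n : ℝ) + 2) * (((n : ℝ) + 1) / ((n : ℝ) + 2)) ^ K ≤ 2 * lam * ((n : ℝ) + 1) ∧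
    ((⌈4 * lam * ((n : ℝ) + 1)⌉₊ + 4 * (n + 1) : ℕ) : ℝ) ≤ (4 * lam + 5) * ((n : ℝ) + 1) := by
  have hn : (0 : ℝ) ≤ n := Nat.cast_nonneg n
  have hq : (((n : ℝ) + 1) / ((n : ℝ) + 2)) ^ K ≤ 1 :=
    pow_le_one₀ (by positivity) (by rw [div_le_one (by positivity)]; linarith)
  have h1 : lam * ((n : ℝ) + 2) * (((n : ℝ) + 1) / ((n : ℝ) + 2)) ^ K ≤ 2 * lam * ((n : ℝ) + 1) :=
    (mul_le_of_le_one_right (by positivity) hq).trans (by nlinarith)
  refine ⟨?_, h1, ?_⟩
  · push_cast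
    linarith [Nat.le_ceil (4 * lam * ((n : ℝ) + 1))]
  · push_cast
    linarith [Nat.ceil_lt_add_one (show 0 ≤ 4 * lam * ((n : ℝ) + 1) by positivity)]

/-- The law of one clause and its sites. -/
noncomputable def FinModel.slotW (M : FinModel K) (N : ℕ) (y : M.D × (Fin K → Fin N)) : ℝ :=
  M.wD y.1 / Fintype.card (Fin K → Fin N)

theorem slotW_weight (M : FinModel K) [NeZero N] : IsWeight (M.slotW N) := by
  refine ⟨fun y => div_nonneg (M.wD_nonneg _) (Nat.cast_nonneg _), ?_⟩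
  have hne : (Fintype.card (Fin K → Fin N) : ℝ) ≠ 0 := Nat.cast_ne_zero.2 Fintype.card_ne_zero
  simp only [FinModel.slotW, Fintype.sum_prod_type, sum_const, card_univ, nsmul_eq_mul,
    mul_div_cancel₀ _ hne, M.wD_sum]

/-- The law of the root data of the terms. -/
noncomputable def rootW {P : ℕ} (τ : Fin P → Kind L) (N : ℕ) (s : Fin P → ℕ)
    (_ : ∀ p, Fin (s p) → (τ p).Root N) : ℝ :=
  ∏ q : (Σ p, Fin (s p)), 1 / (Fintype.card ((τ q.1).Root N) : ℝ)

theorem rootW_eq {P : ℕ} (τ : Fin P → Kind L) (N : ℕ) (s : Fin P → ℕ) (r : ∀ p, Fin (s p) → (τ p).Root N) :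
    rootW τ N s r = 1 / (Fintype.card (∀ p, Fin (s p) → (τ p).Root N) : ℝ) := by
  rw [rootW, Fintype.prod_sigma, Fintype.card_pi, Nat.cast_prod, one_div, ← prod_inv_distrib]
  refine prod_congr rfl fun p _ => ?_
  change ∏ _y : Fin (s p), 1 / (Fintype.card ((τ p).Root N) : ℝ) = _
  rw [prod_const, card_univ, Fintype.card_fin, Fintype.card_fun, Fintype.card_fin, Nat.cast_pow,
    one_div, inv_pow]

theorem rootW_weight {P : ℕ} (τ : Fin P → Kind L) [NeZero N] (s : Fin P → ℕ) :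
    IsWeight (rootW τ N s) := by
  rw [show rootW τ N s = fun _ => 1 / (Fintype.card (∀ p, Fin (s p) → (τ p).Root N) : ℝ) from
    funext (rootW_eq τ N s)]
  exact IsWeight.uniform

theorem wvar_roots {P : ℕ} (τ : Fin P → Kind L) [NeZero N] (s : Fin P → ℕ)
    (f : (∀ p, Fin (s p) → (τ p).Root N) → ℝ) (B : ℝ)
    (h : ∀ p (a : Fin (s p)) r r', (∀ p' (a' : Fin (s p')), (⟨p', a'⟩ : Σ p, Fin (s p)) ≠ ⟨p, a⟩ →
      r p' a' = r' p' a') → |f r - f r'| ≤ B) :
    wvar (rootW τ N s) f ≤ (∑ p, s p : ℕ) * B ^ 2 := by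
  let e : (∀ q : (Σ p, Fin (s p)), (τ q.1).Root N) ≃ (∀ p, Fin (s p) → (τ p).Root N) :=
    Equiv.piCurry fun p _ => (τ p).Root N
  have hw : (fun b => rootW τ N s (e b)) = fun b => ∏ q : (Σ p, Fin (s p)),
      (fun (q : Σ p, Fin (s p)) (_ : (τ q.1).Root N) => 1 / (Fintype.card ((τ q.1).Root N) : ℝ)) q (b q) :=
    funext fun b => rfl
  rw [← wvar_equiv e, hw]
  refine (wvar_pi (X := fun q : (Σ p, Fin (s p)) => (τ q.1).Root N) _ (fun q => IsWeight.uniform) _ B
    fun q x x' hx => h q.1 q.2 _ _ fun p' a' hne => hx ⟨p', a'⟩ hne).trans (le_of_eq ?_)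
  rw [Fintype.card_sigma]
  simp

theorem count_var {m : ℕ} {c T : ℝ} (hc : 0 ≤ c) (hm : 2 * c ≤ m) (g : Fin (m + 1) → ℝ)
    (hstep : ∀ k k' : Fin (m + 1), (k' : ℕ) = (k : ℕ) + 1 → |g k' - g k| ≤ T) :
    wvar (fun k : Fin (m + 1) => pois c k / ∑ k : Fin (m + 1), pois c k) g ≤ T ^ 2 * (2 * c) := by
  have hp : 0 < ∑ k : Fin (m + 1), pois c k := lt_of_lt_of_le (by norm_num) (pois_mass_ge hc hm)
  have wN : IsWeight fun k : Fin (m + 1) => pois c k / ∑ k : Fin (m + 1), pois c k :=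
    ⟨fun k => div_nonneg (pois_nonneg hc k) hp.le, by rw [← sum_div, div_self hp.ne']⟩
  have hlip : ∀ j : ℕ, ∀ k k' : Fin (m + 1), (k' : ℕ) = (k : ℕ) + j → |g k' - g k| ≤ T * j := by
    intro j
    induction j with
    | zero => intro k k' h; simp [show k' = k from Fin.ext h]
    | succ j ih =>
      intro k k' h
      have hm : (k : ℕ) + j < m + 1 := by omega
      have h1 := ih k ⟨_, hm⟩ rfl
      have h2 := hstep ⟨_, hm⟩ k' (by simp only; omega)
      refine (abs_sub_le _ (g ⟨_, hm⟩) _).trans ?_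
      push_cast
      linarith
  refine (wvar_comp wN (g := fun k : Fin (m + 1) => ((k : ℕ) : ℝ)) (B := T) (fun k k' => ?_) c).trans
    (mul_le_mul_of_nonneg_left ?_ (sq_nonneg T))
  · rcases le_total (k : ℕ) (k' : ℕ) with h | h
    · rw [abs_sub_comm, abs_sub_comm ((k : ℕ) : ℝ), ← Nat.cast_sub h, Nat.abs_cast]
      exact hlip _ k k' (by omega)
    · rw [← Nat.cast_sub h, Nat.abs_cast]
      exact hlip _ k' k (by omega)
  · simp only [div_mul_eq_mul_div, ← sum_div]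
    rw [div_le_iff₀ hp, Fin.sum_univ_eq_sum_range fun k => pois c k * ((k : ℝ) - c) ^ 2]
    refine (sum_le_hasSum _ (fun k _ => mul_nonneg (pois_nonneg hc k) (sq_nonneg _))
      (hasSum_pois_sq c)).trans ?_
    nlinarith [pois_mass_ge hc hm]

theorem devStmt : DevStmt := by
  intro K lam hlam M L hL G P τ hτ
  set T := M.tabBound
  set F := M.fldBound
  have hT : 0 ≤ T := tabBound_nonneg M
  have hF : 0 ≤ F := fldBound_nonneg M
  refine ⟨√((4 * lam + 5) * (4 * T ^ 2) + 4 * lam * T ^ 2 + 4 * F ^ 2 + 200 * P),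
    sqrt_nonneg _, fun n s t hs ht => ?_⟩
  set N := n + 1 with hNdef
  set nmax := ⌈4 * lam * ((n : ℝ) + 1)⌉₊ + 4 * (n + 1) with hnmax
  set c := lam * ((n : ℝ) + 2) * (((n : ℝ) + 1) / ((n : ℝ) + 2)) ^ K with hcdef
  have hc : 0 ≤ c := mul_nonneg (mul_nonneg hlam (by positivity)) (by positivity)
  obtain ⟨hc2, hc3, hnm⟩ := cut_bounds hlam n K
  rw [← hcdef, ← hnmax] at hc2
  rw [← hnmax] at hnm
  rw [← hcdef] at hc3
  set B := M.base L N nmax hL c hc with hB
  set top : Fin L := ⟨L - 1, Nat.sub_lt hL one_pos⟩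
  -- the components of the root data
  let X := Σ k : Fin (nmax + 1), Fin k → M.D × (Fin K → Fin N)
  let R := ∀ p, Fin (s p) → (τ p).Root N
  let ψ : (X × (Fin N → M.Hh)) × R → ℝ := fun o =>
    vAt G ((B.perturb τ t s).H o) 0 fun _ => Classical.arbitrary (B.perturb τ t s).Z
  -- the potential of the clauses, the fields and the terms
  let hc1 : ∀ k : ℕ, (Fin k → M.D × (Fin K → Fin N)) → (Fin N → Bool) → ℝ :=
    fun k d σ => ∑ a, M.th (d a).1 (fun j => σ ((d a).2 j))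
  let hf : (Fin N → M.Hh) → (Fin N → Bool) → ℝ := fun g σ => ∑ v, M.hv (g v) * spin (σ v)
  let ht' : R → (Fin L → (B.perturb τ t s).Z) → ℝ := fun r ξ => ∑ p, ∑ a : Fin (s p),
    (τ p).term (t p) (r p a) (fun l => (ξ l).2 p a) (ξ top).1
  have hψ : ∀ (o o' : (X × (Fin N → M.Hh)) × R) (A : ℝ),
      (∀ ξ : Fin L → (B.perturb τ t s).Z,
        |(hc1 _ o.1.1.2 (ξ top).1 + hf o.1.2 (ξ top).1 + ht' o.2 ξ)
          - (hc1 _ o'.1.1.2 (ξ top).1 + hf o'.1.2 (ξ top).1 + ht' o'.2 ξ)| ≤ A) →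
      |ψ o - ψ o'| ≤ A := fun o o' A h => vAt_sub_abs G h 0 _
  -- weights
  have hp : 0 < ∑ k : Fin (nmax + 1), pois c k := lt_of_lt_of_le (by norm_num) (pois_mass_ge hc hc2)
  have wN : IsWeight fun k : Fin (nmax + 1) => pois c k / ∑ k : Fin (nmax + 1), pois c k :=
    ⟨fun k => div_nonneg (pois_nonneg hc k) hp.le, by rw [← sum_div, div_self hp.ne']⟩
  have wC : ∀ k : Fin (nmax + 1), IsWeight fun d : Fin k → M.D × (Fin K → Fin N) => ∏ a, M.slotW N (d a) :=
    fun k => IsWeight.piProd fun _ => slotW_weight M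
  have wH : IsWeight fun g : Fin N → M.Hh => ∏ v, M.wH (g v) :=
    IsWeight.piProd fun _ => ⟨M.wH_nonneg, M.wH_sum⟩
  have wR : IsWeight (rootW τ N s) := rootW_weight τ s
  have wX : IsWeight fun x : X => pois c x.1 / (∑ k : Fin (nmax + 1), pois c k) * ∏ a, M.slotW N (x.2 a) :=
    wN.sigma wC
  have wB := (wX.prod wH).prod wR
  -- the variance
  have vR : ∀ b : X × (Fin N → M.Hh),
      wvar (rootW τ N s)
        (fun r => ψ (b, r)) ≤ (∑ p, s p : ℕ) * 10 ^ 2 := by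
    intro b
    refine wvar_roots τ s _ 10 fun q c r r' hr => hψ _ _ _ fun ξ => ?_
    rw [add_sub_add_left_eq_sub]
    refine sum_diff_one q (fun p hp => sum_congr rfl fun a _ => ?_) (sum_diff_one c (fun a ha => ?_) ?_)
    · dsimp only; rw [show r p a = r' p a from hr p a fun h => hp (congrArg Sigma.fst h)]
    · dsimp only; rw [show r q a = r' q a from hr q a fun h => ha (eq_of_heq (Sigma.mk.inj_iff.1 h).2)]
    · exact (abs_sub _ _).trans ((add_le_add (abs_term_le (hτ _) (ht _) _ _ _)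
        (abs_term_le (hτ _) (ht _) _ _ _)).trans (le_of_eq (by norm_num)))
  have vH : ∀ x : X, wvar (fun g : Fin N → M.Hh => ∏ v, M.wH (g v))
      (fun g => wmean (rootW τ N s)
        fun r => ψ ((x, g), r)) ≤ (N : ℕ) * (2 * F) ^ 2 := by
    intro x
    refine (wvar_pi (fun _ => M.wH) (fun _ => ⟨M.wH_nonneg, M.wH_sum⟩) _ (2 * F)
      fun v g g' hg => wmean_lip wR fun r => hψ _ _ _ fun ξ => ?_).trans (le_of_eq (by simp))
    rw [add_sub_add_right_eq_sub, add_sub_add_left_eq_sub]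
    refine sum_diff_one v (fun u hu => by dsimp only; rw [hg u hu]) ?_
    exact (abs_sub _ _).trans ((add_le_add (abs_fld_le M _ _) (abs_fld_le M _ _)).trans_eq (two_mul F).symm)
  let φ : X → ℝ := fun x => wmean (fun g : Fin N → M.Hh => ∏ v, M.wH (g v))
    fun g => wmean (rootW τ N s)
      fun r => ψ ((x, g), r)
  have hφ : ∀ (x x' : X) (A : ℝ), (∀ σ, |hc1 _ x.2 σ - hc1 _ x'.2 σ| ≤ A) → |φ x - φ x'| ≤ A :=
    fun x x' A h => wmean_lip wH fun g => wmean_lip wR fun r => hψ _ _ _ fun ξ => by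
      rw [add_sub_add_right_eq_sub, add_sub_add_right_eq_sub]; exact h _
  have vD : ∀ k : Fin (nmax + 1), wvar (fun d : Fin k → M.D × (Fin K → Fin N) => ∏ a, M.slotW N (d a))
      (fun d => φ ⟨k, d⟩) ≤ (nmax : ℕ) * (2 * T) ^ 2 := by
    intro k
    refine (wvar_pi (fun _ => M.slotW N) (fun _ => slotW_weight M) _ (2 * T) fun a d d' hd =>
      hφ _ _ _ fun σ => ?_).trans (mul_le_mul_of_nonneg_right ?_ (sq_nonneg _))
    · refine sum_diff_one a (fun b hb => by dsimp only; rw [hd b hb]) ?_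
      exact (abs_sub _ _).trans ((add_le_add (abs_th_le M _ _) (abs_th_le M _ _)).trans_eq (two_mul T).symm)
    · rw [Fintype.card_fin]; exact Nat.cast_le.2 (Nat.le_of_lt_succ k.2)
  let g : Fin (nmax + 1) → ℝ := fun k =>
    wmean (fun d : Fin k → M.D × (Fin K → Fin N) => ∏ a, M.slotW N (d a)) fun d => φ ⟨k, d⟩
  have hstep : ∀ k k' : Fin (nmax + 1), (k' : ℕ) = (k : ℕ) + 1 → |g k' - g k| ≤ T := by
    intro k k' hk
    obtain ⟨k', hk'⟩ := k'
    obtain rfl : k' = (k : ℕ) + 1 := hk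
    have e : g ⟨(k : ℕ) + 1, hk'⟩ = wmean (M.slotW N) fun y =>
        wmean (fun d : Fin k → M.D × (Fin K → Fin N) => ∏ a, M.slotW N (d a))
          fun d => φ ⟨⟨(k : ℕ) + 1, hk'⟩, Fin.cons y d⟩ := by
      change ∑ d, _ = ∑ y, _
      rw [← (Fin.consEquiv fun _ : Fin ((k : ℕ) + 1) => M.D × (Fin K → Fin N)).sum_comp,
        Fintype.sum_prod_type]
      refine sum_congr rfl fun y _ => ?_
      simp only [wmean, mul_sum]
      refine sum_congr rfl fun d _ => ?_
      simp [Fin.consEquiv, Fin.prod_univ_succ, mul_assoc]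
    have e' : g k = wmean (M.slotW N) fun _ => g k := by
      change g k = ∑ y, M.slotW N y * g k
      rw [← sum_mul, (slotW_weight M).sum, one_mul]
    rw [e, e']
    refine wmean_lip (slotW_weight M) fun y => wmean_lip (wC k) fun d => hφ _ _ _ fun σ => ?_
    simp only [hc1, Fin.sum_univ_succ, Fin.cons_zero, Fin.cons_succ]
    rw [add_sub_cancel_right]
    exact abs_th_le M _ _
  have vN : wvar (fun k : Fin (nmax + 1) => pois c k / ∑ k : Fin (nmax + 1), pois c k) g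
      ≤ T ^ 2 * (2 * c) := count_var hc hc2 g hstep
  have vX : wvar (fun x : X => pois c x.1 / (∑ k : Fin (nmax + 1), pois c k) * ∏ a, M.slotW N (x.2 a)) φ
      ≤ (nmax : ℕ) * (2 * T) ^ 2 + T ^ 2 * (2 * c) := wvar_sigma wN wC φ vD vN
  have vB : wvar (fun b : X × (Fin N → M.Hh) =>
      (pois c b.1.1 / (∑ k : Fin (nmax + 1), pois c k) * ∏ a, M.slotW N (b.1.2 a)) * ∏ v, M.wH (b.2 v))
      (fun b => wmean (rootW τ N s)
        fun r => ψ (b, r)) ≤ (N : ℕ) * (2 * F) ^ 2 + ((nmax : ℕ) * (2 * T) ^ 2 + T ^ 2 * (2 * c)) :=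
    wvar_prod wX wH _ vH vX
  have vAll := wvar_prod (wX.prod wH) wR ψ vR vB
  -- the statement
  have hw : ∀ o : (X × (Fin N → M.Hh)) × R, (B.perturb τ t s).w o
      = (pois c o.1.1.1 / (∑ k : Fin (nmax + 1), pois c k) * ∏ a, M.slotW N (o.1.1.2 a))
        * (∏ v, M.wH (o.1.2 v)) * rootW τ N s o.2 := by
    intro o
    rw [rootW_eq, mul_one_div]
    rfl
  have main : (B.perturb τ t s).rootDev G ≤ √((∑ p, s p : ℕ) * 10 ^ 2
      + ((N : ℕ) * (2 * F) ^ 2 + ((nmax : ℕ) * (2 * T) ^ 2 + T ^ 2 * (2 * c)))) := by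
    refine le_trans (le_of_eq ?_) ((wdev_le wB ψ).trans (sqrt_le_sqrt vAll))
    change ∑ o : (X × (Fin N → M.Hh)) × R, (B.perturb τ t s).w o *
      |ψ o - ∑ o' : (X × (Fin N → M.Hh)) × R, (B.perturb τ t s).w o' * ψ o'| = _
    simp only [hw, wmean]
    rfl
  refine main.trans ?_
  rw [← sqrt_mul (by positivity)]
  refine sqrt_le_sqrt ?_
  have hS : ((∑ p, s p : ℕ) : ℝ) ≤ P * (2 * ((n : ℝ) + 1)) := by
    push_cast
    refine (sum_le_sum (g := fun _ => 2 * ((n : ℝ) + 1)) fun p _ => ?_).trans (by simp)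
    refine (Nat.cast_le.2 (hs p)).trans ?_
    push_cast
    linarith [termCount_le n, Nat.cast_nonneg (α := ℝ) n]
  have hN : ((N : ℕ) : ℝ) = (n : ℝ) + 1 := by simp [hNdef]
  rw [hN]
  have e1 := mul_le_mul_of_nonneg_right hnm (sq_nonneg (2 * T))
  have e2 := mul_le_mul_of_nonneg_left hc3 (sq_nonneg T)
  have e3 : 100 * ((∑ p, s p : ℕ) : ℝ) ≤ 100 * (P * (2 * ((n : ℝ) + 1))) := by linarith
  linarith

end Vale.Agent.P168
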