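import Vale.Agent.P168.Lower.Product
import Vale.Agent.P168.RecLog

/-!
# P168, lower bound: the trial counterpart of a system is a trial order parameter

Quantile maps turn uniform variables into root data, sites and labels drawn from the kernels of the tree.
-/

open Real Finset MeasureTheory

namespace Vale.Agent.P168

variable {α : Type} [Fintype α] [Nonempty α]

/-- The cumulative sums of a weight along a fixed enumeration. -/
noncomputable def cumW (p : α → ℝ) (j : ℕ) : ℝ :=
  ∑ i ∈ range j, if h : i < Fintype.card α then p ((Fintype.equivFin α).symm ⟨i, h⟩) else 0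

open Classical in
/-- The first index whose cumulative sum reaches `u`. -/
noncomputable def qidx (p : α → ℝ) (u : ℝ) : ℕ :=
  Nat.find (p := fun j => u ≤ cumW p (j + 1) ∨ Fintype.card α - 1 ≤ j) ⟨_, Or.inr le_rfl⟩

theorem qidx_le (p : α → ℝ) (u : ℝ) : qidx p u ≤ Fintype.card α - 1 := by
  classical
  exact Nat.find_min' _ (Or.inr le_rfl)

theorem qidx_lt (p : α → ℝ) (u : ℝ) : qidx p u < Fintype.card α := by
  have := qidx_le p u
  have := Fintype.card_pos (α := α)
  omega

theorem qidx_mono (p : α → ℝ) : Monotone (qidx p) := fun u v huv => by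
  classical
  exact Nat.find_mono fun j hj => hj.imp (huv.trans ·) id

/-- The quantile map of a weight. -/
noncomputable def quant (p : α → ℝ) (u : ℝ) : α :=
  (Fintype.equivFin α).symm ⟨qidx p u, qidx_lt p u⟩

theorem quant_iff (p : α → ℝ) (u : ℝ) (z : α) :
    quant p u = z ↔ qidx p u = (Fintype.equivFin α z : ℕ) := by
  rw [quant, Equiv.symm_apply_eq, Fin.ext_iff]

theorem measurable_quant_ind (p : α → ℝ) (z : α) [Decidable (∀ u, quant p u = z)] :
    MeasurableSet {u | quant p u = z} := by
  simp only [quant_iff]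
  exact (qidx_mono p).measurable (measurableSet_singleton _)

theorem quant_mem {p : α → ℝ} (hs : ∑ z, p z = 1) {u : ℝ} (hu : u ∈ Set.Icc (0 : ℝ) 1) :
    u ∈ Set.Icc (cumW p (Fintype.equivFin α (quant p u) : ℕ))
      (cumW p ((Fintype.equivFin α (quant p u) : ℕ) + 1)) := by
  classical
  have htot : cumW p (Fintype.card α) = 1 := by
    rw [cumW, ← Fin.sum_univ_eq_sum_range fun i =>
      if h : i < Fintype.card α then p ((Fintype.equivFin α).symm ⟨i, h⟩) else 0, ← hs,
      ← (Fintype.equivFin α).symm.sum_comp p]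
    exact sum_congr rfl fun i _ => by rw [dif_pos i.2]
  rw [(quant_iff p u (quant p u)).1 rfl |>.symm]
  have hspec : u ≤ cumW p (qidx p u + 1) ∨ Fintype.card α - 1 ≤ qidx p u :=
    Nat.find_spec (p := fun j => u ≤ cumW p (j + 1) ∨ Fintype.card α - 1 ≤ j) _
  refine ⟨?_, ?_⟩
  · rcases Nat.eq_zero_or_pos (qidx p u) with h | h
    · rw [h]; simpa [cumW] using hu.1
    · have := Nat.find_min (p := fun j => u ≤ cumW p (j + 1) ∨ Fintype.card α - 1 ≤ j)
        ⟨_, Or.inr le_rfl⟩ (m := qidx p u - 1) (by show qidx p u - 1 < qidx p u; omega)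
      simp only [not_or, not_le, Nat.sub_add_cancel h] at this
      exact this.1.le
  · rcases hspec with h | h
    · exact h
    · have := qidx_lt p u
      rw [show qidx p u + 1 = Fintype.card α by omega, htot]
      exact hu.2

theorem integral_quant_ind {p : α → ℝ} (hp : ∀ z, 0 ≤ p z) (hs : ∑ z, p z = 1) (z : α) :
    ∫ u, {u | quant p u = z}.indicator (fun _ => (1 : ℝ)) u ∂unif = p z := by
  classical
  have hi : ∀ y, Integrable ({u | quant p u = y}.indicator fun _ => (1 : ℝ)) unif := fun y =>
    (integrable_const 1).indicator (measurable_quant_ind p y)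
  have hsum : ∑ y, ∫ u, {u | quant p u = y}.indicator (fun _ => (1 : ℝ)) u ∂unif = 1 := by
    rw [← integral_finsetSum _ fun y _ => hi y]
    simp [Set.indicator_apply]
  have hle : ∀ y, ∫ u, {u | quant p u = y}.indicator (fun _ => (1 : ℝ)) u ∂unif ≤ p y := fun y => by
    set j : ℕ := (Fintype.equivFin α y : ℕ) with hj
    set S := Set.Icc (cumW p j) (cumW p (j + 1))
    have hlen : cumW p (j + 1) - cumW p j = p y := by
      rw [cumW, cumW, sum_range_succ, add_sub_cancel_left, dif_pos (Fintype.equivFin α y).2]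
      simp [hj]
    calc ∫ u, {u | quant p u = y}.indicator (fun _ => (1 : ℝ)) u ∂unif
        ≤ ∫ u, S.indicator (fun _ => (1 : ℝ)) u ∂unif := by
          refine integral_mono_ae (hi y) ((integrable_const 1).indicator measurableSet_Icc) ?_
          filter_upwards [ae_restrict_mem measurableSet_Icc] with u hu
          by_cases h : quant p u = y
          · have hm : u ∈ S := by
              have := quant_mem hs hu
              rwa [h] at this
            rw [Set.indicator_of_mem (show u ∈ {u | quant p u = y} from h), Set.indicator_of_mem hm]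
          · rw [Set.indicator_of_notMem (show u ∉ {u | quant p u = y} from h)]
            exact Set.indicator_nonneg (fun _ _ => zero_le_one) _
      _ = (unif S).toReal := by
          rw [integral_indicator_const _ measurableSet_Icc, smul_eq_mul, mul_one, measureReal_def]
      _ ≤ _ := by
          refine (ENNReal.toReal_mono (by simp [S, Real.volume_Icc])
            (Measure.restrict_apply_le _ _)).trans_eq ?_
          simp [S, Real.volume_Icc, hlen, hp y]
  exact (sum_eq_sum_iff_of_le fun y (_ : y ∈ univ) => hle y).1 (hsum.trans hs.symm) z (mem_univ z)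

/-- Independent quantile maps have the product law. -/
theorem integral_pi_quant {ι : Type} [Fintype ι] [DecidableEq ι] (p : ι → α → ℝ)
    (hp : ∀ a z, 0 ≤ p a z) (hs : ∀ a, ∑ z, p a z = 1) (f : (ι → α) → ℝ) :
    ∫ u : ι → ℝ, f (fun a => quant (p a) (u a)) ∂Measure.pi (fun _ : ι => unif) =
      ∑ b : ι → α, (∏ a, p a (b a)) * f b := by
  classical
  set χ : ι → α → ℝ → ℝ := fun a z => {u | quant (p a) u = z}.indicator fun _ => (1 : ℝ) with hχ
  have hb : ∀ b : ι → α, Integrable (fun u : ι → ℝ => ∏ a, χ a (b a) (u a))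
      (Measure.pi fun _ : ι => unif) := fun b =>
    Integrable.of_bound (Finset.measurable_prod _ fun a _ => ((measurable_const.indicator
      (measurable_quant_ind (p a) (b a))).comp (measurable_pi_apply a))).aestronglyMeasurable 1
      (ae_of_all _ fun u => by
        rw [Real.norm_eq_abs, Finset.abs_prod]
        exact Finset.prod_le_one (fun a _ => abs_nonneg _) fun a _ => by
          simp only [hχ, Set.indicator_apply]; split_ifs <;> norm_num)
  have he : (fun u : ι → ℝ => f fun a => quant (p a) (u a)) =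
      fun u => ∑ b : ι → α, f b * ∏ a, χ a (b a) (u a) := by
    funext u
    rw [sum_eq_single fun a => quant (p a) (u a)]
    · simp [hχ]
    · intro b _ hb
      obtain ⟨a, ha⟩ := Function.ne_iff.1 hb
      have h0 : χ a (b a) (u a) = 0 := by
        simp only [hχ]
        exact Set.indicator_of_notMem (show u a ∉ {v | quant (p a) v = b a} from fun h => ha h.symm) _
      rw [prod_eq_zero (f := fun a => χ a (b a) (u a)) (mem_univ a) h0, mul_zero]
    · simp
  rw [he, integral_finsetSum _ fun b _ => (hb b).const_mul _]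
  refine sum_congr rfl fun b _ => ?_
  rw [integral_const_mul, integral_fintype_prod_eq_prod (μ := fun _ : ι => unif) fun a => χ a (b a),
    mul_comm]
  simp only [hχ, integral_quant_ind (hp _) (hs _)]

/-! ### Paths drawn from the kernels -/

variable {L N : ℕ} {Z : Type} [Fintype Z] [DecidableEq Z] [Nonempty Z]

/-- The kernel of one level. -/
noncomputable def stepP (G : Grid L) (H : (Fin L → Z) → ℝ) (t : ℕ) (ξ : Fin L → Z) (z : Z) : ℝ :=
  exp (incr G H (t + 1) (putZ ξ t z)) / Fintype.card Z

theorem stepP_nonneg (G : Grid L) (H : (Fin L → Z) → ℝ) (t : ℕ) (ξ : Fin L → Z) (z : Z) :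
    0 ≤ stepP G H t ξ z := div_nonneg (exp_pos _).le (Nat.cast_nonneg _)

theorem stepP_sum (G : Grid L) (H : (Fin L → Z) → ℝ) {t : ℕ} (ht : t < L) (ξ : Fin L → Z) :
    ∑ z, stepP G H t ξ z = 1 := by
  simp only [stepP, ← sum_div, sum_exp_incr G H ht, div_self (Nat.cast_ne_zero.2 Fintype.card_ne_zero :
    (Fintype.card Z : ℝ) ≠ 0)]

/-- The path read from uniform variables, starting below the node of `ξ` at level `t`. -/
noncomputable def drawPath (G : Grid L) (H : (Fin L → Z) → ℝ) :
    ∀ (k : ℕ), ℕ → (Fin L → Z) → (Fin k → ℝ) → Fin L → Z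
  | 0, _, ξ, _ => ξ
  | k + 1, t, ξ, w => drawPath G H k (t + 1) (putZ ξ t (quant (stepP G H t ξ) (w 0))) fun p => w p.succ

theorem measurable_drawPath (G : Grid L) (H : (Fin L → Z) → ℝ) (f : (Fin L → Z) → ℝ) :
    ∀ (k t : ℕ) (ξ : Fin L → Z), Measurable fun w : Fin k → ℝ => f (drawPath G H k t ξ w)
  | 0, _, _ => by simp only [drawPath]; exact measurable_const
  | k + 1, t, ξ => by
    classical
    have h : (fun w : Fin (k + 1) → ℝ => f (drawPath G H (k + 1) t ξ w)) = fun w => ∑ z,
        {u | quant (stepP G H t ξ) u = z}.indicator (fun _ => (1 : ℝ)) (w 0) *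
          f (drawPath G H k (t + 1) (putZ ξ t z) fun p => w p.succ) := by
      funext w
      rw [sum_eq_single (quant (stepP G H t ξ) (w 0))]
      · simp [drawPath]
      · intro z _ hz
        rw [Set.indicator_of_notMem (show w 0 ∉ _ from fun h => hz h.symm), zero_mul]
      · simp
    rw [h]
    exact Finset.measurable_sum _ fun z _ => ((measurable_const.indicator
      (measurable_quant_ind _ z)).comp (measurable_pi_apply 0)).mul
        ((measurable_drawPath G H f k (t + 1) _).comp
          (measurable_pi_lambda _ fun p => measurable_pi_apply p.succ))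

variable {ι : Type} [Fintype ι] [DecidableEq ι]

/-- The value of independent copies tilted by a function of the nodes above the leaves, recentred. -/
noncomputable def tiltVal (G : Grid L) (H : ι → (Fin L → Z) → ℝ) (Φ : (Fin L → ι → Z) → ℝ) (t : ℕ)
    (ξ : Fin L → ι → Z) : ℝ :=
  vAt G (fun ζ : Fin L → ι → Z => ∑ a, H a (fun l => ζ l a) + Φ ζ) t ξ - ∑ a, vAt G (H a) t fun l => ξ l a

theorem tiltVal_top (G : Grid L) (hL : 1 ≤ L) (H : ι → (Fin L → Z) → ℝ) (Φ : (Fin L → ι → Z) → ℝ)
    (hΦ : ∀ ζ ζ', (∀ c : Fin L, (c : ℕ) < L - 1 → ζ c = ζ' c) → Φ ζ = Φ ζ') (ξ : Fin L → ι → Z) :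
    tiltVal G H Φ (L - 1) ξ = Φ ξ := by
  have hL1 : L - 1 < L := by omega
  have hm : G.m (L - 1 + 1) = 1 := by rw [show L - 1 + 1 = L by omega, G.m_last]
  have hc : ∀ z, Φ (putZ ξ (L - 1) z) = Φ ξ := fun z => hΦ _ _ fun c hc => by simp [putZ, hc.ne]
  have hz : (0 : ℝ) < mean fun z : ι → Z => exp (∑ a, H a fun l => putZ ξ (L - 1) z l a) :=
    div_pos (sum_pos (fun _ _ => exp_pos _) univ_nonempty) (Nat.cast_pos.2 Fintype.card_pos)
  rw [tiltVal, ← vAt_copies, vAt_step G _ hL1, vAt_step G _ hL1]
  simp only [hm, one_mul, div_one, vAt_top G _ (show L ≤ L - 1 + 1 by omega), hc, exp_add, mean,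
    ← sum_mul, mul_div_right_comm] at hz ⊢
  rw [log_mul hz.ne' (exp_pos _).ne', log_exp]
  ring

theorem tiltVal_step (G : Grid L) (H : ι → (Fin L → Z) → ℝ) (Φ : (Fin L → ι → Z) → ℝ) {t : ℕ}
    (ht : t < L) (ξ : Fin L → ι → Z) :
    log (∑ z : ι → Z, (∏ a, stepP G (H a) t (fun l => ξ l a) (z a)) *
        exp (G.m (t + 1) * tiltVal G H Φ (t + 1) (putZ ξ t z))) / G.m (t + 1) = tiltVal G H Φ t ξ := by
  have hm := G.m_pos (t + 1) (by omega) ht
  have hz : (0 : ℝ) < Fintype.card Z := Nat.cast_pos.2 Fintype.card_pos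
  set F := fun ζ : Fin L → ι → Z => ∑ a, H a (fun l => ζ l a) + Φ ζ
  set c := ∑ a, vAt G (H a) t fun l => ξ l a
  have hterm : ∀ z : ι → Z, (∏ a, stepP G (H a) t (fun l => ξ l a) (z a)) *
      exp (G.m (t + 1) * tiltVal G H Φ (t + 1) (putZ ξ t z)) =
      exp (G.m (t + 1) * vAt G F (t + 1) (putZ ξ t z)) / Fintype.card (ι → Z) *
        exp (-(G.m (t + 1) * c)) := by
    intro z
    have hput : ∀ a, (fun l => putZ ξ t z l a) = putZ (fun l => ξ l a) t (z a) :=
      fun a => funext fun l => by simp only [putZ]; split_ifs <;> rfl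
    have hprev : ∀ a, vAt G (H a) t (putZ (fun l => ξ l a) t (z a)) = vAt G (H a) t fun l => ξ l a :=
      fun a => vAt_congr G (H a) t fun c hc => by simp [putZ, hc.ne]
    simp only [stepP, prod_div_distrib, prod_const, card_univ, ← exp_sum, tiltVal, hput, incr,
      Nat.add_sub_cancel, hprev, Fintype.card_fun, Nat.cast_pow]
    rw [div_mul_eq_mul_div, div_mul_eq_mul_div, ← exp_add, ← exp_add]
    congr 2
    simp only [c, F, mul_sum, mul_sub, sum_sub_distrib]
    ring
  have hpos : 0 < mean fun z : ι → Z => exp (G.m (t + 1) * vAt G F (t + 1) (putZ ξ t z)) :=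
    div_pos (sum_pos (fun _ _ => exp_pos _) univ_nonempty) (Nat.cast_pos.2 Fintype.card_pos)
  have hval : vAt G F t ξ = log (mean fun z : ι → Z =>
      exp (G.m (t + 1) * vAt G F (t + 1) (putZ ξ t z))) / G.m (t + 1) := vAt_step G F ht ξ
  simp only [hterm, ← sum_mul]
  rw [tiltVal, hval, ← sum_div, show (∑ z : ι → Z, exp (G.m (t + 1) * vAt G F (t + 1) (putZ ξ t z))) /
    (Fintype.card (ι → Z) : ℝ) = mean fun z : ι → Z => exp (G.m (t + 1) * vAt G F (t + 1) (putZ ξ t z))
    from rfl, log_mul hpos.ne' (exp_pos _).ne', log_exp]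
  field_simp
  ring

/-- The recursion along paths drawn from the kernels. -/
theorem recLog_draw (G : Grid L) (hL : 1 ≤ L) (H : ι → (Fin L → Z) → ℝ) (Φ : (Fin L → ι → Z) → ℝ)
    (hΦ : ∀ ζ ζ', (∀ c : Fin L, (c : ℕ) < L - 1 → ζ c = ζ' c) → Φ ζ = Φ ζ') :
    ∀ (k t : ℕ) (m : Fin k → ℝ) (ξ : Fin L → ι → Z), t + k = L - 1 → (∀ p : Fin k, m p = G.m (t + p + 1)) →
      recLog (Measure.pi fun _ : ι => unif) k m
        (fun w => Φ fun l a => drawPath G (H a) k t (fun l => ξ l a) (fun p => w p a) l) =
        tiltVal G H Φ t ξ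
  | 0, t, m, ξ, ht, _ => by
    obtain rfl : t = L - 1 := by omega
    rw [tiltVal_top G hL H Φ hΦ]
    rfl
  | k + 1, t, m, ξ, ht, hm => by
    have htL : t < L := by omega
    have h0 : m 0 = G.m (t + 1) := by rw [hm 0]; simp
    have hput : ∀ (z : ι → Z) a, (fun l => putZ ξ t z l a) = putZ (fun l => ξ l a) t (z a) :=
      fun z a => funext fun l => by simp only [putZ]; split_ifs <;> rfl
    have ih : ∀ u : ι → ℝ, recLog (Measure.pi fun _ : ι => unif) k (fun p => m p.succ)
        (fun w => Φ fun l a => drawPath G (H a) (k + 1) t (fun l => ξ l a)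
          (fun p => (Fin.cons u w : Fin (k + 1) → ι → ℝ) p a) l) =
        tiltVal G H Φ (t + 1) (putZ ξ t fun a => quant (stepP G (H a) t fun l => ξ l a) (u a)) := by
      intro u
      rw [← recLog_draw G hL H Φ hΦ k (t + 1) (fun p => m p.succ) _ (by omega) fun p => by
        rw [hm p.succ, Fin.val_succ]; congr 1; omega]
      simp only [drawPath, Fin.cons_zero, Fin.cons_succ, hput]
    simp only [recLog, ih]
    rw [integral_pi_quant (fun a => stepP G (H a) t fun l => ξ l a) (fun a => stepP_nonneg G _ t _)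
      (fun a => stepP_sum G _ htL _) fun z => exp (m 0 * tiltVal G H Φ (t + 1) (putZ ξ t z)), h0]
    exact tiltVal_step G H Φ htL ξ

theorem realStmt : RealStmt := by
  intro L N hL G B hN
  haveI : NeZero N := ⟨hN.ne'⟩
  obtain ⟨r, rfl⟩ : ∃ r, L = r + 1 := ⟨L - 1, by omega⟩
  set q : B.Om × Fin N → ℝ := fun b => B.w b.1 / N with hq
  have hq0 : ∀ b, 0 ≤ q b := fun b => div_nonneg (B.w_nonneg _) (Nat.cast_nonneg _)
  have hqs : ∑ b, q b = 1 := by
    simp only [hq, Fintype.sum_prod_type, sum_const, card_univ, Fintype.card_fin, nsmul_eq_mul]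
    rw [← B.w_sum]
    exact sum_congr rfl fun o _ => mul_div_cancel₀ _ (Nat.cast_ne_zero.2 hN.ne')
  haveI : Nonempty (B.Om × Fin N) := by
    rcases isEmpty_or_nonempty (B.Om × Fin N) with h | h
    · simp [univ_eq_empty] at hqs
    · exact h
  set pt : Fin (r + 1) → B.Z := fun _ => Classical.arbitrary B.Z
  set xf : B.Om × Fin N → (Fin r → ℝ) → ℝ := fun b w =>
    B.mag G b.1 b.2 (drawPath G (B.H b.1) r 0 pt w) with hxf
  refine ⟨fun w => xf (quant q (w 0)) fun p => w p.succ, ?_, fun w => mag_mem B G _ _ _, ?_⟩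
  · classical
    have h : (fun w : Fin (r + 1) → ℝ => xf (quant q (w 0)) fun p => w p.succ) = fun w => ∑ b,
        {u | quant q u = b}.indicator (fun _ => (1 : ℝ)) (w 0) * xf b fun p => w p.succ := by
      funext w
      rw [sum_eq_single (quant q (w 0))]
      · simp
      · intro b _ hb
        rw [Set.indicator_of_notMem (show w 0 ∉ _ from fun h => hb h.symm), zero_mul]
      · simp
    show Measurable fun w : Fin (r + 1) → ℝ => xf (quant q (w 0)) fun p => w p.succ
    rw [h]
    exact Finset.measurable_sum _ fun b _ => ((measurable_const.indicator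
      (measurable_quant_ind _ b)).comp (measurable_pi_apply 0)).mul
        ((measurable_drawPath G (B.H b.1) (B.mag G b.1 b.2) r 0 pt).comp
          (measurable_pi_lambda _ fun p => measurable_pi_apply p.succ))
  intro ι _ _ Y _
  classical
  set Φ : (ι → B.Om × Fin N) → (Fin (r + 1) → ι → B.Z) → ℝ := fun b ζ =>
    log (∑ s : ι → Bool, Y s * ∏ a, msgW (B.mag G (b a).1 (b a).2 fun l => ζ l a) (s a))
  have hloc : ∀ b ζ ζ', (∀ c : Fin (r + 1), (c : ℕ) < r + 1 - 1 → ζ c = ζ' c) → Φ b ζ = Φ b ζ' := by
    intro b ζ ζ' h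
    simp only [Φ, Sys.mag]
    simp only [fun a => cndAt_congr G (B.H (b a).1) (r + 1 - 1)
      (fun ξ => spin (B.cfg ξ (b a).2)) (p := fun l => ζ l a) (p' := fun l => ζ' l a)
      fun c hc => congrFun (h c hc) a]
  have hrec : ∀ b : ι → B.Om × Fin N,
      recLog (Measure.pi fun _ : ι => unif) r (fun p => G.m (p.1 + 1))
        (fun w => Φ b fun l a => drawPath G (B.H (b a).1) r 0 pt (fun p => w p a) l) =
      tiltVal G (fun a => B.H (b a).1) (Φ b) 0 fun _ _ => Classical.arbitrary B.Z := fun b =>
    recLog_draw G hL (fun a => B.H (b a).1) (Φ b) (hloc b) r 0 _ (fun _ _ => Classical.arbitrary B.Z)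
      (by simp) fun p => by simp
  calc _ = ∫ w₀ : ι → ℝ, (fun b => recLog (Measure.pi fun _ : ι => unif) r (fun p => G.m (p.1 + 1))
        (fun w => Φ b fun l a => drawPath G (B.H (b a).1) r 0 pt (fun p => w p a) l))
        (fun a => quant q (w₀ a)) ∂Measure.pi (fun _ : ι => unif) := by
        simp only [trialT, hxf, Φ, Nat.add_sub_cancel, Fin.cons_zero, Fin.cons_succ]
        rfl
    _ = ∑ b : ι → B.Om × Fin N, (∏ a, q (b a)) *
        tiltVal G (fun a => B.H (b a).1) (Φ b) 0 fun _ _ => Classical.arbitrary B.Z := by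
        simp only [hrec]
        exact integral_pi_quant (fun _ => q) (fun _ => hq0) (fun _ => hqs) fun b =>
          tiltVal G (fun a => B.H (b a).1) (Φ b) 0 fun _ _ => Classical.arbitrary B.Z
    _ = B.trialGain G Y := by
        rw [← (Equiv.arrowProdEquivProdArrow ι (fun _ => B.Om) fun _ => Fin N).symm.sum_comp,
          Fintype.sum_prod_type, Sys.trialGain]
        refine sum_congr rfl fun o _ => ?_
        simp only [mean, mul_div_assoc', mul_sum, sum_div]
        refine sum_congr rfl fun i _ => ?_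
        simp only [hq, prod_div_distrib, prod_const, card_univ, Fintype.card_fun, Fintype.card_fin,
          Nat.cast_pow, div_mul_eq_mul_div, tiltVal, Φ]
        rfl

end Vale.Agent.P168
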