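import Vale.Agent.P168.RecLog

/-!
# P168: bounds and continuity of the integrands in the interaction and the field
-/

open MeasureTheory Real Finset

namespace Vale.Agent.P168

variable {K n N r : ℕ}

/-- `logU` as a function of the interaction tables. -/
noncomputable def rawU (T : Fin n → (Fin K → Bool) → ℝ) (ℓ : Fin n → Fin K) (h : ℝ)
    (x : Fin n × Fin K → ℝ) : ℝ :=
  log (∑ e : Bool, exp (h * spin e) * ∏ k, ∑ s : Fin K → Bool,
    if s (ℓ k) = e then exp (T k s) * ∏ j ∈ Finset.univ.erase (ℓ k), msgW (x (k, j)) (s j) else 0)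

/-- `logV` as a function of the interaction tables. -/
noncomputable def rawV (T : Fin n → (Fin K → Bool) → ℝ) (x : Fin n × Fin K → ℝ) : ℝ :=
  log (∏ k, ∑ s : Fin K → Bool, exp (T k s) * ∏ j, msgW (x (k, j)) (s j))

/-- The logarithm of the partition function as a function of the interaction tables. -/
noncomputable def rawZ (T : Fin n → (Fin K → Bool) → ℝ) (i : Fin n → Fin K → Fin N) (h : Fin N → ℝ) : ℝ :=
  log (∑ σ : Fin N → Bool, exp (∑ k, T k (fun j => σ (i k j)) + ∑ v, h v * spin (σ v)))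

theorem logU_eq_raw (θ : Fin n → Clause K) (ℓ : Fin n → Fin K) (h : ℝ) :
    logU θ ℓ h = rawU (fun k => theta (θ k)) ℓ h := rfl

theorem logV_eq_raw (θ : Fin n → Clause K) : logV θ = rawV fun k => theta (θ k) := rfl

theorem logZ_eq_raw (θ : Fin n → Clause K) (i : Fin n → Fin K → Fin N) (h : Fin N → ℝ) :
    log (∑ σ, exp (ham θ i h σ)) = rawZ (fun k => theta (θ k)) i h := rfl

/-- A bound on one interaction table. -/
noncomputable def tnorm (t : (Fin K → Bool) → ℝ) : ℝ := ∑ s, |t s|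

theorem abs_le_tnorm (t : (Fin K → Bool) → ℝ) (s : Fin K → Bool) : |t s| ≤ tnorm t :=
  single_le_sum (f := fun s => |t s|) (fun _ _ => abs_nonneg _) (mem_univ s)

theorem tnorm_nonneg (t : (Fin K → Bool) → ℝ) : 0 ≤ tnorm t := sum_nonneg fun _ _ => abs_nonneg _

theorem spin_abs (b : Bool) : |spin b| = 1 := by cases b <;> simp [spin]

theorem field_diff (h h' : ℝ) (b : Bool) : h * spin b ≤ h' * spin b + |h - h'| := by
  have := le_abs_self ((h - h') * spin b)
  rw [abs_mul, spin_abs, mul_one] at this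
  linarith [sub_mul h h' (spin b)]

theorem msgW_nonneg {x : ℝ} (hx : x ∈ Set.Icc (-1 : ℝ) 1) (b : Bool) : 0 ≤ msgW x b := by
  cases b <;> simp only [msgW, spin, if_true, Bool.false_eq_true, if_false] <;> linarith [hx.1, hx.2]

theorem sum_msgW (x : ℝ) : ∑ b, msgW x b = 1 := by
  simp [msgW, spin]; ring

theorem sum_msgW_prod (a : Fin K → ℝ) : ∑ s : Fin K → Bool, ∏ j, msgW (a j) (s j) = 1 := by
  rw [← Fintype.prod_sum fun j b => msgW (a j) b]
  exact Finset.prod_eq_one fun j _ => sum_msgW _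

theorem sum_msgW_erase (a : Fin K → ℝ) (ℓ : Fin K) (e : Bool) :
    (∑ s : Fin K → Bool, if s ℓ = e then ∏ j ∈ univ.erase ℓ, msgW (a j) (s j) else 0) = 1 := by
  have h : ∀ s : Fin K → Bool, (if s ℓ = e then ∏ j ∈ univ.erase ℓ, msgW (a j) (s j) else 0) =
      ∏ j, (if j = ℓ then (if s j = e then 1 else 0) else msgW (a j) (s j)) := fun s => by
    rw [← mul_prod_erase univ _ (mem_univ ℓ), if_pos rfl]
    rw [prod_congr rfl fun j hj => if_neg (ne_of_mem_erase hj)]
    split_ifs <;> simp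
  simp only [h]
  rw [← Fintype.prod_sum fun j b => if j = ℓ then (if b = e then (1 : ℝ) else 0) else msgW (a j) b]
  refine Finset.prod_eq_one fun j _ => ?_
  split_ifs
  · simp
  · exact sum_msgW _

theorem log_sum_le {ι : Type*} [Fintype ι] {A A' : ι → ℝ} {d : ℝ} (hA : 0 < ∑ e, A e)
    (hA' : 0 < ∑ e, A' e) (h : ∀ e, A e ≤ exp d * A' e) : log (∑ e, A e) ≤ log (∑ e, A' e) + d := by
  rw [log_le_iff_le_exp hA, exp_add, exp_log hA', mul_comm, mul_sum]
  exact sum_le_sum fun e _ => h e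

section factors

variable (t : (Fin K → Bool) → ℝ) (a : Fin K → ℝ)

/-- The factor of one clause of `U`. -/
noncomputable def facU (ℓ : Fin K) (e : Bool) : ℝ :=
  ∑ s : Fin K → Bool, if s ℓ = e then exp (t s) * ∏ j ∈ univ.erase ℓ, msgW (a j) (s j) else 0

/-- The factor of one clause of `V`. -/
noncomputable def facV : ℝ := ∑ s : Fin K → Bool, exp (t s) * ∏ j, msgW (a j) (s j)

variable {t a}

theorem facU_le (t' : (Fin K → Bool) → ℝ) (ℓ : Fin K) (e : Bool) {d : ℝ}
    (ha : ∀ j, a j ∈ Set.Icc (-1 : ℝ) 1) (hd : ∀ s, t s ≤ t' s + d) :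
    facU t a ℓ e ≤ exp d * facU t' a ℓ e := by
  rw [facU, facU, mul_sum]
  refine sum_le_sum fun s _ => ?_
  split_ifs
  · rw [← mul_assoc, ← exp_add, add_comm]
    exact mul_le_mul_of_nonneg_right (exp_le_exp.2 (hd s)) (prod_nonneg fun j _ => msgW_nonneg (ha j) _)
  · rw [mul_zero]

theorem facV_le (t' : (Fin K → Bool) → ℝ) {d : ℝ} (ha : ∀ j, a j ∈ Set.Icc (-1 : ℝ) 1)
    (hd : ∀ s, t s ≤ t' s + d) : facV t a ≤ exp d * facV t' a := by
  rw [facV, facV, mul_sum]
  refine sum_le_sum fun s _ => ?_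
  rw [← mul_assoc, ← exp_add, add_comm]
  exact mul_le_mul_of_nonneg_right (exp_le_exp.2 (hd s)) (prod_nonneg fun j _ => msgW_nonneg (ha j) _)

theorem facU_zero (ℓ : Fin K) (e : Bool) : facU (fun _ => 0) a ℓ e = 1 := by
  simpa [facU] using sum_msgW_erase a ℓ e

theorem facV_zero : facV (fun _ => 0) a = 1 := by simpa [facV] using sum_msgW_prod a

theorem facU_pos (ℓ : Fin K) (e : Bool) (ha : ∀ j, a j ∈ Set.Icc (-1 : ℝ) 1) : 0 < facU t a ℓ e := by
  have h := facU_le (t := fun _ => (0 : ℝ)) (a := a) t ℓ e (d := tnorm t) ha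
    fun s => by linarith [(abs_le.1 (abs_le_tnorm t s)).1]
  rw [facU_zero] at h
  exact pos_of_mul_pos_right (zero_lt_one.trans_le h) (exp_pos _).le

theorem facV_pos (ha : ∀ j, a j ∈ Set.Icc (-1 : ℝ) 1) : 0 < facV t a := by
  have h := facV_le (t := fun _ => (0 : ℝ)) (a := a) t (d := tnorm t) ha
    fun s => by linarith [(abs_le.1 (abs_le_tnorm t s)).1]
  rw [facV_zero] at h
  exact pos_of_mul_pos_right (zero_lt_one.trans_le h) (exp_pos _).le

end factors

variable (T T' : Fin n → (Fin K → Bool) → ℝ) (ℓ : Fin n → Fin K) (x : Fin n × Fin K → ℝ)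

theorem rawU_le {d : Fin n → ℝ} (h h' : ℝ) (hd : ∀ k s, T k s ≤ T' k s + d k)
    (hx : ∀ i, x i ∈ Set.Icc (-1 : ℝ) 1) :
    rawU T ℓ h x ≤ rawU T' ℓ h' x + (∑ k, d k + |h - h'|) := by
  have pos : ∀ (T : Fin n → (Fin K → Bool) → ℝ) (h : ℝ),
      0 < ∑ e : Bool, exp (h * spin e) * ∏ k, facU (T k) (fun j => x (k, j)) (ℓ k) e := fun T h =>
    sum_pos (fun e _ => mul_pos (exp_pos _) (prod_pos fun k _ => facU_pos _ _ fun j => hx _))
      univ_nonempty
  refine log_sum_le (pos T h) (pos T' h') fun e => ?_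
  change exp (h * spin e) * ∏ k, facU (T k) (fun j => x (k, j)) (ℓ k) e ≤
    exp (∑ k, d k + |h - h'|) * (exp (h' * spin e) * ∏ k, facU (T' k) (fun j => x (k, j)) (ℓ k) e)
  rw [show exp (∑ k, d k + |h - h'|) * (exp (h' * spin e) *
      ∏ k, facU (T' k) (fun j => x (k, j)) (ℓ k) e) = exp (h' * spin e + |h - h'|) *
      ∏ k, exp (d k) * facU (T' k) (fun j => x (k, j)) (ℓ k) e by
    rw [prod_mul_distrib, ← exp_sum, exp_add, exp_add]; ring]
  refine mul_le_mul (exp_le_exp.2 ?_) (prod_le_prod (fun k _ => (facU_pos _ _ fun j => hx _).le)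
    fun k _ => facU_le _ _ _ (fun j => hx _) (hd k))
    (prod_nonneg fun k _ => (facU_pos _ _ fun j => hx _).le) (exp_pos _).le
  linarith [field_diff h h' e]

theorem rawV_le {d : Fin n → ℝ} (hd : ∀ k s, T k s ≤ T' k s + d k)
    (hx : ∀ i, x i ∈ Set.Icc (-1 : ℝ) 1) : rawV T x ≤ rawV T' x + ∑ k, d k := by
  have pos : ∀ T : Fin n → (Fin K → Bool) → ℝ, 0 < ∏ k, facV (T k) (fun j => x (k, j)) := fun T =>
    prod_pos fun k _ => facV_pos fun j => hx _
  change log (∏ k, facV (T k) fun j => x (k, j)) ≤ log (∏ k, facV (T' k) fun j => x (k, j)) + _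
  rw [log_le_iff_le_exp (pos T), exp_add, exp_log (pos T'), exp_sum, ← prod_mul_distrib]
  refine prod_le_prod (fun k _ => (facV_pos fun j => hx _).le) fun k _ => ?_
  rw [mul_comm]
  exact facV_le _ (fun j => hx _) (hd k)

theorem rawU_zero : rawU (fun (_ : Fin n) (_ : Fin K → Bool) => (0 : ℝ)) ℓ 0 x = log 2 := by
  change log (∑ e : Bool, exp (0 * spin e) * ∏ k, facU (fun _ => 0) (fun j => x (k, j)) (ℓ k) e) = _
  simp [facU_zero, one_add_one_eq_two]

theorem rawV_zero : rawV (fun (_ : Fin n) (_ : Fin K → Bool) => (0 : ℝ)) x = 0 := by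
  change log (∏ k, facV (fun _ => 0) fun j => x (k, j)) = 0
  simp [facV_zero]

theorem rawU_lip {d : Fin n → ℝ} (h h' : ℝ) (hd : ∀ k s, |T k s - T' k s| ≤ d k)
    (hx : ∀ i, x i ∈ Set.Icc (-1 : ℝ) 1) :
    |rawU T ℓ h x - rawU T' ℓ h' x| ≤ ∑ k, d k + |h - h'| := by
  have h1 := rawU_le T T' ℓ x h h' (fun k s => by linarith [(abs_le.1 (hd k s)).2]) hx (d := d)
  have h2 := rawU_le T' T ℓ x h' h (fun k s => by linarith [(abs_le.1 (hd k s)).1]) hx (d := d)
  rw [abs_sub_comm h'] at h2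
  exact abs_sub_le_iff.2 ⟨by linarith, by linarith⟩

theorem rawV_lip {d : Fin n → ℝ} (hd : ∀ k s, |T k s - T' k s| ≤ d k)
    (hx : ∀ i, x i ∈ Set.Icc (-1 : ℝ) 1) : |rawV T x - rawV T' x| ≤ ∑ k, d k := by
  have h1 := rawV_le T T' x (fun k s => by linarith [(abs_le.1 (hd k s)).2]) hx (d := d)
  have h2 := rawV_le T' T x (fun k s => by linarith [(abs_le.1 (hd k s)).1]) hx (d := d)
  exact abs_sub_le_iff.2 ⟨by linarith, by linarith⟩

theorem rawU_abs (h : ℝ) (hx : ∀ i, x i ∈ Set.Icc (-1 : ℝ) 1) :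
    |rawU T ℓ h x| ≤ ∑ k, tnorm (T k) + |h| + log 2 := by
  have h1 := rawU_lip T (fun _ _ => 0) ℓ x h 0 (d := fun k => tnorm (T k))
    (fun k s => by simpa using abs_le_tnorm (T k) s) hx
  rw [rawU_zero, sub_zero] at h1
  calc |rawU T ℓ h x| ≤ |rawU T ℓ h x - log 2| + |log 2| := by
        simpa using abs_add_le (rawU T ℓ h x - log 2) (log 2)
    _ ≤ _ := by rw [abs_of_nonneg (log_nonneg one_le_two)]; linarith

theorem rawV_abs (hx : ∀ i, x i ∈ Set.Icc (-1 : ℝ) 1) : |rawV T x| ≤ ∑ k, tnorm (T k) := by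
  have h1 := rawV_lip T (fun _ _ => 0) x (d := fun k => tnorm (T k))
    (fun k s => by simpa using abs_le_tnorm (T k) s) hx
  rwa [rawV_zero, sub_zero] at h1

/-! ### The partition function -/

theorem rawZ_lip (i : Fin n → Fin K → Fin N) (h h' : Fin N → ℝ) {d : Fin n → ℝ}
    (hd : ∀ k s, |T k s - T' k s| ≤ d k) :
    |rawZ T i h - rawZ T' i h'| ≤ ∑ k, d k + ∑ v, |h v - h' v| := by
  have main : ∀ (T T' : Fin n → (Fin K → Bool) → ℝ) (h h' : Fin N → ℝ),
      (∀ k s, |T k s - T' k s| ≤ d k) →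
      rawZ T i h ≤ rawZ T' i h' + (∑ k, d k + ∑ v, |h v - h' v|) := by
    intro T T' h h' hd
    refine log_sum_le (sum_pos (fun _ _ => exp_pos _) univ_nonempty)
      (sum_pos (fun _ _ => exp_pos _) univ_nonempty) fun σ => ?_
    rw [← exp_add]
    refine exp_le_exp.2 ?_
    calc ∑ k, T k (fun j => σ (i k j)) + ∑ v, h v * spin (σ v)
        ≤ ∑ k, (T' k (fun j => σ (i k j)) + d k) + ∑ v, (h' v * spin (σ v) + |h v - h' v|) :=
          add_le_add (sum_le_sum fun k _ => by linarith [(abs_le.1 (hd k fun j => σ (i k j))).2])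
            (sum_le_sum fun v _ => field_diff _ _ _)
      _ = _ := by rw [sum_add_distrib, sum_add_distrib]; ring
  have h1 := main T T' h h' hd
  have h2 := main T' T h' h fun k s => abs_sub_comm (T k s) (T' k s) ▸ hd k s
  rw [sum_congr rfl fun v _ => abs_sub_comm (h' v) (h v)] at h2
  exact abs_sub_le_iff.2 ⟨by linarith, by linarith⟩

theorem rawZ_zero (i : Fin n → Fin K → Fin N) :
    rawZ (fun (_ : Fin n) (_ : Fin K → Bool) => (0 : ℝ)) i (fun _ => 0) = N * log 2 := by
  simp [rawZ, log_pow]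

theorem rawZ_abs (i : Fin n → Fin K → Fin N) (h : Fin N → ℝ) :
    |rawZ T i h| ≤ ∑ k, tnorm (T k) + ∑ v, |h v| + N * log 2 := by
  have h1 := rawZ_lip T (fun _ _ => 0) i h (fun _ => 0) (d := fun k => tnorm (T k))
    fun k s => by simpa using abs_le_tnorm (T k) s
  rw [rawZ_zero] at h1
  simp only [sub_zero] at h1
  have h2 : (0 : ℝ) ≤ N * log 2 := mul_nonneg (Nat.cast_nonneg _) (log_nonneg one_le_two)
  calc |rawZ T i h| ≤ |rawZ T i h - N * log 2| + |(N : ℝ) * log 2| := by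
        simpa using abs_add_le (rawZ T i h - N * log 2) (N * log 2)
    _ ≤ _ := by rw [abs_of_nonneg h2]; linarith

/-! ### Measurability -/

theorem measurable_rawU (h : ℝ) : Measurable (rawU T ℓ h) := by
  unfold rawU
  refine measurable_log.comp (Finset.measurable_sum _ fun e _ => (Finset.measurable_prod _ fun k _ =>
    Finset.measurable_sum _ fun s _ => ?_).const_mul _)
  split_ifs
  · exact (Finset.measurable_prod _ fun j _ =>
      (((measurable_pi_apply (k, j)).mul_const _).const_add _).div_const _).const_mul _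
  · exact measurable_const

theorem measurable_rawV : Measurable (rawV T) := by
  unfold rawV
  exact measurable_log.comp (Finset.measurable_prod _ fun k _ => Finset.measurable_sum _ fun s _ =>
    (Finset.measurable_prod _ fun j _ =>
      (((measurable_pi_apply (k, j)).mul_const _).const_add _).div_const _).const_mul _)

end Vale.Agent.P168
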