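import Vale.Agent.P168.Lower.Pins
import Vale.Agent.P168.Tree.Deriv
import Vale.Agent.P168.Tree.Var
import Vale.Agent.P168.Upper.Factor

/-!
# P168, lower bound: independent copies of trees and the magnetisation above the leaves
-/

open Real Finset

namespace Vale.Agent.P168

variable {L n N : ℕ} {Z : Type} [Fintype Z] [DecidableEq Z] [Nonempty Z]
variable {ι : Type} [Fintype ι] [DecidableEq ι]

theorem vAt_shift (G : Grid L) (H : (Fin L → Z) → ℝ) (c : ℝ) (t : ℕ) (p : Fin L → Z) :
    vAt G (fun ξ => H ξ + c) t p = vAt G H t p + c := by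
  induction hd : L - t generalizing t p with
  | zero => rw [vAt_top G _ (by omega), vAt_top G _ (by omega)]
  | succ d ih =>
    have ht : t < L := by omega
    have hm := G.m_pos (t + 1) (by omega) ht
    have hz : (0 : ℝ) < Fintype.card Z := Nat.cast_pos.2 Fintype.card_pos
    have hpos : 0 < mean fun z => exp (G.m (t + 1) * vAt G H (t + 1) (putZ p t z)) :=
      div_pos (sum_pos (fun _ _ => exp_pos _) univ_nonempty) hz
    rw [vAt_step G _ ht, vAt_step G _ ht]
    simp only [mean] at hpos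
    simp only [ih (t + 1) _ (by omega), mul_add, exp_add, mean, ← sum_mul, mul_div_right_comm]
    rw [log_mul hpos.ne' (exp_pos _).ne', log_exp]
    field_simp

/-- The values of independent copies add. -/
theorem vAt_copies (G : Grid L) (H : ι → (Fin L → Z) → ℝ) (t : ℕ) (p : Fin L → ι → Z) :
    vAt G (fun ξ : Fin L → ι → Z => ∑ a, H a fun l => ξ l a) t p =
      ∑ a, vAt G (H a) t fun l => p l a := by
  induction hd : L - t generalizing t p with
  | zero => simp only [vAt_top G _ (show L ≤ t by omega)]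
  | succ d ih =>
    have ht : t < L := by omega
    have hz : (0 : ℝ) < Fintype.card Z := Nat.cast_pos.2 Fintype.card_pos
    have hput : ∀ (z : ι → Z) a, (fun l => putZ p t z l a) = putZ (fun l => p l a) t (z a) :=
      fun z a => funext fun l => by simp only [putZ]; split_ifs <;> rfl
    have hpos : ∀ a, 0 < mean fun z => exp (G.m (t + 1) * vAt G (H a) (t + 1) (putZ (fun l => p l a) t z)) :=
      fun a => div_pos (sum_pos (fun _ _ => exp_pos _) univ_nonempty) hz
    simp only [vAt_step G _ ht, ih (t + 1) _ (by omega), hput, mul_sum, exp_sum]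
    rw [mean_pi_prod fun a z => exp (G.m (t + 1) * vAt G (H a) (t + 1) (putZ (fun l => p l a) t z)),
      log_prod fun a _ => (hpos a).ne', sum_div]

/-- The expectation of a product over independent copies. -/
theorem E_copies (S : Shape L n) (G : Grid L) (H : ι → (Fin L → Z) → ℝ)
    (φ : ι → (Fin n → Fin L → Z) → ℝ) :
    S.E G (fun ξ : Fin L → ι → Z => ∑ a, H a fun l => ξ l a) (fun ξ => ∏ a, φ a fun i l => ξ i l a) =
      ∏ a, S.E G (H a) (φ a) := by
  have hd : ∀ ξ : Fin n → Fin L → ι → Z,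
      S.dens G (fun ζ : Fin L → ι → Z => ∑ a, H a fun l => ζ l a) ξ =
        ∏ a, S.dens G (H a) fun i l => ξ i l a := fun ξ => by
    simp only [Shape.dens, incr, vAt_copies, ← exp_sum, ← sum_sub_distrib, mul_sum, sum_div]
    congr 1
    rw [sum_comm (s := (univ : Finset ι))]
    exact sum_congr rfl fun i _ => sum_comm
  simp only [Shape.E, hd, ← prod_mul_distrib]
  exact cmean_pi S fun a v => S.dens G (H a) v * φ a v

theorem Shape.eq_one (S : Shape L 1) : S = Shape.one L := by
  cases S with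
  | mk J self ne symm ultra =>
    have : J = fun _ _ => L := funext fun i => funext fun j => by rw [Subsingleton.elim j i]; exact self i
    subst this
    rfl

/-- A leaf may be replaced by the conditional expectation given the node above it. -/
theorem E_leaf_cnd (hL : 1 ≤ L) (S : Shape L n) (G : Grid L) (H : (Fin L → Z) → ℝ) (j0 : Fin n)
    (φ : (Fin n → Fin L → Z) → ℝ) (hφ : ∀ ξ ξ', (∀ j, j ≠ j0 → ξ j = ξ' j) → φ ξ = φ ξ')
    (ψ : (Fin L → Z) → ℝ) :
    S.E G H (fun ξ => φ ξ * ψ (ξ j0)) = S.E G H fun ξ => φ ξ * cndAt G H (L - 1) ψ (ξ j0) := by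
  have tower : ∀ t, t ≤ L - 1 → ∀ p, cndAt G H t (cndAt G H (L - 1) ψ) p = cndAt G H t ψ p :=
    fun t ht p => by simpa using cndAt_tower G H ht (fun _ => 1) ψ (fun _ _ _ => rfl) p
  cases n with
  | zero => exact j0.elim0
  | succ m =>
    rcases Nat.eq_zero_or_pos m with rfl | hm
    · obtain rfl : j0 = 0 := Fin.fin_one_eq_zero j0
      have hc : ∀ ξ, φ ξ = φ fun _ _ => Classical.arbitrary Z := fun ξ =>
        hφ _ _ fun j hj => absurd (Fin.fin_one_eq_zero j) hj
      rw [Shape.eq_one S, show (fun ξ : Fin 1 → Fin L → Z => φ ξ * ψ (ξ 0)) = fun ξ =>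
        φ (fun _ _ => Classical.arbitrary Z) * ψ (ξ 0) from funext fun ξ => by rw [hc ξ],
        show (fun ξ : Fin 1 → Fin L → Z => φ ξ * cndAt G H (L - 1) ψ (ξ 0)) = fun ξ =>
        φ (fun _ _ => Classical.arbitrary Z) * cndAt G H (L - 1) ψ (ξ 0) from funext fun ξ => by rw [hc ξ],
        E_mul_left, E_mul_left, E_one_eq G H ψ fun _ => Classical.arbitrary Z,
        E_one_eq G H (cndAt G H (L - 1) ψ) fun _ => Classical.arbitrary Z, tower 0 (Nat.zero_le _)]
    · obtain ⟨c0, t, hat⟩ := exists_attach S (Fin.succAboveEmb j0)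
        (fun j hj => Fin.exists_succAbove_eq hj) (fun c => Fin.succAbove_ne j0 c) hm
      set φ' : (Fin m → Fin L → Z) → ℝ := fun η =>
        φ (Fin.insertNth (α := fun _ => Fin L → Z) j0 (fun _ => Classical.arbitrary Z) η)
      have hφ' : ∀ ξ, φ ξ = φ' fun c => ξ (Fin.succAboveEmb j0 c) := fun ξ => hφ _ _ fun j hj => by
        obtain ⟨c, rfl⟩ := Fin.exists_succAbove_eq hj
        simp
      have ht : t ≤ L - 1 := by have := hat.lt; omega
      simp only [hφ', E_attach hat G H φ', tower t ht]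

/-- Every leaf may be replaced by its conditional expectation given the node above it. -/
theorem E_prod_cnd (hL : 1 ≤ L) (S : Shape L n) (G : Grid L) (H : (Fin L → Z) → ℝ)
    (g : Fin n → (Fin L → Z) → ℝ) :
    S.E G H (fun ξ => ∏ l, cndAt G H (L - 1) (g l) (ξ l)) = S.E G H fun ξ => ∏ l, g l (ξ l) := by
  suffices h : ∀ s : Finset (Fin n), S.E G H (fun ξ => ∏ l, (if l ∈ s then cndAt G H (L - 1) (g l) else g l) (ξ l))
      = S.E G H fun ξ => ∏ l, g l (ξ l) by simpa using h univ
  intro s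
  induction s using Finset.induction_on with
  | empty => simp
  | insert j s hj ih =>
    rw [← ih]
    have e : ∀ s' : Finset (Fin n), (∀ l, l ≠ j → (l ∈ s' ↔ l ∈ s)) → ∀ ξ : Fin n → Fin L → Z,
        ∏ l, (if l ∈ s' then cndAt G H (L - 1) (g l) else g l) (ξ l) =
          (∏ l ∈ univ.erase j, (if l ∈ s then cndAt G H (L - 1) (g l) else g l) (ξ l)) *
            (if j ∈ s' then cndAt G H (L - 1) (g j) else g j) (ξ j) := fun s' hs' ξ => by
      rw [← prod_erase_mul univ _ (mem_univ j)]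
      congr 1
      exact prod_congr rfl fun l hl => by simp only [hs' l (ne_of_mem_erase hl)]
    simp only [e (insert j s) (fun l hl => by simp [hl]), e s fun l _ => Iff.rfl,
      if_pos (mem_insert_self j s), if_neg hj]
    exact (E_leaf_cnd hL S G H j _ (fun ξ ξ' h => prod_congr rfl fun l hl => by
      rw [h l (ne_of_mem_erase hl)]) (g j)).symm

theorem cndAt_affine (G : Grid L) (H : (Fin L → Z) → ℝ) (t : ℕ) (φ : (Fin L → Z) → ℝ) (a b : ℝ)
    (p : Fin L → Z) : cndAt G H t (fun q => a + b * φ q) p = a + b * cndAt G H t φ p := by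
  have hc : ((fib t p).card : ℝ) ≠ 0 := Nat.cast_ne_zero.2 (fib_card_pos t p).ne'
  simp only [cndAt_eq, mul_add, sum_add_distrib, ← sum_mul, sum_wAbove, mul_left_comm _ b, ← mul_sum]
  field_simp

theorem cndAt_abs_le (G : Grid L) (H : (Fin L → Z) → ℝ) (t : ℕ) {φ : (Fin L → Z) → ℝ} {A : ℝ}
    (h : ∀ q, |φ q| ≤ A) (p : Fin L → Z) : |cndAt G H t φ p| ≤ A := by
  have hc : (0 : ℝ) < (fib t p).card := Nat.cast_pos.2 (fib_card_pos t p)
  rw [cndAt_eq, abs_div, Nat.abs_cast, div_le_iff₀ hc, ← sum_wAbove G H t p, mul_sum]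
  refine (abs_sum_le_sum_abs _ _).trans (sum_le_sum fun q _ => ?_)
  have hw : (0 : ℝ) < wAbove G H t q := exp_pos _
  rw [abs_mul, abs_of_pos hw, mul_comm]
  exact mul_le_mul_of_nonneg_right (h q) hw.le

theorem mag_mem (B : Sys L N) (G : Grid L) (o : B.Om) (i : Fin N) (ξ : Fin L → B.Z) :
    B.mag G o i ξ ∈ Set.Icc (-1 : ℝ) 1 :=
  abs_le.1 (cndAt_abs_le G (B.H o) (L - 1)
    (fun q => by cases B.cfg q i <;> simp [spin]) ξ)

theorem msgW_mag (B : Sys L N) (G : Grid L) (o : B.Om) (i : Fin N) (s : Bool) (ξ : Fin L → B.Z) :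
    msgW (B.mag G o i ξ) s = cndAt G (B.H o) (L - 1) (fun ζ => msgW (spin (B.cfg ζ i)) s) ξ := by
  have := cndAt_affine G (B.H o) (L - 1) (fun ζ => spin (B.cfg ζ i)) (1 / 2) (spin s / 2) ξ
  rw [show (fun ζ => msgW (spin (B.cfg ζ i)) s) = fun ζ => 1 / 2 + spin s / 2 * spin (B.cfg ζ i) from
    funext fun ζ => by rw [msgW]; ring, this, msgW, Sys.mag]
  ring

end Vale.Agent.P168
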