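import Vale.Agent.P168.Lower.Law
import Vale.Agent.P168.Lower.Product
import Vale.Agent.P168.Lower.Lip

/-!
# P168, lower bound: concentrated multioverlaps make the gain equal its trial counterpart

Both sides are series over the shapes of sequentially attached replicas; the terms differ by the
deviation of a product over the arguments from the product of the means.
-/

open Real Finset

namespace Vale.Agent.P168

variable {L n N : ℕ}

/-! ### The coefficients as a law of shapes -/

theorem coefW_back (G : Grid L) (Φ : ∀ k, Shape L k → ℝ) : ∀ (d n : ℕ) (S : Shape L n),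
    coefW G (d + 1) n S Φ = coefW G d n S fun k T => attStep G T (Φ (k + 1))
  | 0, _, _ => rfl
  | d + 1, n, S => by
    rw [coefW]
    simp only [coefW_back G Φ d]
    rfl

theorem coefW_seqLaw (G : Grid L) : ∀ (d : ℕ) (Φ : ∀ k, Shape L k → ℝ),
    coefW G d 1 (Shape.one L) Φ = d.factorial * seqLaw G d (Φ (d + 1))
  | 0, Φ => by simp [coefW, seqLaw]
  | d + 1, Φ => by
    rw [coefW_back, coefW_seqLaw G d, seqLaw, Nat.factorial_succ]
    simp only [div_eq_inv_mul, seqLaw_const_mul]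
    push_cast
    field_simp

theorem place_full {b : ℕ} (G : Grid L) (Φ : Pos L b → ℝ) (F : ∀ k, Shape L k → ℝ)
    (h : ∀ Q : Pos L b, (∀ l, l ∈ Q.col) → Q.col.Nodup → Φ Q = F Q.n Q.S) :
    ∀ (d : ℕ) (P : Pos L b), (∀ l, l ∈ P.col) → P.col.Nodup →
      P.place G d Φ = (-1) ^ d * coefW G d P.n P.S F
  | 0, P, hf, hn => by simpa [Pos.place, coefW] using h P hf hn
  | d + 1, P, hf, hn => by
    rw [Pos.place, Pos.step, filter_false_of_mem fun l _ => not_not.2 (hf l), sum_empty, zero_sub,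
      coefW, mul_sum, ← sum_neg_distrib]
    refine sum_congr rfl fun i _ => ?_
    rw [mul_sum, ← sum_neg_distrib]
    refine sum_congr rfl fun t _ => ?_
    have key : ∀ l : Fin (P.n + 1), l ∈ P.col.map Fin.castSucc ++ [Fin.last P.n] := fun l => by
      simp only [List.mem_append, List.mem_singleton, List.mem_map]
      by_cases hl : l = Fin.last P.n
      · exact Or.inr hl
      · obtain ⟨c, rfl⟩ := Fin.exists_castSucc_eq.2 hl
        exact Or.inl ⟨c, hf c, rfl⟩
    have hmem : ∀ l, l ∈ (P.new i t).col := key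
    have hnd : (P.new i t).col.Nodup := by
      simp only [Pos.new, List.nodup_append]
      refine ⟨hn.map (Fin.castSucc_injective _), List.nodup_singleton _, fun a ha c hc => ?_⟩
      obtain ⟨x, -, rfl⟩ := List.mem_map.1 ha
      rw [List.mem_singleton] at hc
      exact hc ▸ (Fin.castSucc_lt_last x).ne
    rw [place_full G Φ F h d _ hmem hnd]
    show -(P.S.attW G i t * ((-1) ^ d * coefW G d (P.n + 1) (P.S.ext i t t.2) F)) = _
    ring

/-- The multioverlap of all replicas. -/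
noncomputable def fullOverlap (σ : Fin n → Fin N → Bool) : ℝ := mean fun i : Fin N => ∏ l, spin (σ l i)

/-- The deviation of the multioverlap of all replicas of one shape. -/
noncomputable def Sys.devShape (B : Sys L N) (G : Grid L) {n : ℕ} (S : Shape L n) : ℝ :=
  B.E G S fun _ ξ => |fullOverlap (B.spins ξ) - B.E G S fun _ ξ' => fullOverlap (B.spins ξ')|

theorem seqDev_eq_seqLaw (B : Sys L N) (G : Grid L) (d : ℕ) :
    B.seqDev G d = seqLaw G d fun S => B.devShape G S := by
  have hov : ∀ (k : ℕ) (col : List (Fin k)) (σ : Fin k → Fin N → Bool),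
      (∀ l, l ∈ col) → col.Nodup → overlap col σ = fullOverlap σ := fun k col σ hm hn => by
    refine congrArg mean (funext fun i => ?_)
    rw [← List.prod_toFinset _ hn, show col.toFinset = univ from eq_univ_of_forall fun l =>
      List.mem_toFinset.2 (hm l)]
  rw [Sys.seqDev, seqMean, place_full G _ (fun _ S => B.devShape G S) (fun Q hm hn => by
    simp only [Sys.devShape, hov _ _ _ hm hn]) d _ (fun l => by simp [Subsingleton.elim l 0]) (by simp),
    coefW_seqLaw, ← mul_assoc, ← mul_assoc, ← mul_pow]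
  norm_num
  field_simp

/-! ### The expectation of a system -/

theorem sysE_congr (B : Sys L N) (G : Grid L) (S : Shape L n)
    {φ ψ : B.Om → (Fin n → Fin L → B.Z) → ℝ} (h : ∀ o ξ, φ o ξ = ψ o ξ) : B.E G S φ = B.E G S ψ := by
  simp [Sys.E, show φ = ψ from funext fun o => funext (h o)]

theorem sysE_const (B : Sys L N) (G : Grid L) (S : Shape L n) (c : ℝ) :
    B.E G S (fun _ _ => c) = c := by
  have h : ∀ o, S.E G (B.H o) (fun _ => c) = c := fun o => by
    have := E_mul_left S G (B.H o) c fun _ => 1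
    simpa [E_mass] using this
  simp [Sys.E, h, ← sum_mul, B.w_sum]

theorem sysE_lin (B : Sys L N) (G : Grid L) (S : Shape L n) (a b : ℝ)
    (φ ψ : B.Om → (Fin n → Fin L → B.Z) → ℝ) :
    B.E G S (fun o ξ => a * φ o ξ + b * ψ o ξ) = a * B.E G S φ + b * B.E G S ψ := by
  simp only [Sys.E, E_add, E_mul_left, mul_add, sum_add_distrib, mul_sum]
  congr 1 <;> exact sum_congr rfl fun o _ => by ring

theorem sysE_sum {α : Type*} (s : Finset α) (B : Sys L N) (G : Grid L) (S : Shape L n)
    (φ : α → B.Om → (Fin n → Fin L → B.Z) → ℝ) :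
    B.E G S (fun o ξ => ∑ a ∈ s, φ a o ξ) = ∑ a ∈ s, B.E G S (φ a) := by
  simp only [Sys.E, E_sum, mul_sum]
  exact sum_comm

theorem sysE_mul_left (B : Sys L N) (G : Grid L) (S : Shape L n) (a : ℝ)
    (φ : B.Om → (Fin n → Fin L → B.Z) → ℝ) : B.E G S (fun o ξ => a * φ o ξ) = a * B.E G S φ := by
  simpa using sysE_lin B G S a 0 φ φ

theorem sysE_mono (B : Sys L N) (G : Grid L) (S : Shape L n)
    {φ ψ : B.Om → (Fin n → Fin L → B.Z) → ℝ} (h : ∀ o ξ, φ o ξ ≤ ψ o ξ) : B.E G S φ ≤ B.E G S ψ :=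
  sum_le_sum fun o _ => mul_le_mul_of_nonneg_left (E_mono S G _ (h o)) (B.w_nonneg o)

theorem sysE_abs (B : Sys L N) (G : Grid L) (S : Shape L n) (φ : B.Om → (Fin n → Fin L → B.Z) → ℝ) :
    |B.E G S φ| ≤ B.E G S fun o ξ => |φ o ξ| :=
  abs_le.2 ⟨by
    rw [← neg_one_mul, ← sysE_mul_left]
    exact sysE_mono B G S fun o ξ => by linarith [neg_abs_le (φ o ξ)],
    sysE_mono B G S fun o ξ => le_abs_self _⟩

/-! ### One pattern of spins -/

/-- The frequency of the sites showing a pattern, as a product of message weights. -/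
noncomputable def patW (s : Fin n → Bool) (σ : Fin n → Fin N → Bool) : ℝ :=
  mean fun i : Fin N => ∏ l, msgW (spin (σ l i)) (s l)

theorem spin_mem (b : Bool) : spin b ∈ Set.Icc (-1 : ℝ) 1 := by cases b <;> simp [spin]

theorem patW_mem (s : Fin n → Bool) (σ : Fin n → Fin N → Bool) : patW s σ ∈ Set.Icc (0 : ℝ) 1 := by
  have h : ∀ (i : Fin N) (l : Fin n), 0 ≤ msgW (spin (σ l i)) (s l) ∧ msgW (spin (σ l i)) (s l) ≤ 1 :=
    fun i l => ⟨msgW_nonneg (spin_mem _) _, by
      cases σ l i <;> cases s l <;> norm_num [msgW, spin]⟩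
  refine ⟨div_nonneg (sum_nonneg fun i _ => prod_nonneg fun l _ => (h i l).1) (Nat.cast_nonneg _),
    div_le_one_of_le₀ ?_ (Nat.cast_nonneg _)⟩
  refine (sum_le_card_nsmul _ _ 1 fun i _ => ?_).trans (by simp)
  exact prod_le_one (fun l _ => (h i l).1) fun l _ => (h i l).2

theorem patW_expand (s : Fin n → Bool) (σ : Fin n → Fin N → Bool) :
    patW s σ = (1 / 2) ^ n * ∑ T ∈ (univ : Finset (Fin n)).powerset,
      (∏ l ∈ T, spin (s l)) * mean fun i : Fin N => ∏ l ∈ T, spin (σ l i) := by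
  have h : ∀ i : Fin N, ∏ l, msgW (spin (σ l i)) (s l) =
      (1 / 2) ^ n * ∑ T ∈ (univ : Finset (Fin n)).powerset, (∏ l ∈ T, spin (s l)) * ∏ l ∈ T, spin (σ l i) :=
    fun i => by
      calc ∏ l, msgW (spin (σ l i)) (s l)
          = ∏ l, 1 / 2 * (1 + spin (s l) * spin (σ l i)) :=
            prod_congr rfl fun l _ => by rw [msgW]; ring
        _ = _ := by
            rw [prod_mul_distrib, prod_const, card_univ, Fintype.card_fin, prod_one_add]
            simp only [prod_mul_distrib]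
  simp only [patW, mean, h, ← mul_sum, mul_div_assoc, sum_div]
  rw [sum_comm]
  simp only [mul_div_assoc, ← mul_sum]

theorem seqLaw_patW_dev (B : Sys L N) (G : Grid L) (hN : 0 < N) {D : ℕ} {δ : ℝ} (hδ : 0 ≤ δ)
    (hB : ∀ d ≤ D, B.seqDev G d ≤ δ) {d : ℕ} (hd : d ≤ D) (s : Fin (d + 1) → Bool) :
    seqLaw G d (fun S => B.E G S fun _ ξ =>
      |patW s (B.spins ξ) - B.E G S fun _ ξ' => patW s (B.spins ξ')|) ≤ δ := by
  haveI : NeZero N := ⟨hN.ne'⟩
  set R : Finset (Fin (d + 1)) → (Fin (d + 1) → Fin N → Bool) → ℝ :=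
    fun T σ => mean fun i : Fin N => ∏ l ∈ T, spin (σ l i) with hR
  set dv : Finset (Fin (d + 1)) → Shape L (d + 1) → ℝ := fun T S => B.E G S fun _ ξ =>
    |R T (B.spins ξ) - B.E G S fun _ ξ' => R T (B.spins ξ')| with hdv
  have hT : ∀ T, seqLaw G d (dv T) ≤ δ := fun T => by
    rcases T.eq_empty_or_nonempty with rfl | hne
    · have h0 : dv ∅ = fun _ => 0 := funext fun S => by
        simp [hdv, hR, mean_const, sysE_const]
      rw [h0, seqLaw_const]
      exact hδ
    · obtain ⟨k, hk⟩ : ∃ k, T.card = k + 1 := ⟨T.card - 1, by have := hne.card_pos; omega⟩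
      set e : Fin (k + 1) ↪ Fin (d + 1) := (T.orderEmbOfFin hk).toEmbedding
      have hkd : k ≤ D := by
        have := T.card_le_univ
        simp at this
        omega
      have hRe : ∀ σ, R T σ = fullOverlap fun c => σ (e c) := fun σ => by
        refine congrArg mean (funext fun i => ?_)
        conv_lhs => rw [← map_orderEmbOfFin_univ T hk]
        rw [prod_map]
      have heq : dv T = fun S => B.devShape G (S.comap e) := funext fun S => by
        simp only [hdv, hRe, Sys.devShape, Sys.spins]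
        have hm : ∀ φ : (Fin (k + 1) → Fin L → B.Z) → ℝ,
            B.E G S (fun _ ξ => φ fun c => ξ (e c)) = B.E G (S.comap e) fun _ η => φ η := fun φ => by
          simp only [Sys.E, marginalStmt L (d + 1) (k + 1) B.Z G _ S e φ]
        rw [hm fun η => fullOverlap fun c => B.cfg (η c)]
        exact hm fun η => |fullOverlap (fun c => B.cfg (η c)) -
          B.E G (S.comap e) fun _ η' => fullOverlap fun c => B.cfg (η' c)|
      rw [heq, seqLaw_comap G e fun S => B.devShape G S, ← seqDev_eq_seqLaw]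
      exact hB k hkd
  have hpt : ∀ S, (B.E G S fun _ ξ => |patW s (B.spins ξ) - B.E G S fun _ ξ' => patW s (B.spins ξ')|) ≤
      (1 / 2) ^ (d + 1) * ∑ T ∈ (univ : Finset (Fin (d + 1))).powerset, dv T S := fun S => by
    simp only [hdv, ← sysE_sum, ← sysE_mul_left]
    refine sysE_mono B G S fun _ ξ => ?_
    simp only [patW_expand, sysE_mul_left, sysE_sum, ← mul_sub, ← sum_sub_distrib, abs_mul]
    rw [abs_of_pos (by positivity : (0 : ℝ) < (1 / 2) ^ (d + 1))]
    refine mul_le_mul_of_nonneg_left ((abs_sum_le_sum_abs _ _).trans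
      (sum_le_sum fun T _ => le_of_eq ?_)) (by positivity)
    rw [abs_mul, abs_prod, prod_eq_one fun l _ => spin_abs (s l), one_mul]
  refine (seqLaw_mono G d hpt).trans ?_
  rw [seqLaw_const_mul, seqLaw_sum]
  calc (1 / 2 : ℝ) ^ (d + 1) * ∑ T ∈ (univ : Finset (Fin (d + 1))).powerset, seqLaw G d (dv T)
      ≤ (1 / 2) ^ (d + 1) * ∑ T ∈ (univ : Finset (Fin (d + 1))).powerset, δ :=
        mul_le_mul_of_nonneg_left (sum_le_sum fun T _ => hT T) (by positivity)
    _ = δ := by
        rw [sum_const, card_powerset, card_univ, Fintype.card_fin, nsmul_eq_mul]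
        push_cast
        rw [← mul_assoc, ← mul_pow]
        norm_num

theorem abs_prod_sub_prod {ι : Type*} (s : Finset ι) {f g : ι → ℝ}
    (hf : ∀ a, f a ∈ Set.Icc (0 : ℝ) 1) (hg : ∀ a, g a ∈ Set.Icc (0 : ℝ) 1) :
    |∏ a ∈ s, f a - ∏ a ∈ s, g a| ≤ ∑ a ∈ s, |f a - g a| := by
  classical
  induction s using Finset.induction_on with
  | empty => simp
  | insert a s ha ih =>
    rw [prod_insert ha, prod_insert ha, sum_insert ha]
    have h1 : |∏ b ∈ s, f b| ≤ 1 := by
      rw [abs_of_nonneg (prod_nonneg fun b _ => (hf b).1)]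
      exact prod_le_one (fun b _ => (hf b).1) fun b _ => (hf b).2
    have h2 : |g a| ≤ 1 := by rw [abs_of_nonneg (hg a).1]; exact (hg a).2
    calc |f a * ∏ b ∈ s, f b - g a * ∏ b ∈ s, g b|
        = |(f a - g a) * ∏ b ∈ s, f b + g a * (∏ b ∈ s, f b - ∏ b ∈ s, g b)| := by ring_nf
      _ ≤ |f a - g a| * |∏ b ∈ s, f b| + |g a| * |∏ b ∈ s, f b - ∏ b ∈ s, g b| := by
          rw [← abs_mul, ← abs_mul]; exact abs_add_le _ _
      _ ≤ |f a - g a| * 1 + 1 * ∑ b ∈ s, |f b - g b| :=
          add_le_add (mul_le_mul_of_nonneg_left h1 (abs_nonneg _))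
            (mul_le_mul h2 ih (abs_nonneg _) zero_le_one)
      _ = _ := by ring

/-! ### The two series -/

section Series

variable {ι : Type} [Fintype ι] [DecidableEq ι]

/-- The multilinear extension. -/
noncomputable def mext (X : (ι → Bool) → ℝ) (x : ι → ℝ) : ℝ := ∑ s, X s * ∏ a, msgW (x a) (s a)

theorem sum_msgW_pi (x : ι → ℝ) : ∑ s : ι → Bool, ∏ a, msgW (x a) (s a) = 1 := by
  rw [← Fintype.prod_sum fun a b => msgW (x a) b]
  exact prod_eq_one fun a _ => sum_msgW _

theorem mext_vertex (X : (ι → Bool) → ℝ) (τ : ι → Bool) : mext X (fun a => spin (τ a)) = X τ := by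
  rw [mext, sum_eq_single τ]
  · rw [prod_eq_one fun a _ => by cases τ a <;> norm_num [msgW, spin], mul_one]
  · intro s _ hs
    obtain ⟨a, ha⟩ := Function.ne_iff.1 hs
    rw [prod_eq_zero (mem_univ a) (by
      revert ha; cases s a <;> cases τ a <;> norm_num [msgW, spin]), mul_zero]
  · simp

theorem mext_abs_le {X : (ι → Bool) → ℝ} {q : ℝ} (hX : ∀ s, |X s| ≤ q) {x : ι → ℝ}
    (hx : ∀ a, x a ∈ Set.Icc (-1 : ℝ) 1) : |mext X x| ≤ q := by
  have hw : ∀ s : ι → Bool, 0 ≤ ∏ a, msgW (x a) (s a) := fun s =>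
    prod_nonneg fun a _ => msgW_nonneg (hx a) _
  refine (abs_sum_le_sum_abs _ _).trans ?_
  calc ∑ s, |X s * ∏ a, msgW (x a) (s a)| ≤ ∑ s : ι → Bool, q * ∏ a, msgW (x a) (s a) :=
        sum_le_sum fun s _ => by rw [abs_mul, abs_of_nonneg (hw s)]; exact mul_le_mul_of_nonneg_right (hX s) (hw s)
    _ = q := by rw [← mul_sum, sum_msgW_pi, mul_one]

theorem prod_mext (X : (ι → Bool) → ℝ) (x : Fin n → ι → ℝ) :
    ∏ l, mext X (x l) =
      ∑ s : Fin n → ι → Bool, (∏ l, X (s l)) * ∏ a, ∏ l, msgW (x l a) (s l a) := by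
  simp only [mext, Fintype.prod_sum, prod_mul_distrib]
  exact sum_congr rfl fun s _ => by rw [prod_comm (s := univ) (t := (univ : Finset ι))]

/-- The degree `n` coefficient of the gain at one shape. -/
noncomputable def Sys.gainCoef (B : Sys L N) (G : Grid L) (X : (ι → Bool) → ℝ) {n : ℕ}
    (S : Shape L n) : ℝ :=
  ∑ o, B.w o * mean fun i : ι → Fin N =>
    S.E G (B.H o) fun ξ => ∏ l, mext X fun a => spin (B.cfg (ξ l) (i a))

/-- The degree `n` coefficient of the trial counterpart at one shape. -/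
noncomputable def Sys.trialCoef (B : Sys L N) (G : Grid L) (X : (ι → Bool) → ℝ) {n : ℕ}
    (S : Shape L n) : ℝ :=
  ∑ o : ι → B.Om, (∏ a, B.w (o a)) * mean fun i : ι → Fin N =>
    S.E G (fun ξ : Fin L → ι → B.Z => ∑ a, B.H (o a) fun l => ξ l a)
      fun ξ => ∏ l, mext X fun a => B.mag G (o a) (i a) fun t => ξ l t a

theorem gainCoef_eq (B : Sys L N) (G : Grid L) (X : (ι → Bool) → ℝ) (S : Shape L n) :
    B.gainCoef G X S = ∑ s : Fin n → ι → Bool, (∏ l, X (s l)) *
      B.E G S fun _ ξ => ∏ a, patW (fun l => s l a) (B.spins ξ) := by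
  have hmean : ∀ o : B.Om, (mean fun i : ι → Fin N =>
      S.E G (B.H o) fun ξ => ∏ l, mext X fun a => spin (B.cfg (ξ l) (i a))) =
      ∑ s : Fin n → ι → Bool, (∏ l, X (s l)) *
        S.E G (B.H o) fun ξ => ∏ a, patW (fun l => s l a) (B.spins ξ) := fun o => by
    simp only [prod_mext, E_sum, E_mul_left, mean, sum_div]
    rw [sum_comm]
    refine sum_congr rfl fun s _ => ?_
    simp only [mul_div_assoc, ← mul_sum, ← sum_div]
    congr 1
    rw [← E_sum, div_eq_inv_mul, ← E_mul_left]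
    refine congrArg (S.E G (B.H o)) (funext fun ξ => ?_)
    rw [← div_eq_inv_mul]
    exact mean_pi_prod fun a i => ∏ l, msgW (spin (B.cfg (ξ l) i)) (s l a)
  simp only [Sys.gainCoef, hmean, Sys.E, mul_sum]
  rw [sum_comm]
  exact sum_congr rfl fun s _ => sum_congr rfl fun o _ => by ring

theorem trialCoef_eq (hL : 1 ≤ L) (B : Sys L N) (G : Grid L) (X : (ι → Bool) → ℝ) (S : Shape L n) :
    B.trialCoef G X S = ∑ s : Fin n → ι → Bool, (∏ l, X (s l)) *
      ∏ a, B.E G S fun _ ξ => patW (fun l => s l a) (B.spins ξ) := by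
  have hfac : ∀ (o : ι → B.Om) (i : ι → Fin N) (s : Fin n → ι → Bool),
      S.E G (fun ξ : Fin L → ι → B.Z => ∑ a, B.H (o a) fun l => ξ l a)
        (fun ξ => ∏ a, ∏ l, msgW (B.mag G (o a) (i a) fun t => ξ l t a) (s l a)) =
      ∏ a, S.E G (B.H (o a)) fun η => ∏ l, msgW (spin (B.cfg (η l) (i a))) (s l a) := fun o i s => by
    rw [E_copies S G (fun a => B.H (o a)) fun a η => ∏ l, msgW (B.mag G (o a) (i a) (η l)) (s l a)]
    refine prod_congr rfl fun a _ => ?_
    simp only [msgW_mag]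
    exact E_prod_cnd hL S G _ fun l ζ => msgW (spin (B.cfg ζ (i a))) (s l a)
  simp only [Sys.trialCoef, prod_mext, E_sum, E_mul_left, hfac]
  have hmean : ∀ o : ι → B.Om, (mean fun i : ι → Fin N => ∑ s : Fin n → ι → Bool, (∏ l, X (s l)) *
      ∏ a, S.E G (B.H (o a)) fun η => ∏ l, msgW (spin (B.cfg (η l) (i a))) (s l a)) =
      ∑ s : Fin n → ι → Bool, (∏ l, X (s l)) *
        ∏ a, S.E G (B.H (o a)) fun η => patW (fun l => s l a) (B.spins η) := fun o => by
    simp only [mean, sum_div]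
    rw [sum_comm]
    refine sum_congr rfl fun s _ => ?_
    simp only [mul_div_assoc, ← mul_sum, ← sum_div]
    congr 1
    refine (mean_pi_prod fun a i => S.E G (B.H (o a)) fun η =>
      ∏ l, msgW (spin (B.cfg (η l) i)) (s l a)).trans (prod_congr rfl fun a _ => ?_)
    simp only [mean, patW, Sys.spins]
    rw [← E_sum, div_eq_inv_mul, ← E_mul_left]
    exact congrArg (S.E G (B.H (o a))) (funext fun η => by rw [← div_eq_inv_mul])
  simp only [hmean, mul_sum, Sys.E, Fintype.prod_sum, prod_mul_distrib]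
  rw [sum_comm]
  refine sum_congr rfl fun s _ => sum_congr rfl fun o _ => ?_
  ring

theorem coef_diff (hL : 1 ≤ L) (hN : 0 < N) (B : Sys L N) (G : Grid L) {D : ℕ} {δ : ℝ} (hδ : 0 ≤ δ)
    (hB : ∀ d ≤ D, B.seqDev G d ≤ δ) {d : ℕ} (hd : d ≤ D) (X : (ι → Bool) → ℝ) (hX : ∀ s, |X s| ≤ 1) :
    |seqLaw G d (fun S => B.gainCoef G X S) - seqLaw G d fun S => B.trialCoef G X S| ≤
      ((2 : ℝ) ^ Fintype.card ι) ^ (d + 1) * (Fintype.card ι * δ) := by
  have hsub : (seqLaw G d (fun S => B.gainCoef G X S) - seqLaw G d fun S => B.trialCoef G X S) =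
      seqLaw G d fun S => 1 * B.gainCoef G X S + (-1) * B.trialCoef G X S := by
    rw [seqLaw_lin]; ring
  rw [hsub]
  have hpt : ∀ S : Shape L (d + 1), |1 * B.gainCoef G X S + (-1) * B.trialCoef G X S| ≤
      ∑ s : Fin (d + 1) → ι → Bool, ∑ a, B.E G S fun _ ξ =>
        |patW (fun l => s l a) (B.spins ξ) - B.E G S fun _ ξ' => patW (fun l => s l a) (B.spins ξ')| := by
    intro S
    rw [gainCoef_eq, trialCoef_eq hL, one_mul, neg_one_mul, ← sub_eq_add_neg, ← sum_sub_distrib]
    refine (abs_sum_le_sum_abs _ _).trans (sum_le_sum fun s _ => ?_)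
    rw [← mul_sub, abs_mul]
    refine (mul_le_of_le_one_left (abs_nonneg _) ?_).trans ?_
    · rw [abs_prod]
      exact prod_le_one (fun l _ => abs_nonneg _) fun l _ => hX _
    set m : ι → ℝ := fun a => B.E G S fun _ ξ => patW (fun l => s l a) (B.spins ξ)
    have hm : ∀ a, m a ∈ Set.Icc (0 : ℝ) 1 := fun a =>
      ⟨(sysE_const B G S 0).ge.trans (sysE_mono B G S fun _ ξ => (patW_mem _ _).1),
        (sysE_mono B G S fun _ ξ => (patW_mem _ _).2).trans (sysE_const B G S 1).le⟩
    have he : (B.E G S fun _ ξ => ∏ a, patW (fun l => s l a) (B.spins ξ)) - ∏ a, m a =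
        B.E G S fun _ ξ => 1 * ∏ a, patW (fun l => s l a) (B.spins ξ) + (-1) * ∏ a, m a := by
      rw [sysE_lin, sysE_const]; ring
    rw [he, ← sysE_sum]
    refine (sysE_abs B G S _).trans (sysE_mono B G S fun _ ξ => ?_)
    rw [one_mul, neg_one_mul, ← sub_eq_add_neg]
    exact abs_prod_sub_prod univ (fun a => patW_mem _ _) hm
  refine ((seqLaw_abs G d _).trans (seqLaw_mono G d hpt)).trans ?_
  simp only [seqLaw_sum]
  calc ∑ s : Fin (d + 1) → ι → Bool, ∑ a : ι, seqLaw G d _
      ≤ ∑ s : Fin (d + 1) → ι → Bool, ∑ a : ι, δ :=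
        sum_le_sum fun s _ => sum_le_sum fun a _ => seqLaw_patW_dev B G hN hδ hB hd fun l => s l a
    _ = _ := by simp

theorem seqLaw_wmean (G : Grid L) (d : ℕ) {O I : Type*} [Fintype O] [Fintype I] (c : O → ℝ)
    (F : O → I → Shape L (d + 1) → ℝ) :
    ∑ o, c o * mean (fun i => seqLaw G d (F o i)) =
      seqLaw G d fun S => ∑ o, c o * mean fun i => F o i S := by
  simp only [mean, div_eq_inv_mul, seqLaw_sum, seqLaw_const_mul]

theorem coef_term (G : Grid L) (d : ℕ) {O I : Type*} [Fintype O] [Fintype I] (c : O → ℝ)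
    (F : O → I → ∀ n, Shape L n → ℝ) :
    ∑ o, c o * mean (fun i => (-1) ^ d * coefW G d 1 (Shape.one L) (F o i) / (d + 1).factorial) =
      (-1) ^ d * seqLaw G d (fun S => ∑ o, c o * mean fun i => F o i (d + 1) S) / (d + 1) := by
  rw [← seqLaw_wmean, mul_sum, sum_div]
  refine sum_congr rfl fun o _ => ?_
  simp only [mean, mul_sum, sum_div, coefW_seqLaw]
  refine sum_congr rfl fun i _ => ?_
  rw [Nat.factorial_succ]
  push_cast
  field_simp

theorem wmean_hasSum {O I : Type*} [Fintype O] [Fintype I] (c : O → ℝ) (f : O → I → ℕ → ℝ)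
    (v : O → I → ℝ) (h : ∀ o i, HasSum (f o i) (v o i)) :
    HasSum (fun d => ∑ o, c o * mean fun i => f o i d) (∑ o, c o * mean (v o)) :=
  hasSum_sum fun o _ => ((hasSum_sum fun i _ => h o i).div_const _).mul_left (c o)

theorem mean_shift {I : Type*} [Fintype I] [Nonempty I] (f : I → ℝ) (c : ℝ) :
    mean (fun i => f i + c) = mean f + c := by
  simp [mean, sum_add_distrib, add_div, Fintype.card_ne_zero]

theorem log_affine {A : ℝ} {Y : (ι → Bool) → ℝ} {x : ι → ℝ}
    (h : 0 < 1 + mext (fun s => Y s * exp (-A) - 1) x) :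
    log (∑ s, Y s * ∏ a, msgW (x a) (s a)) = log (1 + mext (fun s => Y s * exp (-A) - 1) x) + A := by
  have he : exp A * exp (-A) = 1 := by rw [← exp_add, add_neg_cancel, exp_zero]
  have : ∑ s, Y s * ∏ a, msgW (x a) (s a) = exp A * (1 + mext (fun s => Y s * exp (-A) - 1) x) := by
    simp only [mext, sub_mul, one_mul, sum_sub_distrib, sum_msgW_pi, add_sub_cancel, mul_sum,
      mul_comm _ (exp (-A)), mul_assoc]
    simp only [← mul_assoc, he, one_mul]
  rw [this, log_mul (exp_pos A).ne' h.ne', log_exp, add_comm]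

end Series

theorem gain_hasSum {ι : Type} [Fintype ι] [DecidableEq ι] [NeZero N] (B : Sys L N) (G : Grid L) {A Q : ℝ}
    {Y : (ι → Bool) → ℝ} (hQ1 : Q < 1) (hX : ∀ s, |Y s * exp (-A) - 1| ≤ Q) :
    HasSum (fun d => (-1) ^ d *
      seqLaw G d (fun S => B.gainCoef G (fun s => Y s * exp (-A) - 1) S) / (d + 1)) (B.gain G Y - A) := by
  set X : (ι → Bool) → ℝ := fun s => Y s * exp (-A) - 1 with hXd
  have hb : ∀ x : ι → ℝ, (∀ a, x a ∈ Set.Icc (-1 : ℝ) 1) → 0 < 1 + mext X x := fun x hx => by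
    linarith [(abs_le.1 (mext_abs_le hX hx)).1]
  have h := wmean_hasSum B.w _ _ fun (o : B.Om) (i : ι → Fin N) =>
    root_series derivStmt rootStmt massStmt G (B.H o)
      (fun ξ => mext X fun a => spin (B.cfg ξ (i a))) hQ1
      (fun ξ => mext_abs_le hX fun a => spin_mem _) (fun _ => Classical.arbitrary B.Z)
  have hval : ∑ o, B.w o * mean (fun i : ι → Fin N =>
      vAt G (fun ξ => B.H o ξ + log (1 + mext X fun a => spin (B.cfg ξ (i a)))) 0
        (fun _ => Classical.arbitrary B.Z) - vAt G (B.H o) 0 fun _ => Classical.arbitrary B.Z) =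
      B.gain G Y - A := by
    have e : ∀ (o : B.Om) (i : ι → Fin N) ξ, B.H o ξ + log (Y fun a => B.cfg ξ (i a)) =
        B.H o ξ + log (1 + mext X fun a => spin (B.cfg ξ (i a))) + A := fun o i ξ => by
      have := log_affine (A := A) (Y := Y) (hb (fun a => spin (B.cfg ξ (i a))) fun a => spin_mem _)
      rw [show (∑ s, Y s * ∏ a, msgW (spin (B.cfg ξ (i a))) (s a)) = Y fun a => B.cfg ξ (i a) from
        mext_vertex Y fun a => B.cfg ξ (i a)] at this
      rw [this, add_assoc]
    simp only [Sys.gain, e, vAt_shift, add_sub_right_comm, mean_shift, mul_add, sum_add_distrib,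
      ← sum_mul, B.w_sum, one_mul, add_sub_cancel_right]
    ring
  rw [hval] at h
  exact h.congr_fun fun d => (coef_term G d B.w fun o (i : ι → Fin N) n (S : Shape L n) =>
    S.E G (B.H o) fun ξ => ∏ l, mext X fun a => spin (B.cfg (ξ l) (i a))).symm

theorem trialGain_hasSum {ι : Type} [Fintype ι] [DecidableEq ι] [NeZero N] (B : Sys L N) (G : Grid L) {A Q : ℝ}
    {Y : (ι → Bool) → ℝ} (hQ1 : Q < 1) (hX : ∀ s, |Y s * exp (-A) - 1| ≤ Q) :
    HasSum (fun d => (-1) ^ d *
      seqLaw G d (fun S => B.trialCoef G (fun s => Y s * exp (-A) - 1) S) / (d + 1)) (B.trialGain G Y - A) := by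
  set X : (ι → Bool) → ℝ := fun s => Y s * exp (-A) - 1 with hXd
  have hb : ∀ x : ι → ℝ, (∀ a, x a ∈ Set.Icc (-1 : ℝ) 1) → 0 < 1 + mext X x := fun x hx => by
    linarith [(abs_le.1 (mext_abs_le hX hx)).1]
  have h := wmean_hasSum (fun o : ι → B.Om => ∏ a, B.w (o a)) _ _ fun o (i : ι → Fin N) =>
    root_series derivStmt rootStmt massStmt G
      (fun ξ : Fin L → ι → B.Z => ∑ a, B.H (o a) fun l => ξ l a)
      (fun ξ => mext X fun a => B.mag G (o a) (i a) fun l => ξ l a) hQ1
      (fun ξ => mext_abs_le hX fun a => mag_mem B G _ _ _) (fun _ _ => Classical.arbitrary B.Z)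
  have hw : ∑ o : ι → B.Om, ∏ a, B.w (o a) = 1 := by
    rw [← Fintype.prod_sum fun _ : ι => B.w, prod_eq_one fun _ _ => B.w_sum]
  have hval : ∑ o : ι → B.Om, (∏ a, B.w (o a)) * mean (fun i : ι → Fin N =>
      vAt G (fun ξ : Fin L → ι → B.Z => ∑ a, B.H (o a) (fun l => ξ l a) +
          log (1 + mext X fun a => B.mag G (o a) (i a) fun l => ξ l a)) 0
        (fun _ _ => Classical.arbitrary B.Z) -
      vAt G (fun ξ : Fin L → ι → B.Z => ∑ a, B.H (o a) fun l => ξ l a) 0
        fun _ _ => Classical.arbitrary B.Z) = B.trialGain G Y - A := by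
    have e : ∀ (o : ι → B.Om) (i : ι → Fin N) (ξ : Fin L → ι → B.Z),
        ∑ a, B.H (o a) (fun l => ξ l a) +
          log (∑ s : ι → Bool, Y s * ∏ a, msgW (B.mag G (o a) (i a) fun l => ξ l a) (s a)) =
        ∑ a, B.H (o a) (fun l => ξ l a) +
          log (1 + mext X fun a => B.mag G (o a) (i a) fun l => ξ l a) + A := fun o i ξ => by
      rw [log_affine (A := A) (hb _ fun a => mag_mem B G _ _ _), add_assoc]
    simp only [Sys.trialGain, e, vAt_shift, vAt_copies, add_sub_right_comm, mean_shift, mul_add,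
      sum_add_distrib, ← sum_mul, hw, one_mul, add_sub_cancel_right]
    ring
  rw [hval] at h
  exact h.congr_fun fun d => (coef_term G d (fun o : ι → B.Om => ∏ a, B.w (o a))
    fun o (i : ι → Fin N) n (S : Shape L n) =>
      S.E G (fun ξ : Fin L → ι → B.Z => ∑ a, B.H (o a) fun l => ξ l a)
        fun ξ => ∏ l, mext X fun a => B.mag G (o a) (i a) fun t => ξ l t a).symm

theorem seriesStmt : SeriesStmt := by
  intro q A ε hε
  rcases lt_or_ge A 0 with hA | hA
  · refine ⟨0, 1, one_pos, fun L N G B _ _ _ ι _ _ Y _ hY => ?_⟩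
    have h := hY fun _ => true
    linarith [exp_le_exp.1 (h.1.trans h.2)]
  set Q : ℝ := 1 - exp (-(2 * A)) with hQ
  have hQ0 : 0 ≤ Q := by rw [hQ, sub_nonneg, exp_le_one_iff]; linarith
  have hQ1 : Q < 1 := by rw [hQ]; linarith [exp_pos (-(2 * A))]
  obtain ⟨D, hD⟩ : ∃ D : ℕ, 2 * Q ^ D / (1 - Q) ≤ ε / 2 := by
    obtain ⟨D, hD⟩ := exists_pow_lt_of_lt_one (by
      have : 0 < 1 - Q := by linarith
      positivity : 0 < ε * (1 - Q) / 4) hQ1
    exact ⟨D, by rw [div_le_iff₀ (by linarith)]; linarith⟩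
  set K : ℝ := ((2 : ℝ) ^ q) ^ (D + 1) * q with hK
  have hK0 : 0 ≤ K := by positivity
  refine ⟨D, ε / (2 * (D + 1) * (K + 1)), by positivity, fun L N G B hN hL hB ι _ _ Y hq hY => ?_⟩
  set δ := ε / (2 * (D + 1) * (K + 1)) with hδ
  have hδ0 : 0 ≤ δ := by positivity
  haveI : NeZero N := ⟨hN.ne'⟩
  set X : (ι → Bool) → ℝ := fun s => Y s * exp (-A) - 1 with hXd
  have hX : ∀ s, |X s| ≤ Q := fun s => by
    have h1 := mul_le_mul_of_nonneg_right (hY s).1 (exp_pos (-A)).le
    have h2 := mul_le_mul_of_nonneg_right (hY s).2 (exp_pos (-A)).le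
    rw [← exp_add] at h1 h2
    rw [add_neg_cancel, exp_zero] at h2
    rw [show -A + -A = -(2 * A) by ring] at h1
    rw [abs_le, hXd, hQ]
    constructor <;> linarith
  have hb : ∀ x : ι → ℝ, (∀ a, x a ∈ Set.Icc (-1 : ℝ) 1) → 0 < 1 + mext X x := fun x hx => by
    linarith [(abs_le.1 (mext_abs_le hX hx)).1]
  -- the two series
  have sG := gain_hasSum B G hQ1 hX
  have sT := trialGain_hasSum B G hQ1 hX
  have hdiff := sG.sub sT
  rw [show B.gain G Y - A - (B.trialGain G Y - A) = B.gain G Y - B.trialGain G Y by ring] at hdiff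
  set f : ℕ → ℝ := fun d => (-1) ^ d * seqLaw G d (fun S => B.gainCoef G X S) / (d + 1) -
    (-1) ^ d * seqLaw G d (fun S => B.trialCoef G X S) / (d + 1) with hf
  have hfd : ∀ d, |f d| ≤
      |seqLaw G d (fun S => B.gainCoef G X S) - seqLaw G d fun S => B.trialCoef G X S| := fun d => by
    simp only [hf, ← sub_div, ← mul_sub, abs_div, abs_mul, abs_neg_one_pow, one_mul]
    exact div_le_self (abs_nonneg _) (by
      rw [abs_of_pos (by positivity : (0 : ℝ) < (d : ℝ) + 1)]; linarith [(Nat.cast_nonneg d : (0 : ℝ) ≤ d)])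
  have htail : ∀ d, |f d| ≤ 2 * Q ^ (d + 1) := fun d => by
    have hG : ∀ S : Shape L (d + 1), |B.gainCoef G X S| ≤ Q ^ (d + 1) := fun S => by
      rw [Sys.gainCoef]
      refine wmean_abs_le B.w B.w_nonneg B.w_sum _ fun o i => E_abs massStmt S G _ fun ξ => ?_
      rw [abs_prod]
      refine (prod_le_prod (fun l _ => abs_nonneg _) fun l _ => mext_abs_le hX fun a => spin_mem _).trans_eq ?_
      simp
    have hT : ∀ S : Shape L (d + 1), |B.trialCoef G X S| ≤ Q ^ (d + 1) := fun S => by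
      rw [Sys.trialCoef]
      refine wmean_abs_le _ (fun o => prod_nonneg fun a _ => B.w_nonneg _) (by
        rw [← Fintype.prod_sum fun _ : ι => B.w, prod_eq_one fun _ _ => B.w_sum]) _
        fun o i => E_abs massStmt S G _ fun ξ => ?_
      rw [abs_prod]
      refine (prod_le_prod (fun l _ => abs_nonneg _) fun l _ =>
        mext_abs_le hX fun a => mag_mem B G _ _ _).trans_eq ?_
      simp
    refine (hfd d).trans ((abs_sub _ _).trans ?_)
    have h1 := (seqLaw_abs G d fun S => B.gainCoef G X S).trans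
      ((seqLaw_mono G d hG).trans_eq (seqLaw_const G d _))
    have h2 := (seqLaw_abs G d fun S => B.trialCoef G X S).trans
      ((seqLaw_mono G d hT).trans_eq (seqLaw_const G d _))
    linarith
  have hhead : ∀ d ∈ range (D + 1), |f d| ≤ K * δ := fun d hd => by
    refine (hfd d).trans ((coef_diff hL hN B G hδ0 hB (by simp at hd; omega) X
      fun s => (hX s).trans hQ1.le).trans ?_)
    rw [hK, mul_assoc]
    have h1 : ((2 : ℝ) ^ Fintype.card ι) ^ (d + 1) ≤ ((2 : ℝ) ^ q) ^ (D + 1) := by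
      rw [← pow_mul, ← pow_mul]
      exact pow_le_pow_right₀ one_le_two (Nat.mul_le_mul hq (by simp at hd; omega))
    gcongr
  have hs := (hasSum_nat_add_iff' (D + 1)).2 hdiff
  have hgeo : HasSum (fun i => 2 * Q ^ D * Q ^ i) (2 * Q ^ D / (1 - Q)) := by
    simpa [div_eq_mul_inv] using (hasSum_geometric_of_lt_one hQ0 hQ1).mul_left (2 * Q ^ D)
  have hrem := tsum_of_norm_bounded hgeo (f := fun i => f (i + (D + 1))) fun i => by
    refine (htail _).trans ?_
    rw [mul_assoc, ← pow_add]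
    exact mul_le_mul_of_nonneg_left (pow_le_pow_of_le_one hQ0 hQ1.le (by omega)) zero_le_two
  rw [hs.tsum_eq, Real.norm_eq_abs] at hrem
  have hhead' : |∑ d ∈ range (D + 1), f d| ≤ ε / 2 := by
    refine ((abs_sum_le_sum_abs _ _).trans (sum_le_sum hhead)).trans ?_
    rw [sum_const, card_range, nsmul_eq_mul, hδ]
    push_cast
    rw [show ((D : ℝ) + 1) * (K * (ε / (2 * (D + 1) * (K + 1)))) = ε / 2 * (K / (K + 1)) by field_simp]
    exact mul_le_of_le_one_right (by linarith) ((div_le_one (by linarith)).2 (by linarith))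
  have := abs_add_le (B.gain G Y - B.trialGain G Y - ∑ d ∈ range (D + 1), f d) (∑ d ∈ range (D + 1), f d)
  rw [sub_add_cancel] at this
  linarith
where
  wmean_abs_le {O I : Type} [Fintype O] [Fintype I] (c : O → ℝ) (hc : ∀ o, 0 ≤ c o)
      (hs : ∑ o, c o = 1) (f : O → I → ℝ) {A : ℝ} [Nonempty I] (h : ∀ o i, |f o i| ≤ A) :
      |∑ o, c o * mean (f o)| ≤ A := by
    refine (abs_sum_le_sum_abs _ _).trans ?_
    calc ∑ o, |c o * mean (f o)| ≤ ∑ o, c o * A := sum_le_sum fun o _ => by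
          rw [abs_mul, abs_of_nonneg (hc o)]
          refine mul_le_mul_of_nonneg_left ?_ (hc o)
          rw [mean, abs_div, Nat.abs_cast, div_le_iff₀ (Nat.cast_pos.2 Fintype.card_pos)]
          exact ((abs_sum_le_sum_abs _ _).trans (sum_le_sum fun i _ => h o i)).trans_eq
            (by simp [mul_comm])
      _ = A := by rw [← sum_mul, hs, one_mul]

end Vale.Agent.P168
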