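import Vale.Agent.P168.Bounds
import Vale.Agent.P168.Perturb.Defs

/-!
# P168: the statements of the lower bound

Models with finitely many clauses and fields, the cavity gain of a system, its trial counterpart built
from independent copies of the system, and the steps between them.
-/

open Real Finset MeasureTheory Filter

namespace Vale.Agent.P168

variable {K L N : ℕ}

/-- A model with finitely many clauses and fields; nothing is assumed about the interaction. -/
structure FinModel (K : ℕ) where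
  /-- the clauses -/
  D : Type
  [fD : Fintype D]
  /-- the fields -/
  Hh : Type
  [fH : Fintype Hh]
  /-- the law of a clause -/
  wD : D → ℝ
  /-- the law of a field -/
  wH : Hh → ℝ
  wD_nonneg : ∀ d, 0 ≤ wD d
  wH_nonneg : ∀ h, 0 ≤ wH h
  wD_sum : ∑ d, wD d = 1
  wH_sum : ∑ h, wH h = 1
  /-- the interaction -/
  th : D → (Fin K → Bool) → ℝ
  /-- the field -/
  hv : Hh → ℝ

attribute [instance] FinModel.fD FinModel.fH

/-- The pressure of a finite model. -/
noncomputable def FinModel.pressure (M : FinModel K) (lam : ℝ) (N : ℕ) : ℝ :=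
  (∑' n, pois (lam * N) n * ∑ d : Fin n → M.D, (∏ k, M.wD (d k)) * ∑ h : Fin N → M.Hh, (∏ v, M.wH (h v)) *
    mean fun i : Fin n → Fin K → Fin N =>
      log (∑ σ : Fin N → Bool, exp (∑ k, M.th (d k) (fun j => σ (i k j)) + ∑ v, M.hv (h v) * spin (σ v)))) / N

/-- The function `U` of the spins fed to the clauses at the cavity site. -/
noncomputable def FinModel.cavU (M : FinModel K) {c : ℕ} (d : Fin c → M.D) (ℓ : Fin c → Fin K) (h : M.Hh)
    (σ : Fin c × Fin K → Bool) : ℝ :=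
  ∑ e : Bool, exp (M.hv h * spin e) * ∏ k, exp (M.th (d k) fun j => if j = ℓ k then e else σ (k, j))

/-- The function `V` of the spins fed to the compensating clauses. -/
noncomputable def FinModel.cavV (M : FinModel K) {c : ℕ} (d : Fin c → M.D) (σ : Fin c × Fin K → Bool) : ℝ :=
  exp (∑ k, M.th (d k) fun j => σ (k, j))

/-- The expectation of a functional of `U` minus that of `V`. -/
noncomputable def FinModel.cavity (M : FinModel K) (lam : ℝ)
    (T : ∀ c : ℕ, ((Fin c × Fin K → Bool) → ℝ) → ℝ) : ℝ :=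
  (∑' c, pois (K * lam) c * ∑ d : Fin c → M.D, (∏ k, M.wD (d k)) * ∑ h, M.wH h *
      mean fun ℓ : Fin c → Fin K => T c (M.cavU d ℓ h))
    - ∑' c, pois ((K - 1) * lam) c * ∑ d : Fin c → M.D, (∏ k, M.wD (d k)) * T c (M.cavV d)

/-- The increase of the root value when `Y`, read at uniform sites, multiplies the weight. -/
noncomputable def Sys.gain (B : Sys L N) (G : Grid L) {ι : Type} [Fintype ι] [DecidableEq ι]
    (Y : (ι → Bool) → ℝ) : ℝ :=
  ∑ o, B.w o * mean fun i : ι → Fin N =>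
    vAt G (fun ξ => B.H o ξ + log (Y fun a => B.cfg ξ (i a))) 0 (fun _ => Classical.arbitrary B.Z)
      - vAt G (B.H o) 0 fun _ => Classical.arbitrary B.Z

/-- The magnetisation of a site given the node above the configurations. -/
noncomputable def Sys.mag (B : Sys L N) (G : Grid L) (o : B.Om) (i : Fin N) (ξ : Fin L → B.Z) : ℝ :=
  cndAt G (B.H o) (L - 1) (fun ζ => spin (B.cfg ζ i)) ξ

/-- The trial counterpart: every argument has its own root data, site and path. -/
noncomputable def Sys.trialGain (B : Sys L N) (G : Grid L) {ι : Type} [Fintype ι] [DecidableEq ι]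
    (Y : (ι → Bool) → ℝ) : ℝ :=
  ∑ o : ι → B.Om, (∏ a, B.w (o a)) * mean fun i : ι → Fin N =>
    vAt G (fun ξ : Fin L → ι → B.Z => ∑ a, B.H (o a) (fun l => ξ l a)
        + log (∑ s : ι → Bool, Y s * ∏ a, msgW (B.mag G (o a) (i a) fun l => ξ l a) (s a)))
      0 (fun _ _ => Classical.arbitrary B.Z)
      - ∑ a, vAt G (B.H (o a)) 0 fun _ => Classical.arbitrary B.Z

/-- Rounding: a finite model suffices. -/
def LowerFinStmt : Prop :=
  ∀ (K : ℕ), 2 ≤ K → ∀ (lam : ℝ), 0 < lam → ∀ M : FinModel K, ∀ ε : ℝ, 0 < ε →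
    ∀ᶠ N in atTop, ∃ (r : ℕ) (m : Fin r → ℝ) (x : (Fin (r + 1) → ℝ) → ℝ),
      (∀ p, m p ∈ Set.Ioo (0 : ℝ) 1) ∧ StrictMono m ∧ Measurable x ∧ (∀ w, x w ∈ Set.Icc (-1 : ℝ) 1) ∧
        M.cavity lam (fun c Y => trialT (Fin c × Fin K) r m x fun z =>
          log (∑ s, Y s * ∏ a, msgW (z a) (s a))) ≤ M.pressure lam N + ε

/-- Rounding gives the lower bound for every model. -/
def TruncStmt : Prop := LowerFinStmt → LowerStmt

/-- The trial counterpart is a trial order parameter. -/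
def RealStmt : Prop :=
  ∀ (L N : ℕ), 1 ≤ L → ∀ (G : Grid L) (B : Sys L N), 0 < N →
    ∃ x : (Fin (L - 1 + 1) → ℝ) → ℝ, Measurable x ∧ (∀ w, x w ∈ Set.Icc (-1 : ℝ) 1) ∧
      ∀ (ι : Type) [Fintype ι] [DecidableEq ι] (Y : (ι → Bool) → ℝ), (∀ s, 0 < Y s) →
        trialT ι (L - 1) (fun p => G.m (p.1 + 1)) x (fun z => log (∑ s, Y s * ∏ a, msgW (z a) (s a)))
          = B.trialGain G Y

/-- Concentrated multioverlaps make the gain equal its trial counterpart. -/
def SeriesStmt : Prop :=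
  ∀ (q : ℕ) (A ε : ℝ), 0 < ε → ∃ (D : ℕ) (δ : ℝ), 0 < δ ∧
    ∀ (L N : ℕ) (G : Grid L) (B : Sys L N), 0 < N → 1 ≤ L → (∀ d ≤ D, B.seqDev G d ≤ δ) →
      ∀ (ι : Type) [Fintype ι] [DecidableEq ι] (Y : (ι → Bool) → ℝ), Fintype.card ι ≤ q →
        (∀ s, exp (-A) ≤ Y s ∧ Y s ≤ exp A) → |B.gain G Y - B.trialGain G Y| ≤ ε

/-- The base system: clauses of mean number `c`, cut at `nmax`, fields, and no labels. -/
noncomputable def FinModel.base (M : FinModel K) (L N nmax : ℕ) [NeZero N] (hL : 0 < L) (c : ℝ) (hc : 0 ≤ c) :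
    Sys L N where
  Om := (Σ n : Fin (nmax + 1), Fin n → M.D × (Fin K → Fin N)) × (Fin N → M.Hh)
  Z := Fin N → Bool
  w := fun o => (pois c o.1.1 / ∑ n : Fin (nmax + 1), pois c n) *
    (∏ k, M.wD (o.1.2 k).1 / Fintype.card (Fin K → Fin N)) * ∏ v, M.wH (o.2 v)
  w_nonneg := fun o => by
    have h : ∀ n, 0 ≤ pois c n := fun n => by unfold pois; positivity
    exact mul_nonneg (mul_nonneg (div_nonneg (h _) (sum_nonneg fun n _ => h _))
      (prod_nonneg fun k _ => div_nonneg (M.wD_nonneg _) (Nat.cast_nonneg _)))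
      (prod_nonneg fun v _ => M.wH_nonneg _)
  w_sum := by
    have hp : (0 : ℝ) < ∑ n : Fin (nmax + 1), pois c n := by
      refine sum_pos' (fun n _ => by unfold pois; positivity) ⟨0, mem_univ _, ?_⟩
      simp [pois]; positivity
    have h1 : ∀ n : Fin (nmax + 1), ∑ g : Fin n → M.D × (Fin K → Fin N),
        ∏ k, M.wD (g k).1 / Fintype.card (Fin K → Fin N) = 1 := fun n => by
      rw [← Fintype.prod_sum fun (_ : Fin n) (y : M.D × (Fin K → Fin N)) =>
        M.wD y.1 / (Fintype.card (Fin K → Fin N) : ℝ)]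
      refine prod_eq_one fun _ _ => ?_
      have hne : (Fintype.card (Fin K → Fin N) : ℝ) ≠ 0 := Nat.cast_ne_zero.2 Fintype.card_ne_zero
      rw [Fintype.sum_prod_type]
      simp only [sum_const, Finset.card_univ, nsmul_eq_mul, mul_div_cancel₀ _ hne, M.wD_sum]
    have h2 : ∑ g : Fin N → M.Hh, ∏ v, M.wH (g v) = 1 := by
      rw [← Fintype.prod_sum fun (_ : Fin N) (y : M.Hh) => M.wH y, prod_eq_one fun _ _ => M.wH_sum]
    rw [Fintype.sum_prod_type]
    calc _ = ∑ x : (Σ n : Fin (nmax + 1), Fin n → M.D × (Fin K → Fin N)),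
          pois c x.1 / (∑ n : Fin (nmax + 1), pois c n) *
            ∏ k, M.wD (x.2 k).1 / Fintype.card (Fin K → Fin N) := by
          refine sum_congr rfl fun x _ => ?_
          have key : ∀ (a : ℝ), ∑ y : Fin N → M.Hh, a * ∏ v, M.wH (y v) = a := fun a => by
            rw [← mul_sum, h2, mul_one]
          dsimp only
          convert key _
          rfl
      _ = ∑ n : Fin (nmax + 1), pois c n / ∑ n : Fin (nmax + 1), pois c n := by
          rw [Fintype.sum_sigma]
          refine sum_congr rfl fun n _ => ?_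
          dsimp only
          rw [← mul_sum]
          convert mul_one _ using 2
          exact h1 n
      _ = 1 := by rw [← sum_div, div_self hp.ne']
  H := fun o ξ => ∑ k, M.th (o.1.2 k).1 (fun j => ξ ⟨L - 1, Nat.sub_lt hL one_pos⟩ ((o.1.2 k).2 j))
    + ∑ v, M.hv (o.2 v) * spin (ξ ⟨L - 1, Nat.sub_lt hL one_pos⟩ v)
  cfg := fun ξ => ξ ⟨L - 1, Nat.sub_lt hL one_pos⟩

/-- The number of terms of each kind at size `n`. -/
noncomputable def termCount (n : ℕ) : ℕ := ⌊(n : ℝ) ^ (3 / 4 : ℝ)⌋₊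

/-- The width of the parameters at size `n`. -/
noncomputable def boxWidth (n : ℕ) : ℝ := (n : ℝ) ^ (-(1 / 16) : ℝ)

/-- The perturbed cavity system of size `n + 1`. -/
noncomputable def FinModel.cavSys (M : FinModel K) (lam : ℝ) (hlam : 0 ≤ lam) (L : ℕ) (hL : 0 < L) {P : ℕ}
    (τ : Fin P → Kind L) (t : Fin P → ℝ) (n : ℕ) : Sys L (n + 1) :=
  (M.base L (n + 1) (⌈4 * lam * ((n : ℝ) + 1)⌉₊ + 4 * (n + 1)) hL
    (lam * ((n : ℝ) + 2) * (((n : ℝ) + 1) / ((n : ℝ) + 2)) ^ K)
    (mul_nonneg (mul_nonneg hlam (by positivity)) (by positivity))).perturb τ t fun _ => termCount (n + 1)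

/-- The Cesaro mean of averaged cavity gains is a lower bound for the pressure. -/
def CavityStmt : Prop :=
  ∀ (K : ℕ), 2 ≤ K → ∀ (lam : ℝ) (hlam : 0 ≤ lam) (M : FinModel K) (L : ℕ) (hL : 0 < L) (G : Grid L)
    (P : ℕ) (τ : Fin P → Kind L), (∀ p, |(τ p).u| * (τ p).n ≤ 1 / 2) → ∀ ε : ℝ, 0 < ε → ∀ᶠ N in atTop,
      (∑ n ∈ range N, ∫ t, M.cavity lam (fun _ Y =>
          (M.cavSys lam hlam L hL τ (fun p => boxWidth (n + 1) * t p) n).gain G Y)
        ∂Measure.pi fun _ : Fin P => unif) / N ≤ M.pressure lam N + ε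

/-- The root value of a cavity system fluctuates by the square root of its size. -/
def DevStmt : Prop :=
  ∀ (K : ℕ) (lam : ℝ) (hlam : 0 ≤ lam) (M : FinModel K) (L : ℕ) (hL : 0 < L) (G : Grid L)
    (P : ℕ) (τ : Fin P → Kind L), (∀ p, |(τ p).u| * (τ p).n ≤ 1 / 2) → ∃ C : ℝ, 0 ≤ C ∧
      ∀ (n : ℕ) (s : Fin P → ℕ) (t : Fin P → ℝ), (∀ p, s p ≤ termCount (n + 1) + 1) → (∀ p, |t p| ≤ 2) →
        ((M.base L (n + 1) (⌈4 * lam * ((n : ℝ) + 1)⌉₊ + 4 * (n + 1)) hL
          (lam * ((n : ℝ) + 2) * (((n : ℝ) + 1) / ((n : ℝ) + 2)) ^ K)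
          (mul_nonneg (mul_nonneg hlam (by positivity)) (by positivity))).perturb τ t s).rootDev G
            ≤ C * √((n : ℝ) + 1)

/-- Finitely many kinds give the identity up to the deviations of their energies. -/
def KindsStmt : Prop :=
  ∀ (L D : ℕ) (G : Grid L) (η : ℝ), 0 < η → ∃ (P : ℕ) (τ : Fin P → Kind L) (C : ℝ), 0 ≤ C ∧
    (∀ p, |(τ p).u| * (τ p).n ≤ 1 / 2) ∧
    ∀ (N : ℕ) [NeZero N] (B : Sys L N) (s : Fin P → ℕ) (t : Fin P → ℝ) (w : ℝ), w ≤ 1 →
      (∀ p, |t p| ≤ w) → (B.perturb τ t s).Ident G D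
        (η + C * (w + ∑ p, B.energyDev G τ t (Function.update s p (s p + 1)) p))

end Vale.Agent.P168
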