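import Vale.Agent.P168.Lower.Continuity
import Vale.Agent.P168.Lower.Pins

/-!
# P168: the lower bound for finite models gives it for every model
-/

open MeasureTheory Real Finset Filter

namespace Vale.Agent.P168

variable {K : ℕ}

/-! ### Rounding to finitely many values -/

/-- The index of the rounded value. -/
noncomputable def gridIdx (n : ℕ) (y : ℝ) : Fin (2 * n * n + 1) :=
  ⟨min (⌊max (-(n : ℝ)) (min n y) * n⌋ + (n * n : ℕ)).toNat (2 * n * n),
    Nat.lt_succ_of_le (min_le_right _ _)⟩

/-- The value of an index. -/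
noncomputable def gridVal (n : ℕ) (i : Fin (2 * n * n + 1)) : ℝ := ((i : ℕ) - (n : ℝ) * n) / n

theorem measurable_gridIdx (n : ℕ) : Measurable (gridIdx n) :=
  (measurable_of_countable fun z : ℤ =>
    (⟨min (z + (n * n : ℕ)).toNat (2 * n * n), Nat.lt_succ_of_le (min_le_right _ _)⟩ :
      Fin (2 * n * n + 1))).comp
    (Int.measurable_floor.comp ((measurable_const.max (measurable_const.min measurable_id)).mul_const _))

theorem grid_err {n : ℕ} (hn : 0 < n) {y : ℝ} (hy : |y| ≤ n) :
    |gridVal n (gridIdx n y) - y| ≤ 1 / n := by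
  obtain ⟨hy1, hy2⟩ := abs_le.1 hy
  have hn' : (0 : ℝ) < n := Nat.cast_pos.2 hn
  set j : ℤ := ⌊y * (n : ℝ)⌋ with hj
  have h1 : -((n * n : ℕ) : ℤ) ≤ j := by
    rw [hj, Int.le_floor]; push_cast; nlinarith
  have h2 : j ≤ ((n * n : ℕ) : ℤ) := by
    have := (Int.floor_le (y * (n : ℝ))).trans (show y * (n : ℝ) ≤ n * n by nlinarith)
    rw [← hj] at this
    exact_mod_cast this
  have hi : ((gridIdx n y : ℕ) : ℤ) = j + (n * n : ℕ) := by
    simp only [gridIdx, min_eq_right hy2, max_eq_right hy1, ← hj]
    have : 2 * n * n = n * n + n * n := by ring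
    omega
  have hi' : ((gridIdx n y : ℕ) : ℝ) = (j : ℝ) + (n : ℝ) * n := by
    have := congrArg (fun z : ℤ => (z : ℝ)) hi
    push_cast at this
    exact this
  rw [gridVal, hi', add_sub_cancel_right, show (j : ℝ) / n - y = ((j : ℝ) - y * n) / n by field_simp,
    abs_div, abs_of_pos hn']
  refine div_le_div_of_nonneg_right (abs_le.2 ⟨?_, ?_⟩) hn'.le
  · have := Int.lt_floor_add_one (y * (n : ℝ)); rw [← hj] at this; linarith
  · have := Int.floor_le (y * (n : ℝ)); rw [← hj] at this; linarith

theorem gridVal_abs {n : ℕ} (hn : 0 < n) (i : Fin (2 * n * n + 1)) : |gridVal n i| ≤ n := by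
  have hn' : (0 : ℝ) < n := Nat.cast_pos.2 hn
  have h0 : (0 : ℝ) ≤ (i : ℕ) := Nat.cast_nonneg _
  have h1 : ((i : ℕ) : ℝ) ≤ 2 * n * n := by exact_mod_cast Nat.le_of_lt_succ i.2
  rw [gridVal, abs_div, abs_of_pos hn', div_le_iff₀ hn', abs_le]
  constructor <;> linarith

theorem grid_bound {n : ℕ} (hn : 0 < n) (y : ℝ) : |gridVal n (gridIdx n y) - y| ≤ 1 + 2 * |y| := by
  rcases le_total |y| n with h | h
  · have h1 : (1 : ℝ) / n ≤ 1 := by
      rw [div_le_one (Nat.cast_pos.2 hn)]; exact Nat.one_le_cast.2 hn
    linarith [grid_err hn h, abs_nonneg y]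
  · linarith [(abs_sub (gridVal n (gridIdx n y)) y).trans (add_le_add (gridVal_abs hn _) le_rfl)]

theorem tendsto_grid {X : Type} [MeasurableSpace X] {μ : Measure X} [IsProbabilityMeasure μ]
    {f : X → ℝ} (hf : Measurable f) (hfi : Integrable f μ) :
    Tendsto (fun n => ∫ x, |gridVal (n + 1) (gridIdx (n + 1) (f x)) - f x| ∂μ) atTop (nhds 0) := by
  have h := tendsto_integral_of_dominated_convergence (μ := μ)
    (F := fun n x => |gridVal (n + 1) (gridIdx (n + 1) (f x)) - f x|) (f := fun _ => 0)
    (fun x => 1 + 2 * |f x|)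
    (fun n => ((((measurable_of_countable (gridVal (n + 1))).comp ((measurable_gridIdx _).comp hf)).sub
      hf).abs).aestronglyMeasurable)
    ((integrable_const 1).add (hfi.abs.const_mul 2))
    (fun n => ae_of_all _ fun x => by
      rw [Real.norm_eq_abs, abs_abs]; exact grid_bound (Nat.succ_pos n) _)
    (ae_of_all _ fun x => ?_)
  · simpa using h
  refine squeeze_zero' (Eventually.of_forall fun n => abs_nonneg _) ?_
    ((tendsto_one_div_atTop_nhds_zero_nat (𝕜 := ℝ)).comp (tendsto_add_atTop_nat 1))
  filter_upwards [eventually_ge_atTop ⌈|f x|⌉₊] with n hn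
  exact grid_err (Nat.succ_pos n) ((Nat.le_ceil _).trans (Nat.cast_le.2 (hn.trans (Nat.le_succ n))))

/-! ### The rounded reading and its finite model -/

/-- The tables with rounded values. -/
abbrev GridTab (K n : ℕ) : Type := (Fin K → Bool) → Fin (2 * n * n + 1)

/-- The index table of a clause. -/
noncomputable def gridClause (n : ℕ) (c : Clause K) : GridTab K n := fun s => gridIdx n (theta c s)

theorem measurable_gridClause (n : ℕ) : Measurable (gridClause (K := K) n) :=
  measurable_pi_lambda _ fun s => (measurable_gridIdx n).comp (measurable_pi_iff.1 measurable_theta s)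

variable {M : Model K}

/-- The rounded reading. -/
noncomputable def roundReading (hM : M.Admissible) {n : ℕ} (hn : 0 < n) : Reading M where
  tab := fun c s => gridVal n (gridClause n c s)
  fld := fun h => gridVal n (gridIdx n h)
  tab_meas := measurable_pi_lambda _ fun s =>
    (measurable_of_countable (gridVal n)).comp (measurable_pi_iff.1 (measurable_gridClause n) s)
  fld_meas := (measurable_of_countable (gridVal n)).comp (measurable_gridIdx n)
  tab_int := by
    have := hM.clause_prob
    refine integrable_finsetSum _ fun s _ => Integrable.of_bound ?_ n (ae_of_all _ fun c => ?_)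
    · exact (((measurable_of_countable (gridVal n)).comp
        (measurable_pi_iff.1 (measurable_gridClause n) s)).abs).aestronglyMeasurable
    · rw [Real.norm_eq_abs, abs_abs]; exact gridVal_abs hn _
  fld_int := by
    have := hM.field_prob
    refine Integrable.of_bound ?_ n (ae_of_all _ fun h => ?_)
    · exact ((measurable_of_countable (gridVal n)).comp (measurable_gridIdx n)).abs.aestronglyMeasurable
    · rw [Real.norm_eq_abs, abs_abs]; exact gridVal_abs hn _

/-- The finite model of the rounded reading. -/
noncomputable def roundModel (hM : M.Admissible) (n : ℕ) : FinModel K where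
  D := GridTab K n
  Hh := Fin (2 * n * n + 1)
  wD := fun d => M.clause.real (gridClause n ⁻¹' {d})
  wH := fun i => M.field.real (gridIdx n ⁻¹' {i})
  wD_nonneg := fun _ => measureReal_nonneg
  wH_nonneg := fun _ => measureReal_nonneg
  wD_sum := by
    have := hM.clause_prob
    rw [sum_measureReal_preimage_singleton _ fun y _ => measurable_gridClause n (measurableSet_singleton y)]
    simp [probReal_univ]
  wH_sum := by
    have := hM.field_prob
    rw [sum_measureReal_preimage_singleton _ fun y _ => measurable_gridIdx n (measurableSet_singleton y)]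
    simp [probReal_univ]
  th := fun d s => gridVal n (d s)
  hv := gridVal n

/-- An integral through a map to a finite type. -/
theorem integral_finite_pi {X D : Type} [MeasurableSpace X] [Fintype D] [MeasurableSpace D]
    [MeasurableSingletonClass D] {μ : Measure X} [IsProbabilityMeasure μ] {τ : X → D} (hτ : Measurable τ)
    {n : ℕ} (F : (Fin n → D) → ℝ) :
    ∫ θ, F (fun k => τ (θ k)) ∂(Measure.pi fun _ : Fin n => μ)
      = ∑ d : Fin n → D, (∏ k, μ.real (τ ⁻¹' {d k})) * F d := by
  have : IsProbabilityMeasure (μ.map τ) := Measure.isProbabilityMeasure_map hτ.aemeasurable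
  have hτn : Measurable fun (θ : Fin n → X) k => τ (θ k) :=
    measurable_pi_lambda _ fun k => hτ.comp (measurable_pi_apply k)
  rw [← integral_map hτn.aemeasurable (measurable_of_countable F).aestronglyMeasurable,
    Measure.pi_map_pi fun _ => hτ.aemeasurable, integral_fintype .of_finite]
  refine sum_congr rfl fun d _ => ?_
  rw [smul_eq_mul, measureReal_def, Measure.pi_singleton, ENNReal.toReal_prod]
  congr 1
  exact prod_congr rfl fun k _ => by
    rw [← measureReal_def, map_measureReal_apply hτ (measurableSet_singleton _)]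

theorem integral_finite {X D : Type} [MeasurableSpace X] [Fintype D] [MeasurableSpace D]
    [MeasurableSingletonClass D] {μ : Measure X} [IsProbabilityMeasure μ] {τ : X → D} (hτ : Measurable τ)
    (F : D → ℝ) : ∫ x, F (τ x) ∂μ = ∑ d, μ.real (τ ⁻¹' {d}) * F d := by
  have : IsProbabilityMeasure (μ.map τ) := Measure.isProbabilityMeasure_map hτ.aemeasurable
  rw [← integral_map hτ.aemeasurable (measurable_of_countable F).aestronglyMeasurable,
    integral_fintype .of_finite]
  exact sum_congr rfl fun d _ => by
    rw [smul_eq_mul, map_measureReal_apply hτ (measurableSet_singleton _)]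

theorem press_round (hM : M.Admissible) {n : ℕ} (hn : 0 < n) (lam : ℝ) (N : ℕ) :
    (roundReading hM hn).press lam N = (roundModel hM n).pressure lam N := by
  have := hM.clause_prob; have := hM.field_prob
  unfold Reading.press FinModel.pressure
  refine congrArg (fun a : ℕ → ℝ => (∑' c, pois (lam * N) c * a c) / (N : ℝ)) (funext fun c => ?_)
  unfold Reading.pressTerm
  have h1 : ∀ θ : Fin c → GridTab K n,
      (∫ h : Fin N → ℝ, mean (fun i : Fin c → Fin K → Fin N =>
        rawZ (fun k s => gridVal n (θ k s)) i fun v => gridVal n (gridIdx n (h v)))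
      ∂Measure.pi fun _ : Fin N => M.field) = ∑ g : Fin N → Fin (2 * n * n + 1),
        (∏ v, M.field.real (gridIdx n ⁻¹' {g v})) * mean fun i : Fin c → Fin K → Fin N =>
          rawZ (fun k s => gridVal n (θ k s)) i fun v => gridVal n (g v) := fun θ =>
    integral_finite_pi (measurable_gridIdx n) fun g => mean fun i : Fin c → Fin K → Fin N =>
      rawZ (fun k s => gridVal n (θ k s)) i fun v => gridVal n (g v)
  refine Eq.trans (integral_congr_ae (ae_of_all _ fun θ => h1 fun k => gridClause n (θ k))) ?_
  exact integral_finite_pi (μ := M.clause) (measurable_gridClause n) fun d : Fin c → GridTab K n =>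
    ∑ g : Fin N → Fin (2 * n * n + 1), (∏ v, M.field.real (gridIdx n ⁻¹' {g v})) *
      mean fun i : Fin c → Fin K → Fin N => rawZ (fun k s => gridVal n (d k s)) i fun v => gridVal n (g v)

/-! ### The cavity functions and the integrands of the trial value -/

theorem sum_update_msgW (F : (Fin K → Bool) → ℝ) (a : Fin K → ℝ) (ℓ : Fin K) (e : Bool) :
    ∑ u : Fin K → Bool, F (fun j => if j = ℓ then e else u j) * ∏ j, msgW (a j) (u j)
      = ∑ s : Fin K → Bool, if s ℓ = e then F s * ∏ j ∈ univ.erase ℓ, msgW (a j) (s j) else 0 := by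
  set flip : (Fin K → Bool) → Fin K → Bool := fun u => Function.update u ℓ (!u ℓ) with hflip
  have hinv : Function.Involutive flip := fun u => by simp [hflip]
  set G : (Fin K → Bool) → ℝ :=
    fun u => F (fun j => if j = ℓ then e else u j) * ∏ j, msgW (a j) (u j) with hG
  have hsplit : ∑ u, G u = ∑ u, if u ℓ = e then G u + G (flip u) else 0 := by
    have h2 : ∑ u, (if u ℓ = e then G (flip u) else 0) = ∑ u, if u ℓ = e then 0 else G u :=
      Fintype.sum_bijective flip hinv.bijective _ _ fun u => by
        have : flip u ℓ = !u ℓ := by simp [hflip]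
        rw [this]
        cases u ℓ <;> cases e <;> simp
    calc ∑ u, G u = ∑ u, ((if u ℓ = e then G u else 0) + if u ℓ = e then 0 else G u) :=
          sum_congr rfl fun u _ => by split_ifs <;> simp
      _ = ∑ u, ((if u ℓ = e then G u else 0) + if u ℓ = e then G (flip u) else 0) := by
          rw [sum_add_distrib, sum_add_distrib, h2]
      _ = _ := sum_congr rfl fun u _ => by split_ifs <;> simp
  rw [show (∑ u : Fin K → Bool, F (fun j => if j = ℓ then e else u j) * ∏ j, msgW (a j) (u j))
    = ∑ u, G u from rfl, hsplit]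
  refine sum_congr rfl fun u _ => ?_
  split_ifs with hu
  · have e1 : (fun j => if j = ℓ then e else flip u j) = u := funext fun j => by
      by_cases hj : j = ℓ
      · subst hj; simp [hu]
      · simp [hflip, hj]
    have e0 : (fun j => if j = ℓ then e else u j) = u := funext fun j => by
      by_cases hj : j = ℓ
      · subst hj; simp [hu]
      · simp [hj]
    have e2 : ∏ j ∈ univ.erase ℓ, msgW (a j) (flip u j) = ∏ j ∈ univ.erase ℓ, msgW (a j) (u j) :=
      prod_congr rfl fun j hj => by simp [hflip, ne_of_mem_erase hj]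
    have e3 : msgW (a ℓ) (u ℓ) + msgW (a ℓ) (flip u ℓ) = 1 := by
      have := sum_msgW (a ℓ)
      rw [Fintype.sum_bool] at this
      simp only [hflip, Function.update_self]
      cases u ℓ <;> simp only [Bool.not_false, Bool.not_true] <;> linarith
    simp only [hG, e1, e0]
    rw [← mul_prod_erase univ _ (mem_univ ℓ), ← mul_prod_erase univ _ (mem_univ ℓ), e2, ← mul_add,
      ← add_mul, e3, one_mul]
  · rfl

theorem sum_pairs_factor {c : ℕ} (g : Fin c → (Fin K → Bool) → ℝ) (z : Fin c × Fin K → ℝ) :
    ∑ s : Fin c × Fin K → Bool, (∏ k, g k fun j => s (k, j)) * ∏ a, msgW (z a) (s a)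
      = ∏ k, ∑ u : Fin K → Bool, g k u * ∏ j, msgW (z (k, j)) (u j) := by
  rw [Fintype.prod_sum]
  refine Fintype.sum_equiv (Equiv.curry (Fin c) (Fin K) Bool) _ _ fun s => ?_
  rw [Fintype.prod_prod_type, ← prod_mul_distrib]
  rfl

theorem log_cavU (M : FinModel K) {c : ℕ} (d : Fin c → M.D) (ℓ : Fin c → Fin K) (h : M.Hh) :
    (fun z : Fin c × Fin K → ℝ => log (∑ s, M.cavU d ℓ h s * ∏ a, msgW (z a) (s a)))
      = rawU (fun k => M.th (d k)) ℓ (M.hv h) := by
  funext z
  unfold rawU FinModel.cavU
  simp only [sum_mul]
  rw [sum_comm]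
  congr 1
  refine sum_congr rfl fun e _ => ?_
  simp only [mul_assoc]
  rw [← mul_sum]
  congr 1
  rw [sum_pairs_factor (fun k u => exp (M.th (d k) fun j => if j = ℓ k then e else u j)) z]
  exact prod_congr rfl fun k _ => sum_update_msgW (fun s => exp (M.th (d k) s)) _ _ _

theorem log_cavV (M : FinModel K) {c : ℕ} (d : Fin c → M.D) :
    (fun z : Fin c × Fin K → ℝ => log (∑ s, M.cavV d s * ∏ a, msgW (z a) (s a)))
      = rawV fun k => M.th (d k) := by
  funext z
  unfold rawV FinModel.cavV
  simp only [exp_sum]
  rw [sum_pairs_factor (fun k u => exp (M.th (d k) u)) z]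

theorem trial_round (hM : M.Admissible) {n : ℕ} (hn : 0 < n) (lam : ℝ) {r : ℕ} (m : Fin r → ℝ)
    (x : (Fin (r + 1) → ℝ) → ℝ) :
    (roundReading hM hn).trial lam r m x = (roundModel hM n).cavity lam fun c Y =>
      trialT (Fin c × Fin K) r m x fun z => log (∑ s, Y s * ∏ a, msgW (z a) (s a)) := by
  have := hM.clause_prob; have := hM.field_prob
  unfold Reading.trial FinModel.cavity
  simp only [log_cavU, log_cavV]
  congr 1 <;> refine tsum_congr fun c => congrArg _ ?_
  · unfold Reading.uTerm
    have h1 : ∀ θ : Fin c → GridTab K n,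
        (∫ h, mean (fun ℓ : Fin c → Fin K => trialT (Fin c × Fin K) r m x
          (rawU (fun k s => gridVal n (θ k s)) ℓ (gridVal n (gridIdx n h)))) ∂M.field)
        = ∑ g, M.field.real (gridIdx n ⁻¹' {g}) * mean fun ℓ : Fin c → Fin K =>
            trialT (Fin c × Fin K) r m x (rawU (fun k s => gridVal n (θ k s)) ℓ (gridVal n g)) := fun θ =>
      integral_finite (measurable_gridIdx n) fun g => mean fun ℓ : Fin c → Fin K =>
        trialT (Fin c × Fin K) r m x (rawU (fun k s => gridVal n (θ k s)) ℓ (gridVal n g))
    refine Eq.trans (integral_congr_ae (ae_of_all _ fun θ => h1 fun k => gridClause n (θ k))) ?_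
    exact integral_finite_pi (μ := M.clause) (measurable_gridClause n) fun d : Fin c → GridTab K n =>
      ∑ g, M.field.real (gridIdx n ⁻¹' {g}) * mean fun ℓ : Fin c → Fin K =>
        trialT (Fin c × Fin K) r m x (rawU (fun k s => gridVal n (d k s)) ℓ (gridVal n g))
  · exact integral_finite_pi (μ := M.clause) (measurable_gridClause n) fun d : Fin c → GridTab K n =>
      trialT (Fin c × Fin K) r m x (rawV fun k s => gridVal n (d k s))

/-! ### The statement -/

theorem trunc : TruncStmt := by
  intro hfin K hK lam hlam M hM ε hε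
  have := hM.clause_prob; have := hM.field_prob
  have hA : Tendsto (fun n => hM.reading.tabShift (roundReading hM (Nat.succ_pos n))) atTop (nhds 0) := by
    have e : ∀ n, hM.reading.tabShift (roundReading hM (Nat.succ_pos n))
        = ∑ s, ∫ c, |gridVal (n + 1) (gridIdx (n + 1) (theta c s)) - theta c s| ∂M.clause := fun n => by
      refine integral_finsetSum _ fun s _ => ?_
      exact (((roundReading hM (Nat.succ_pos n)).tab_int.fun_add hM.reading.tab_int).mono'
        ((((measurable_of_countable (gridVal (n + 1))).comp ((measurable_gridIdx _).comp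
          (measurable_pi_iff.1 measurable_theta s))).sub (measurable_pi_iff.1 measurable_theta s)).abs
            ).aestronglyMeasurable
        (ae_of_all _ fun c => by
          rw [Real.norm_eq_abs, abs_abs]
          exact (abs_sub _ _).trans (add_le_add (abs_le_tnorm _ s) (abs_le_tnorm (theta c) s))))
    simp only [e]
    simpa using tendsto_finsetSum (univ : Finset (Fin K → Bool)) fun s _ =>
      tendsto_grid (μ := M.clause) (measurable_pi_iff.1 measurable_theta s) (hM.theta_int s)
  have hB : Tendsto (fun n => hM.reading.fldShift (roundReading hM (Nat.succ_pos n))) atTop (nhds 0) :=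
    tendsto_grid measurable_id hM.field_int
  have hE : Tendsto (fun n => hM.reading.tabShift (roundReading hM (Nat.succ_pos n)) * (2 * K * lam)
      + 2 * hM.reading.fldShift (roundReading hM (Nat.succ_pos n))) atTop (nhds 0) := by
    simpa using (hA.mul_const (2 * (K : ℝ) * lam)).add (hB.const_mul 2)
  obtain ⟨n, hn⟩ := (hE.eventually (gt_mem_nhds (half_pos hε))).exists
  set R := roundReading hM (Nat.succ_pos n)
  filter_upwards [hfin K hK lam hlam (roundModel hM (n + 1)) (ε / 2) (half_pos hε),
    eventually_gt_atTop 0] with N ⟨r, m, x, hm, hmono, hx, hxb, hle⟩ hN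
  refine ⟨trialValue M lam r m x, ⟨r, m, x, hm, hmono, hx, hxb, rfl⟩, ?_⟩
  rw [← press_round hM (Nat.succ_pos n), ← trial_round hM (Nat.succ_pos n)] at hle
  have h1 := hM.reading.press_diff R hlam.le hN
  have h2 := hM.reading.trial_diff R (fun p => (hm p).1) hx hxb hlam.le (by omega : 1 ≤ K)
  rw [trialValue_eq hM, pressure_eq hM]
  have e : hM.reading.tabShift R * lam + hM.reading.fldShift R
      + (hM.reading.tabShift R * ((2 * K - 1) * lam) + hM.reading.fldShift R)
      = hM.reading.tabShift R * (2 * K * lam) + 2 * hM.reading.fldShift R := by ring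
  linarith [(abs_le.1 h1).2, (abs_le.1 h2).1]

end Vale.Agent.P168
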