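import Vale.Agent.P168.Lower.AsmTools

/-!
# P168: averages over the perturbation parameters

The box average of the deviations of the energies tends to zero along the cavity systems.
-/

open Real Finset MeasureTheory Filter Topology

namespace Vale.Agent.P168

variable {K L N P : ℕ}

theorem energyDev_nonneg (B : Sys L N) [NeZero N] (G : Grid L) (τ : Fin P → Kind L) (t : Fin P → ℝ)
    (s : Fin P → ℕ) (p : Fin P) : 0 ≤ B.energyDev G τ t s p :=
  sum_nonneg fun o _ => mul_nonneg ((B.perturb τ t s).w_nonneg o)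
    (shapeE_nonneg G _ _ fun _ => abs_nonneg _)

/-- The potential of a perturbed system as a function of its parameters. -/
noncomputable def Sys.pertH (B : Sys L N) [NeZero N] (τ : Fin P → Kind L) (s : Fin P → ℕ) (t : Fin P → ℝ)
    (o : B.Om × (∀ p, Fin (s p) → (τ p).Root N)) (ξ : Fin L → B.Z × (∀ p, Fin (s p) → (τ p).Lab)) : ℝ :=
  B.H o.1 (fun a => (ξ a).1) + ∑ p, ∑ c : Fin (s p),
    (τ p).term (t p) (o.2 p c) (fun a => (ξ a).2 p c) (B.cfg fun a => (ξ a).1)

theorem continuous_pertH (B : Sys L N) [NeZero N] (τ : Fin P → Kind L) (s : Fin P → ℕ)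
    {X : Type*} [TopologicalSpace X] {t : X → Fin P → ℝ} (ht : Continuous t)
    (o : B.Om × (∀ p, Fin (s p) → (τ p).Root N)) (ξ : Fin L → B.Z × (∀ p, Fin (s p) → (τ p).Lab)) :
    Continuous fun x => B.pertH τ s (t x) o ξ := by
  unfold Sys.pertH Kind.term
  exact continuous_const.add (continuous_finsetSum _ fun p _ => continuous_finsetSum _ fun c _ =>
    continuous_const.add (((continuous_apply p).comp ht).mul continuous_const))

theorem energyDev_eq (B : Sys L N) [NeZero N] (G : Grid L) (τ : Fin P → Kind L) (s : Fin P → ℕ) (p : Fin P)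
    (t : Fin P → ℝ) :
    B.energyDev G τ t s p = ∑ o : B.Om × (∀ q, Fin (s q) → (τ q).Root N),
      B.w o.1 / Fintype.card (∀ q, Fin (s q) → (τ q).Root N) *
      (Shape.one L).E G (B.pertH τ s t o) fun ξ =>
        |(∑ c : Fin (s p), (τ p).energy (o.2 p c) (fun a => (ξ 0 a).2 p c) (B.cfg fun a => (ξ 0 a).1)) / s p
          - ∑ o' : B.Om × (∀ q, Fin (s q) → (τ q).Root N),
              B.w o'.1 / Fintype.card (∀ q, Fin (s q) → (τ q).Root N) *
              (Shape.one L).E G (B.pertH τ s t o') fun ξ' => (∑ c : Fin (s p),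
                (τ p).energy (o'.2 p c) (fun a => (ξ' 0 a).2 p c) (B.cfg fun a => (ξ' 0 a).1)) / s p| := rfl

theorem continuous_energyDev (B : Sys L N) [NeZero N] (G : Grid L) (τ : Fin P → Kind L) (s : Fin P → ℕ)
    (p : Fin P) {X : Type*} [TopologicalSpace X] {t : X → Fin P → ℝ} (ht : Continuous t) :
    Continuous fun x => B.energyDev G τ (t x) s p := by
  simp only [energyDev_eq]
  have hH := continuous_pertH B τ s ht
  refine continuous_finsetSum _ fun o _ => Continuous.mul continuous_const ?_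
  refine continuous_shapeE (H := fun x => B.pertH τ s (t x) o) G (fun ξ => hH o ξ) _ fun ξ => ?_
  refine Continuous.abs (Continuous.sub continuous_const ?_)
  refine continuous_finsetSum _ fun o' _ => Continuous.mul continuous_const ?_
  refine continuous_shapeE (H := fun x => B.pertH τ s (t x) o') G (fun ξ' => hH o' ξ') _ fun ξ' => ?_
  exact continuous_const

theorem gain_eq (B : Sys L N) [NeZero N] (G : Grid L) (τ : Fin P → Kind L) (s : Fin P → ℕ) (t : Fin P → ℝ)
    {ι : Type} [Fintype ι] [DecidableEq ι] (Y : (ι → Bool) → ℝ) :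
    (B.perturb τ t s).gain G Y = ∑ o : B.Om × (∀ q, Fin (s q) → (τ q).Root N),
      B.w o.1 / Fintype.card (∀ q, Fin (s q) → (τ q).Root N) * mean fun i : ι → Fin N =>
        vAt G (fun ξ => B.pertH τ s t o ξ + log (Y fun a => B.cfg (fun l => (ξ l).1) (i a))) 0
            (fun _ => Classical.arbitrary (B.Z × (∀ q, Fin (s q) → (τ q).Lab)))
          - vAt G (B.pertH τ s t o) 0 fun _ => Classical.arbitrary (B.Z × (∀ q, Fin (s q) → (τ q).Lab)) :=
  rfl

theorem continuous_gain (B : Sys L N) [NeZero N] (G : Grid L) (τ : Fin P → Kind L) (s : Fin P → ℕ)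
    {X : Type*} [TopologicalSpace X] {t : X → Fin P → ℝ} (ht : Continuous t) {ι : Type} [Fintype ι]
    [DecidableEq ι] (Y : (ι → Bool) → ℝ) : Continuous fun x => (B.perturb τ (t x) s).gain G Y := by
  simp only [gain_eq]
  have hH := continuous_pertH B τ s ht
  refine continuous_finsetSum _ fun o _ => continuous_const.mul ?_
  unfold mean
  exact (continuous_finsetSum _ fun i _ =>
    (continuous_vAt G (fun ξ => (hH o ξ).add continuous_const) 0 _).sub
      (continuous_vAt G (fun ξ => hH o ξ) 0 _)).div_const _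

theorem ae_box (P : ℕ) :
    ∀ᵐ t ∂Measure.pi (fun _ : Fin P => unif), ∀ p, t p ∈ Set.Icc (0 : ℝ) 1 := by
  refine ae_all_iff.2 fun p => ?_
  exact (measurePreserving_eval (fun _ : Fin P => unif) p).quasiMeasurePreserving.ae
    (ae_restrict_mem measurableSet_Icc)

theorem integrable_box {F : (Fin P → ℝ) → ℝ} (hF : Continuous F) :
    Integrable F (Measure.pi fun _ : Fin P => unif) := by
  obtain ⟨A, hA⟩ := (isCompact_univ_pi fun _ : Fin P => isCompact_Icc (a := (0 : ℝ)) (b := 1)).exists_bound_of_continuousOn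
    hF.continuousOn
  exact Integrable.of_bound hF.aestronglyMeasurable A
    ((ae_box P).mono fun t ht => hA t fun p _ => ht p)

/-- A box average is at most a bound on its averages over the lines in one direction. -/
theorem box_slice_le {F : (Fin P → ℝ) → ℝ} (hF : Continuous F) (p : Fin P) {c : ℝ}
    (h : ∀ t, (∀ q, t q ∈ Set.Icc (0 : ℝ) 1) → ∫ x in (0 : ℝ)..1, F (Function.update t p x) ≤ c) :
    ∫ t, F t ∂Measure.pi (fun _ : Fin P => unif) ≤ c := by
  obtain ⟨n, rfl⟩ : ∃ n, P = n + 1 := ⟨P - 1, by have := p.2; omega⟩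
  have hmp := (measurePreserving_piFinSuccAbove (fun _ : Fin (n + 1) => unif) p).symm
    (MeasurableEquiv.piFinSuccAbove (fun _ : Fin (n + 1) => ℝ) p)
  rw [← hmp.integral_comp' F]
  have hint : Integrable (fun q : ℝ × (Fin n → ℝ) =>
      F ((MeasurableEquiv.piFinSuccAbove (fun _ : Fin (n + 1) => ℝ) p).symm q))
      (unif.prod (Measure.pi fun _ : Fin n => unif)) :=
    (hmp.integrable_comp_emb (MeasurableEquiv.measurableEmbedding _)).2 (integrable_box hF)
  rw [integral_prod_symm _ hint]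
  refine (integral_mono_ae hint.integral_prod_right (integrable_const c)
    ((ae_box n).mono fun r hr => ?_)).trans (le_of_eq (by rw [integral_const, probReal_univ, one_smul]))
  have ht : ∀ q, (p.insertNth (0 : ℝ) r : Fin (n + 1) → ℝ) q ∈ Set.Icc (0 : ℝ) 1 := fun q => by
    refine Fin.succAboveCases p ?_ (fun l => ?_) q
    · simp
    · simpa using hr l
  refine le_trans (le_of_eq ?_) (h _ ht)
  rw [intervalIntegral.integral_of_le zero_le_one, ← integral_Icc_eq_integral_Ioc]
  refine integral_congr_ae (ae_of_all _ fun x => congrArg F ?_)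
  simp [MeasurableEquiv.piFinSuccAbove_symm_apply, Fin.update_insertNth, Fin.insertNthEquiv]

/-- The mean energy deviations of the cavity system of size `n + 1`. -/
noncomputable def FinModel.devSum (M : FinModel K) (lam : ℝ) (hlam : 0 ≤ lam) (L : ℕ) (hL : 0 < L)
    (G : Grid L) (τ : Fin P → Kind L) (n : ℕ) (t : Fin P → ℝ) : ℝ :=
  ∑ p, (M.base L (n + 1) (⌈4 * lam * ((n : ℝ) + 1)⌉₊ + 4 * (n + 1)) hL
      (lam * ((n : ℝ) + 2) * (((n : ℝ) + 1) / ((n : ℝ) + 2)) ^ K)
      (mul_nonneg (mul_nonneg hlam (by positivity)) (by positivity))).energyDev G τ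
    (fun q => boxWidth (n + 1) * t q)
    (Function.update (fun _ => termCount (n + 1)) p (termCount (n + 1) + 1)) p

theorem devSum_nonneg (M : FinModel K) (lam : ℝ) (hlam : 0 ≤ lam) (hL : 0 < L) (G : Grid L)
    (τ : Fin P → Kind L) (n : ℕ) (t : Fin P → ℝ) : 0 ≤ M.devSum lam hlam L hL G τ n t :=
  sum_nonneg fun p _ => energyDev_nonneg _ G τ _ _ p

theorem continuous_devSum (M : FinModel K) (lam : ℝ) (hlam : 0 ≤ lam) (hL : 0 < L) (G : Grid L)
    (τ : Fin P → Kind L) (n : ℕ) : Continuous (M.devSum lam hlam L hL G τ n) :=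
  continuous_finsetSum _ fun p _ => continuous_energyDev _ G τ _ p
    (continuous_pi fun q => continuous_const.mul (continuous_apply q))

theorem boxWidth_mem (n : ℕ) : boxWidth (n + 1) ∈ Set.Ioc (0 : ℝ) 1 := by
  have h : (1 : ℝ) ≤ ((n + 1 : ℕ) : ℝ) := Nat.one_le_cast.2 n.succ_pos
  exact ⟨rpow_pos_of_pos (zero_lt_one.trans_le h) _, rpow_le_one_of_one_le_of_nonpos h (by norm_num)⟩

theorem boxWidth_tendsto : Tendsto (fun n : ℕ => boxWidth (n + 1)) atTop (𝓝 0) :=
  ((tendsto_rpow_neg_atTop (by norm_num : (0 : ℝ) < 1 / 16)).comp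
    (tendsto_natCast_atTop_atTop.comp (tendsto_add_atTop_nat 1)))

theorem termCount_ge (n : ℕ) : ((n + 1 : ℕ) : ℝ) ^ (3 / 4 : ℝ) ≤ (termCount (n + 1) + 1 : ℕ) := by
  have := Nat.lt_floor_add_one (((n + 1 : ℕ) : ℝ) ^ (3 / 4 : ℝ))
  unfold termCount
  push_cast at this ⊢
  linarith

theorem sqrt_width_le {X m S : ℝ} (hX : 0 < X) (hm : 0 < m) (hS : X ^ (3 / 4 : ℝ) ≤ S) :
    2 * √(X ^ (-(1 / 16) : ℝ) / (m * S)) / X ^ (-(1 / 16) : ℝ)
      ≤ 2 / √m * X ^ (-(11 / 32) : ℝ) := by
  set w := X ^ (-(1 / 16) : ℝ) with hw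
  have hwpos : 0 < w := rpow_pos_of_pos hX _
  have hS0 : 0 < X ^ (3 / 4 : ℝ) := rpow_pos_of_pos hX _
  have h1 : √(w / (m * S)) ≤ √(w / (m * X ^ (3 / 4 : ℝ))) :=
    Real.sqrt_le_sqrt (div_le_div_of_nonneg_left hwpos.le (mul_pos hm hS0)
      (mul_le_mul_of_nonneg_left hS hm.le))
  refine (div_le_div_of_nonneg_right (mul_le_mul_of_nonneg_left h1 two_pos.le) hwpos.le).trans (le_of_eq ?_)
  rw [div_mul_eq_div_div, div_right_comm, Real.sqrt_div' _ hm.le, hw, ← rpow_sub hX,
    Real.sqrt_eq_rpow (X ^ _), ← rpow_mul hX.le]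
  rw [show (-(1 / 16 : ℝ) - 3 / 4) * (1 / 2) = -(13 / 32) by norm_num]
  rw [mul_div_assoc, div_right_comm, ← rpow_sub hX,
    show (-(13 / 32 : ℝ) - -(1 / 16)) = -(11 / 32) by norm_num]
  ring

theorem devSum_tendsto (he : EnergyStmt) (hd : DevStmt) (M : FinModel K) (lam : ℝ) (hlam : 0 ≤ lam)
    (hL : 0 < L) (G : Grid L) (τ : Fin P → Kind L) (hu : ∀ p, |(τ p).u| * (τ p).n ≤ 1 / 2) :
    Tendsto (fun n => ∫ t, M.devSum lam hlam L hL G τ n t ∂Measure.pi fun _ : Fin P => unif)
      atTop (𝓝 0) := by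
  obtain ⟨C, hC, hdev⟩ := hd K lam hlam M L hL G P τ hu
  set q := fun X : ℝ => 3 * C * X ^ (-(1 / 8) : ℝ) + 8 * X ^ (-(1 / 16) : ℝ)
    + 2 / √(G.m 1) * X ^ (-(11 / 32) : ℝ) with hq
  have hlim : Tendsto (fun n : ℕ => (P : ℝ) * q ((n + 1 : ℕ) : ℝ)) atTop (𝓝 0) := by
    have hp : ∀ e : ℝ, 0 < e → Tendsto (fun n : ℕ => ((n + 1 : ℕ) : ℝ) ^ (-e)) atTop (𝓝 0) := fun e he' =>
      (tendsto_rpow_neg_atTop he').comp (tendsto_natCast_atTop_atTop.comp (tendsto_add_atTop_nat 1))
    have := ((((hp (1 / 8) (by norm_num)).const_mul (3 * C)).add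
      ((hp (1 / 16) (by norm_num)).const_mul 8)).add
      ((hp (11 / 32) (by norm_num)).const_mul (2 / √(G.m 1)))).const_mul (P : ℝ)
    simpa [hq] using this
  refine squeeze_zero (fun n => integral_nonneg fun t => devSum_nonneg M lam hlam hL G τ n t) (fun n => ?_) hlim
  set B := M.base L (n + 1) (⌈4 * lam * ((n : ℝ) + 1)⌉₊ + 4 * (n + 1)) hL
    (lam * ((n : ℝ) + 2) * (((n : ℝ) + 1) / ((n : ℝ) + 2)) ^ K)
    (mul_nonneg (mul_nonneg hlam (by positivity)) (by positivity)) with hB
  have hcont : ∀ p, Continuous fun t : Fin P → ℝ => B.energyDev G τ (fun i => boxWidth (n + 1) * t i)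
      (Function.update (fun _ => termCount (n + 1)) p (termCount (n + 1) + 1)) p :=
    fun p => continuous_energyDev B G τ _ p (continuous_pi fun i => continuous_const.mul (continuous_apply i))
  unfold FinModel.devSum
  rw [integral_finsetSum _ fun p _ => integrable_box (hcont p)]
  refine (sum_le_sum (g := fun _ => q ((n + 1 : ℕ) : ℝ)) fun p _ => box_slice_le (hcont p) p fun t ht => ?_).trans
    (le_of_eq (by rw [sum_const, card_univ, Fintype.card_fin, nsmul_eq_mul]))
  set X : ℝ := ((n + 1 : ℕ) : ℝ) with hX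
  have hX1 : 1 ≤ X := Nat.one_le_cast.2 n.succ_pos
  have hX0 : 0 < X := zero_lt_one.trans_le hX1
  obtain ⟨hw0, hw1⟩ := boxWidth_mem n
  set w := boxWidth (n + 1) with hwdef
  have hwX : w = X ^ (-(1 / 16) : ℝ) := rfl
  set s := Function.update (fun _ : Fin P => termCount (n + 1)) p (termCount (n + 1) + 1) with hs
  have hsp : s p = termCount (n + 1) + 1 := Function.update_self ..
  set h := w * X ^ (-(1 / 16) : ℝ) with hh
  have hh0 : 0 < h := mul_pos hw0 (rpow_pos_of_pos hX0 _)
  have hh1 : h ≤ 1 := mul_le_one₀ hw1 (rpow_pos_of_pos hX0 _).le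
    (rpow_le_one_of_one_le_of_nonpos hX1 (by norm_num))
  have key := he L G (n + 1) B P τ s (fun i => w * t i) p w h (C * √X) hw0 hh0 hL
    (by rw [hsp]; exact Nat.succ_pos _) (hu p) fun x hx => by
      rw [hX, Nat.cast_add_one]
      refine hdev n s _ (fun i => ?_) fun i => ?_
      · rw [hs, Function.update_apply]; split_ifs <;> omega
      · obtain ⟨hx1, hx2⟩ := hx
        rw [Function.update_apply]
        split_ifs
        · exact abs_le.2 ⟨by linarith, by linarith⟩
        · obtain ⟨h1, h2⟩ := ht i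
          exact abs_le.2 ⟨by nlinarith, by nlinarith⟩
  have hfun : (fun x => B.energyDev G τ (fun i => w * Function.update t p x i) s p)
      = fun x => B.energyDev G τ (Function.update (fun i => w * t i) p (w * x)) s p := by
    funext x
    congr 1
    funext i
    rcases eq_or_ne i p with rfl | hne
    · simp
    · simp [Function.update_of_ne hne]
  rw [hfun, intervalIntegral.integral_comp_mul_left
    (fun y => B.energyDev G τ (Function.update (fun i => w * t i) p y) s p) hw0.ne', mul_zero, mul_one,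
    smul_eq_mul, inv_mul_le_iff₀ hw0]
  refine key.trans ?_
  have hS : X ^ (3 / 4 : ℝ) ≤ (s p : ℝ) := by rw [hsp]; exact termCount_ge n
  have hm1 : 0 < G.m 1 := G.m_pos 1 le_rfl hL
  have t1 : 3 * w * (C * √X) / (s p * h) ≤ w * (3 * C * X ^ (-(1 / 8) : ℝ)) := by
    refine (div_le_div_of_nonneg_left (by positivity) (by positivity)
      (mul_le_mul_of_nonneg_right hS hh0.le)).trans (le_of_eq ?_)
    rw [hh, hwX, Real.sqrt_eq_rpow]
    have e : X ^ (-(1 / 8) : ℝ) * (X ^ (3 / 4 : ℝ) * (X ^ (-(1 / 16) : ℝ) * X ^ (-(1 / 16) : ℝ)))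
        = X ^ (1 / 2 : ℝ) := by
      rw [← rpow_add hX0, ← rpow_add hX0, ← rpow_add hX0]; norm_num
    field_simp
    rw [← e]; ring
  have t2 : 8 * h = w * (8 * X ^ (-(1 / 16) : ℝ)) := by rw [hh]; ring
  have t3 : 2 * √(w / (G.m 1 * s p)) ≤ w * (2 / √(G.m 1) * X ^ (-(11 / 32) : ℝ)) := by
    rw [← div_le_iff₀' hw0, hwX]; exact sqrt_width_le hX0 hm1 hS
  simp only [hq, mul_add]
  linarith

end Vale.Agent.P168
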