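import Vale.Agent.P168.Lower.Pins
import Vale.Agent.P168.Lower.Lip

/-!
# P168: elementary bounds for the assembly of the lower bound

Root values are one-Lipschitz in the potential and continuous in a parameter; bounds on the cavity
functions and on functionals built from them.
-/

open Real Finset MeasureTheory Filter Topology

namespace Vale.Agent.P168

variable {K L N n : ℕ}

theorem pois_nonneg' {c : ℝ} (hc : 0 ≤ c) (k : ℕ) : 0 ≤ pois c k := by unfold pois; positivity

theorem pois_hasSum (c : ℝ) : HasSum (pois c) 1 := by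
  have h := (NormedSpace.expSeries_div_hasSum_exp (𝔸 := ℝ) c).mul_left (exp (-c))
  rw [← Real.exp_eq_exp_ℝ, ← Real.exp_add, neg_add_cancel, Real.exp_zero] at h
  exact h.congr_fun fun k => by simp only [pois]; ring

theorem pois_mul_summable (c : ℝ) : Summable fun k : ℕ => pois c k * k := by
  refine (summable_nat_add_iff 1).1 ?_
  refine ((pois_hasSum c).summable.mul_left c).congr fun k => ?_
  unfold pois
  rw [Nat.factorial_succ]
  push_cast
  field_simp
  ring

theorem pois_affine_summable (c a b : ℝ) : Summable fun k : ℕ => pois c k * (a + b * k) :=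
  (((pois_hasSum c).summable.mul_right a).add ((pois_mul_summable c).mul_right b)).congr fun k => by ring

section Recursion

variable {Z : Type} [Fintype Z] [DecidableEq Z] [Nonempty Z]

theorem vRec_lip (G : Grid L) {H H' : (Fin L → Z) → ℝ} {A : ℝ} (h : ∀ ξ, H ξ ≤ H' ξ + A) :
    ∀ d, d ≤ L → ∀ ξ, vRec G H d ξ ≤ vRec G H' d ξ + A
  | 0, _, ξ => h ξ
  | d + 1, hd, ξ => by
    have hm : 0 < G.m (L - d) := G.m_pos _ (by omega) (by omega)
    have hpos : ∀ F : Z → ℝ, 0 < mean fun z => exp (F z) := fun F =>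
      div_pos (sum_pos (fun z _ => exp_pos _) univ_nonempty) (Nat.cast_pos.2 Fintype.card_pos)
    simp only [vRec]
    rw [div_add' _ _ _ hm.ne', div_le_div_iff_of_pos_right hm]
    refine (log_le_log (hpos _) (show _ ≤ exp (A * G.m (L - d)) *
      mean (fun z => exp (G.m (L - d) * vRec G H' d (putZ ξ (L - d - 1) z))) from ?_)).trans ?_
    · simp only [mean, ← mul_div_assoc, mul_sum, ← exp_add]
      refine div_le_div_of_nonneg_right (sum_le_sum fun z _ => exp_le_exp.2 ?_) (Nat.cast_nonneg _)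
      have := mul_le_mul_of_nonneg_left
        (vRec_lip G h d (by omega) (putZ ξ (L - d - 1) z)) hm.le
      linarith
    · rw [log_mul (exp_pos _).ne' (hpos _).ne', log_exp]
      linarith

theorem vAt_sub_abs (G : Grid L) {H H' : (Fin L → Z) → ℝ} {A : ℝ} (h : ∀ ξ, |H ξ - H' ξ| ≤ A) (t : ℕ)
    (ξ : Fin L → Z) : |vAt G H t ξ - vAt G H' t ξ| ≤ A := by
  have h1 := vRec_lip G (fun ξ => show H ξ ≤ H' ξ + A by linarith [(abs_le.1 (h ξ)).2]) (L - t)
    (Nat.sub_le _ _) ξ
  have h2 := vRec_lip G (fun ξ => show H' ξ ≤ H ξ + A by linarith [(abs_le.1 (h ξ)).1]) (L - t)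
    (Nat.sub_le _ _) ξ
  rw [abs_le]; unfold vAt; constructor <;> linarith

variable {T : Type*} [TopologicalSpace T]

theorem continuous_vRec (G : Grid L) {H : T → (Fin L → Z) → ℝ} (h : ∀ ξ, Continuous fun x => H x ξ) :
    ∀ d ξ, Continuous fun x => vRec G (H x) d ξ
  | 0, ξ => h ξ
  | d + 1, ξ => by
    simp only [vRec, mean]
    refine Continuous.div_const (Continuous.log ?_ fun x => ?_) _
    · exact (continuous_finsetSum _ fun z _ =>
        (continuous_const.mul (continuous_vRec G h d _)).rexp).div_const _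
    · exact (div_pos (sum_pos (fun z _ => exp_pos _) univ_nonempty) (Nat.cast_pos.2 Fintype.card_pos)).ne'

theorem continuous_vAt (G : Grid L) {H : T → (Fin L → Z) → ℝ} (h : ∀ ξ, Continuous fun x => H x ξ)
    (t : ℕ) (ξ : Fin L → Z) : Continuous fun x => vAt G (H x) t ξ :=
  continuous_vRec G h _ ξ

theorem continuous_shapeE (G : Grid L) {H : T → (Fin L → Z) → ℝ} (h : ∀ ξ, Continuous fun x => H x ξ)
    (S : Shape L n) {φ : T → (Fin n → Fin L → Z) → ℝ} (hφ : ∀ ξ, Continuous fun x => φ x ξ) :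
    Continuous fun x => S.E G (H x) (φ x) := by
  unfold Shape.E Shape.dens incr
  refine Continuous.div_const (continuous_finsetSum _ fun ξ _ => Continuous.mul (Continuous.rexp ?_) (hφ ξ)) _
  exact continuous_finsetSum _ fun i _ => continuous_finsetSum _ fun s _ =>
    (continuous_const.mul ((continuous_vAt G h _ _).sub (continuous_vAt G h _ _))).div_const _

theorem shapeE_nonneg (G : Grid L) (H : (Fin L → Z) → ℝ) (S : Shape L n)
    {φ : (Fin n → Fin L → Z) → ℝ} (hφ : ∀ ξ, 0 ≤ φ ξ) : 0 ≤ S.E G H φ :=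
  div_nonneg (sum_nonneg fun _ _ => mul_nonneg (exp_pos _).le (hφ _)) (Nat.cast_nonneg _)

end Recursion

theorem mean_abs_le {α : Type*} [Fintype α] {f : α → ℝ} {A : ℝ} (hA : 0 ≤ A) (h : ∀ a, |f a| ≤ A) :
    |mean f| ≤ A := by
  rcases (Nat.cast_nonneg (Fintype.card α) : (0 : ℝ) ≤ _).eq_or_lt with hc | hc
  · rw [mean, ← hc, div_zero, abs_zero]; exact hA
  · rw [mean, abs_div, abs_of_pos hc, div_le_iff₀ hc]
    refine (abs_sum_le_sum_abs _ _).trans ((sum_le_sum fun a _ => h a).trans (le_of_eq ?_))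
    rw [sum_const, card_univ, nsmul_eq_mul]; ring

theorem wsum_abs_le {α : Type*} [Fintype α] {w f : α → ℝ} {A : ℝ} (hw : ∀ a, 0 ≤ w a)
    (hs : ∑ a, w a = 1) (h : ∀ a, |f a| ≤ A) : |∑ a, w a * f a| ≤ A := by
  refine (abs_sum_le_sum_abs _ _).trans (le_trans (sum_le_sum (g := fun a => w a * A) fun a _ => ?_)
    (le_of_eq (by rw [← sum_mul, hs, one_mul])))
  rw [abs_mul, abs_of_nonneg (hw a)]
  exact mul_le_mul_of_nonneg_left (h a) (hw a)

theorem gain_abs_le (B : Sys L N) (G : Grid L) {ι : Type} [Fintype ι] [DecidableEq ι]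
    {Y : (ι → Bool) → ℝ} {A : ℝ} (hA : 0 ≤ A) (hY : ∀ s, |log (Y s)| ≤ A) : |B.gain G Y| ≤ A :=
  wsum_abs_le B.w_nonneg B.w_sum fun o => mean_abs_le hA fun i =>
    vAt_sub_abs G (fun ξ => by rw [add_sub_cancel_left]; exact hY _) 0 _

theorem sum_msgW_fun {ι : Type} [Fintype ι] [DecidableEq ι] (z : ι → ℝ) :
    ∑ s : ι → Bool, ∏ a, msgW (z a) (s a) = 1 := by
  rw [← Fintype.prod_sum fun a s => msgW (z a) s]
  refine prod_eq_one fun a _ => ?_
  simp only [Fintype.sum_bool, msgW, spin, if_true, Bool.false_eq_true, if_false]; ring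

theorem log_mix_abs {ι : Type} [Fintype ι] [DecidableEq ι] {Y : (ι → Bool) → ℝ} {A : ℝ}
    (hY : ∀ s, exp (-A) ≤ Y s ∧ Y s ≤ exp A) {z : ι → ℝ} (hz : ∀ a, z a ∈ Set.Icc (-1 : ℝ) 1) :
    |log (∑ s, Y s * ∏ a, msgW (z a) (s a))| ≤ A := by
  have hw : ∀ s : ι → Bool, 0 ≤ ∏ a, msgW (z a) (s a) :=
    fun s => prod_nonneg fun a _ => msgW_nonneg (hz a) _
  have lo : exp (-A) ≤ ∑ s, Y s * ∏ a, msgW (z a) (s a) := by
    refine le_trans (le_of_eq ?_) (sum_le_sum fun s _ => mul_le_mul_of_nonneg_right (hY s).1 (hw s))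
    rw [← mul_sum, sum_msgW_fun, mul_one]
  have hi : ∑ s, Y s * ∏ a, msgW (z a) (s a) ≤ exp A := by
    refine (sum_le_sum fun s _ => mul_le_mul_of_nonneg_right (hY s).2 (hw s)).trans (le_of_eq ?_)
    rw [← mul_sum, sum_msgW_fun, mul_one]
  have l1 := log_le_log (exp_pos _) lo
  have l2 := log_le_log ((exp_pos _).trans_le lo) hi
  rw [log_exp] at l1 l2
  exact abs_le.2 ⟨l1, l2⟩

/-- A bound on `|log Y|` for the cavity functions with `c` clauses. -/
noncomputable def FinModel.cavBound (M : FinModel K) (c : ℕ) : ℝ :=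
  log 2 + ∑ h, |M.hv h| + c * ∑ d, ∑ s, |M.th d s|

theorem cavBound_nonneg (M : FinModel K) (c : ℕ) : 0 ≤ M.cavBound c :=
  add_nonneg (add_nonneg (log_nonneg one_le_two) (sum_nonneg fun _ _ => abs_nonneg _))
    (mul_nonneg (Nat.cast_nonneg _) (sum_nonneg fun _ _ => sum_nonneg fun _ _ => abs_nonneg _))

theorem th_sum_le (M : FinModel K) {c : ℕ} (d : Fin c → M.D) (s : Fin c → Fin K → Bool) :
    |∑ k, M.th (d k) (s k)| ≤ c * ∑ d, ∑ s, |M.th d s| := by
  refine (abs_sum_le_sum_abs _ _).trans ((sum_le_sum fun k _ =>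
    (single_le_sum (f := fun s => |M.th (d k) s|) (fun _ _ => abs_nonneg _) (mem_univ (s k))).trans
      (single_le_sum (f := fun d => ∑ s, |M.th d s|) (fun _ _ => sum_nonneg fun _ _ => abs_nonneg _)
        (mem_univ (d k)))).trans (le_of_eq ?_))
  rw [sum_const, card_univ, Fintype.card_fin, nsmul_eq_mul]

theorem cavV_bounds (M : FinModel K) {c : ℕ} (d : Fin c → M.D) (σ : Fin c × Fin K → Bool) :
    exp (-M.cavBound c) ≤ M.cavV d σ ∧ M.cavV d σ ≤ exp (M.cavBound c) := by
  have h := abs_le.1 (th_sum_le M d fun k j => σ (k, j))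
  have h2 : (0 : ℝ) ≤ log 2 := log_nonneg one_le_two
  have h3 : (0 : ℝ) ≤ ∑ h, |M.hv h| := sum_nonneg fun _ _ => abs_nonneg _
  exact ⟨exp_le_exp.2 (by unfold FinModel.cavBound; linarith [h.1]),
    exp_le_exp.2 (by unfold FinModel.cavBound; linarith [h.2])⟩

theorem cavU_bounds (M : FinModel K) {c : ℕ} (d : Fin c → M.D) (ℓ : Fin c → Fin K) (h : M.Hh)
    (σ : Fin c × Fin K → Bool) :
    exp (-M.cavBound c) ≤ M.cavU d ℓ h σ ∧ M.cavU d ℓ h σ ≤ exp (M.cavBound c) := by
  set S := ∑ d, ∑ s, |M.th d s| with hS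
  set a := ∑ h, |M.hv h| with ha
  have hterm : ∀ e : Bool, exp (-(a + c * S)) ≤
      exp (M.hv h * spin e) * ∏ k, exp (M.th (d k) fun j => if j = ℓ k then e else σ (k, j)) ∧
      exp (M.hv h * spin e) * ∏ k, exp (M.th (d k) fun j => if j = ℓ k then e else σ (k, j))
        ≤ exp (a + c * S) := fun e => by
    rw [← exp_sum, ← exp_add]
    have h1 := abs_le.1 (th_sum_le M d fun k j => if j = ℓ k then e else σ (k, j))
    have h0 : |M.hv h * spin e| ≤ a := by
      rw [abs_mul, show |spin e| = 1 by cases e <;> simp [spin], mul_one]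
      exact single_le_sum (f := fun h => |M.hv h|) (fun _ _ => abs_nonneg _) (mem_univ h)
    have h0' := abs_le.1 h0
    exact ⟨exp_le_exp.2 (by linarith [h1.1, h0'.1]), exp_le_exp.2 (by linarith [h1.2, h0'.2])⟩
  rw [FinModel.cavU, Fintype.sum_bool]
  have e1 := hterm true
  have e2 := hterm false
  have hlog : exp (M.cavBound c) = 2 * exp (a + c * S) := by
    rw [FinModel.cavBound, ← hS, ← ha, add_assoc, exp_add, exp_log two_pos]
  constructor
  · refine le_trans ?_ (le_trans e1.1 (le_add_of_nonneg_right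
      (mul_nonneg (exp_pos _).le (prod_nonneg fun _ _ => (exp_pos _).le))))
    refine exp_le_exp.2 ?_
    rw [FinModel.cavBound, ← hS, ← ha]
    linarith [log_nonneg (one_le_two : (1 : ℝ) ≤ 2)]
  · rw [hlog]; linarith [e1.2, e2.2]

/-- A functional is bounded on cavity functions with `c` clauses. -/
def FinModel.BddFunctional (M : FinModel K) (T : ∀ c : ℕ, ((Fin c × Fin K → Bool) → ℝ) → ℝ) : Prop :=
  ∀ (c : ℕ) (Y : (Fin c × Fin K → Bool) → ℝ),
    (∀ s, exp (-M.cavBound c) ≤ Y s ∧ Y s ≤ exp (M.cavBound c)) → |T c Y| ≤ M.cavBound c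

/-- The part of the cavity functional carried by more than `C` clauses. -/
noncomputable def FinModel.tail (M : FinModel K) (lam : ℝ) (C : ℕ) : ℝ :=
  2 * ∑' c, pois (K * lam) (c + C) * M.cavBound (c + C)
    + 2 * ∑' c, pois ((K - 1) * lam) (c + C) * M.cavBound (c + C)

theorem cavBound_summable (M : FinModel K) (a : ℝ) : Summable fun c => pois a c * M.cavBound c :=
  (pois_affine_summable a (log 2 + ∑ h, |M.hv h|) (∑ d, ∑ s, |M.th d s|)).congr fun c => by
    rw [FinModel.cavBound, mul_comm (c : ℝ)]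

theorem tail_tendsto (M : FinModel K) (lam : ℝ) : Tendsto (M.tail lam) atTop (𝓝 0) := by
  have h : ∀ a, Tendsto (fun C => 2 * ∑' c, pois a (c + C) * M.cavBound (c + C)) atTop (𝓝 0) :=
    fun a => by
      simpa using (tendsto_sum_nat_add fun c => pois a c * M.cavBound c).const_mul 2
  have hh := (h (K * lam)).add (h ((K - 1) * lam))
  rw [add_zero] at hh
  exact hh

/-- The summand of the first part of the cavity functional. -/
noncomputable def FinModel.partU (M : FinModel K) (T : ∀ c : ℕ, ((Fin c × Fin K → Bool) → ℝ) → ℝ)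
    (c : ℕ) : ℝ :=
  ∑ d : Fin c → M.D, (∏ k, M.wD (d k)) * ∑ h, M.wH h * mean fun ℓ : Fin c → Fin K => T c (M.cavU d ℓ h)

/-- The summand of the second part of the cavity functional. -/
noncomputable def FinModel.partV (M : FinModel K) (T : ∀ c : ℕ, ((Fin c × Fin K → Bool) → ℝ) → ℝ)
    (c : ℕ) : ℝ :=
  ∑ d : Fin c → M.D, (∏ k, M.wD (d k)) * T c (M.cavV d)

theorem cavity_eq (M : FinModel K) (lam : ℝ) (T : ∀ c : ℕ, ((Fin c × Fin K → Bool) → ℝ) → ℝ) :
    M.cavity lam T = (∑' c, pois (K * lam) c * M.partU T c) - ∑' c, pois ((K - 1) * lam) c * M.partV T c :=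
  rfl

theorem wD_prod_nonneg (M : FinModel K) {c : ℕ} (d : Fin c → M.D) : 0 ≤ ∏ k, M.wD (d k) :=
  prod_nonneg fun k _ => M.wD_nonneg _

theorem wD_prod_sum (M : FinModel K) (c : ℕ) : ∑ d : Fin c → M.D, ∏ k, M.wD (d k) = 1 := by
  rw [← Fintype.prod_sum fun _ d => M.wD d, prod_eq_one fun _ _ => M.wD_sum]

theorem part_diff_le (M : FinModel K) {T T' : ∀ c : ℕ, ((Fin c × Fin K → Bool) → ℝ) → ℝ} {c : ℕ} {e : ℝ}
    (he : 0 ≤ e) (h : ∀ Y, (∀ s, exp (-M.cavBound c) ≤ Y s ∧ Y s ≤ exp (M.cavBound c)) → |T c Y - T' c Y| ≤ e) :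
    |M.partU T c - M.partU T' c| ≤ e ∧ |M.partV T c - M.partV T' c| ≤ e := by
  constructor
  · rw [FinModel.partU, FinModel.partU, ← sum_sub_distrib]
    simp only [← mul_sub, ← sum_sub_distrib]
    refine wsum_abs_le (wD_prod_nonneg M) (wD_prod_sum M c) fun d =>
      wsum_abs_le M.wH_nonneg M.wH_sum fun x => ?_
    have e1 : ∀ f g : (Fin c → Fin K) → ℝ, mean f - mean g = mean fun ℓ => f ℓ - g ℓ := fun f g => by
      simp only [mean, sum_sub_distrib, sub_div]
    rw [e1]
    exact mean_abs_le he fun ℓ => h _ (cavU_bounds M d ℓ x)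
  · rw [FinModel.partV, FinModel.partV, ← sum_sub_distrib]
    simp only [← mul_sub]
    exact wsum_abs_le (wD_prod_nonneg M) (wD_prod_sum M c) fun d => h _ (cavV_bounds M d)

theorem part_abs_le (M : FinModel K) {T : ∀ c : ℕ, ((Fin c × Fin K → Bool) → ℝ) → ℝ}
    (hT : M.BddFunctional T) (c : ℕ) : |M.partU T c| ≤ M.cavBound c ∧ |M.partV T c| ≤ M.cavBound c := by
  have h := part_diff_le M (T := T) (T' := fun _ _ => 0) (cavBound_nonneg M c)
    fun Y hY => by rw [sub_zero]; exact hT c Y hY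
  simpa [FinModel.partU, FinModel.partV, mean] using h

theorem part_summable (M : FinModel K) {T : ∀ c : ℕ, ((Fin c × Fin K → Bool) → ℝ) → ℝ}
    (hT : M.BddFunctional T) {a : ℝ} (ha : 0 ≤ a) :
    Summable (fun c => pois a c * M.partU T c) ∧ Summable fun c => pois a c * M.partV T c := by
  constructor <;> refine Summable.of_norm_bounded (cavBound_summable M a) fun c => ?_ <;>
    rw [Real.norm_eq_abs, abs_mul, abs_of_nonneg (pois_nonneg' ha c)]
  · exact mul_le_mul_of_nonneg_left (part_abs_le M hT c).1 (pois_nonneg' ha c)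
  · exact mul_le_mul_of_nonneg_left (part_abs_le M hT c).2 (pois_nonneg' ha c)

theorem series_close (M : FinModel K) {a e : ℝ} (ha : 0 ≤ a) (he : 0 ≤ e) (C : ℕ) {f g : ℕ → ℝ}
    (hf : ∀ c, |f c| ≤ M.cavBound c) (hg : ∀ c, |g c| ≤ M.cavBound c)
    (h : ∀ c < C, |f c - g c| ≤ e) :
    |(∑' c, pois a c * f c) - ∑' c, pois a c * g c|
      ≤ e + 2 * ∑' c, pois a (c + C) * M.cavBound (c + C) := by
  have hp := pois_nonneg' ha
  have hsum : ∀ u : ℕ → ℝ, (∀ c, |u c| ≤ M.cavBound c) → Summable fun c => pois a c * u c := fun u hu =>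
    Summable.of_norm_bounded (cavBound_summable M a) fun c => by
      rw [Real.norm_eq_abs, abs_mul, abs_of_nonneg (hp c)]
      exact mul_le_mul_of_nonneg_left (hu c) (hp c)
  have sd := (hsum f hf).sub (hsum g hg)
  rw [← Summable.tsum_sub (hsum f hf) (hsum g hg), ← sd.sum_add_tsum_nat_add C]
  refine (abs_add_le _ _).trans (add_le_add ?_ ?_)
  · refine (abs_sum_le_sum_abs _ _).trans (le_trans (sum_le_sum (g := fun c => pois a c * e) fun c hc => ?_) ?_)
    · rw [← mul_sub, abs_mul, abs_of_nonneg (hp c)]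
      exact mul_le_mul_of_nonneg_left (h c (mem_range.1 hc)) (hp c)
    · rw [← sum_mul]
      exact mul_le_of_le_one_left he
        (sum_le_hasSum _ (fun c _ => hp c) (pois_hasSum a))
  · have hb := ((summable_nat_add_iff C).2 (cavBound_summable M a)).mul_left 2
    rw [← tsum_mul_left, ← Real.norm_eq_abs]
    refine tsum_of_norm_bounded hb.hasSum fun c => ?_
    rw [Real.norm_eq_abs, ← mul_sub, abs_mul, abs_of_nonneg (hp _)]
    have := mul_le_mul_of_nonneg_left
      ((abs_sub _ _).trans (add_le_add (hf (c + C)) (hg (c + C)))) (hp (c + C))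
    linarith

theorem cavity_close (M : FinModel K) {lam : ℝ} (hlam : 0 ≤ lam) (hK : 1 ≤ K)
    {T T' : ∀ c : ℕ, ((Fin c × Fin K → Bool) → ℝ) → ℝ} (hT : M.BddFunctional T) (hT' : M.BddFunctional T')
    (C : ℕ) {e : ℝ} (he : 0 ≤ e)
    (h : ∀ c < C, ∀ Y, (∀ s, exp (-M.cavBound c) ≤ Y s ∧ Y s ≤ exp (M.cavBound c)) → |T c Y - T' c Y| ≤ e) :
    |M.cavity lam T - M.cavity lam T'| ≤ 2 * e + M.tail lam C := by
  have h1 : (1 : ℝ) ≤ K := Nat.one_le_cast.2 hK
  have a := series_close M (mul_nonneg (Nat.cast_nonneg K) hlam) he C (fun c => (part_abs_le M hT c).1)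
    (fun c => (part_abs_le M hT' c).1) fun c hc => (part_diff_le M he (h c hc)).1
  have b := series_close M (mul_nonneg (sub_nonneg.2 h1) hlam) he C (fun c => (part_abs_le M hT c).2)
    (fun c => (part_abs_le M hT' c).2) fun c hc => (part_diff_le M he (h c hc)).2
  rw [cavity_eq, cavity_eq, FinModel.tail]
  rw [abs_le] at a b ⊢
  constructor <;> linarith

theorem continuous_cavity (M : FinModel K) {lam : ℝ} (hlam : 0 ≤ lam) (hK : 1 ≤ K) {X : Type*}
    [TopologicalSpace X] {T : X → ∀ c : ℕ, ((Fin c × Fin K → Bool) → ℝ) → ℝ}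
    (hT : ∀ x, M.BddFunctional (T x)) (hc : ∀ c Y, (∀ s, 0 < Y s) → Continuous fun x => T x c Y) :
    Continuous fun x => M.cavity lam (T x) := by
  have hK1 : (1 : ℝ) ≤ K := Nat.one_le_cast.2 hK
  simp only [cavity_eq]
  refine Continuous.sub ?_ ?_
  · refine continuous_tsum (fun c => continuous_const.mul ?_) (cavBound_summable M (K * lam)) fun c x => ?_
    · unfold FinModel.partU mean
      exact continuous_finsetSum _ fun d _ => continuous_const.mul (continuous_finsetSum _ fun h _ =>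
        continuous_const.mul ((continuous_finsetSum _ fun ℓ _ =>
          hc c _ fun s => (exp_pos _).trans_le (cavU_bounds M d ℓ h s).1).div_const _))
    · rw [Real.norm_eq_abs, abs_mul, abs_of_nonneg (pois_nonneg' (mul_nonneg (Nat.cast_nonneg K) hlam) c)]
      exact mul_le_mul_of_nonneg_left (part_abs_le M (hT x) c).1
        (pois_nonneg' (mul_nonneg (Nat.cast_nonneg K) hlam) c)
  · refine continuous_tsum (fun c => continuous_const.mul ?_) (cavBound_summable M ((K - 1) * lam))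
      fun c x => ?_
    · unfold FinModel.partV
      exact continuous_finsetSum _ fun d _ => continuous_const.mul
        (hc c _ fun s => (exp_pos _).trans_le (cavV_bounds M d s).1)
    · rw [Real.norm_eq_abs, abs_mul, abs_of_nonneg (pois_nonneg' (mul_nonneg (sub_nonneg.2 hK1) hlam) c)]
      exact mul_le_mul_of_nonneg_left (part_abs_le M (hT x) c).2
        (pois_nonneg' (mul_nonneg (sub_nonneg.2 hK1) hlam) c)

end Vale.Agent.P168
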