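import Vale.Agent.P168.Lower.CavRoot

/-!
# P168: clauses at one more site: away from it, at it once, and the rest
-/

open Real Finset

namespace Vale.Agent.P168

variable {K N : ℕ} (M : FinModel K)

/-- The law of a clause at the new site. -/
noncomputable def FinModel.hitW (N : ℕ) (a : M.Hit N) : ℝ :=
  M.wD a.1 / (K * Fintype.card (Fin K → Fin N))

theorem hitW_weight [NeZero N] (hK : 0 < K) : IsWeight (M.hitW N) := by
  refine ⟨fun a => div_nonneg (M.wD_nonneg _) (by positivity), ?_⟩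
  have h1 : ((K : ℝ) * Fintype.card (Fin K → Fin N)) ≠ 0 :=
    mul_ne_zero (Nat.cast_ne_zero.2 hK.ne') (Nat.cast_ne_zero.2 Fintype.card_ne_zero)
  simp only [FinModel.hitW, Fintype.sum_prod_type (α₁ := M.D), sum_const, card_univ, Fintype.card_prod, Fintype.card_fin, Nat.cast_mul, nsmul_eq_mul]
  rw [← M.wD_sum]
  exact sum_congr rfl fun d _ => mul_div_cancel₀ _ h1

/-- Arrays of clauses away from the cavity site. -/
def extraEquiv (M : FinModel K) (N c : ℕ) :
    (Fin c → M.Atom N) ≃ (Fin c → M.D) × (Fin c × Fin K → Fin N) where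
  toFun a := (fun k => (a k).1, fun q => (a q.1).2 q.2)
  invFun q := fun k => (q.1 k, fun j => q.2 (k, j))
  left_inv _ := rfl
  right_inv _ := rfl

/-- Arrays of clauses at the cavity site. -/
def hitEquiv (M : FinModel K) (N c : ℕ) :
    (Fin c → M.Hit N) ≃ (Fin c → M.D) × (Fin c → Fin K) × (Fin c × Fin K → Fin N) where
  toFun a := (fun k => (a k).1, fun k => (a k).2.1, fun q => (a q.1).2.2 q.2)
  invFun q := fun k => (q.1 k, q.2.1 k, fun j => q.2.2 (k, j))
  left_inv _ := rfl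
  right_inv _ := rfl

theorem sum_extra (c : ℕ) (F : (Fin c → M.Atom N) → ℝ) :
    ∑ a : Fin c → M.Atom N, (∏ k, M.slotW N (a k)) * F a
      = ∑ d : Fin c → M.D, (∏ k, M.wD (d k)) * mean fun i : Fin c × Fin K → Fin N =>
          F fun k => (d k, fun j => i (k, j)) := by
  rw [← (extraEquiv M N c).symm.sum_comp, Fintype.sum_prod_type]
  refine sum_congr rfl fun d _ => ?_
  simp only [mean, sum_div, mul_sum]
  refine sum_congr rfl fun i _ => ?_
  simp only [extraEquiv, Equiv.coe_fn_symm_mk, FinModel.slotW, prod_div_distrib, prod_const, card_univ,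
    Fintype.card_fun, Fintype.card_fin, Fintype.card_prod, Nat.cast_pow, ← pow_mul, mul_comm c K]
  ring

theorem sum_hit (c : ℕ) (F : (Fin c → M.Hit N) → ℝ) :
    ∑ a : Fin c → M.Hit N, (∏ k, M.hitW N (a k)) * F a
      = ∑ d : Fin c → M.D, (∏ k, M.wD (d k)) * mean fun ℓ : Fin c → Fin K =>
          mean fun i : Fin c × Fin K → Fin N => F fun k => (d k, ℓ k, fun j => i (k, j)) := by
  rw [← (hitEquiv M N c).symm.sum_comp, Fintype.sum_prod_type]
  refine sum_congr rfl fun d _ => ?_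
  rw [Fintype.sum_prod_type]
  simp only [mean, sum_div, mul_sum]
  refine sum_congr rfl fun ℓ _ => sum_congr rfl fun i _ => ?_
  simp only [hitEquiv, Equiv.coe_fn_symm_mk, FinModel.hitW, prod_div_distrib, prod_const, card_univ,
    Fintype.card_fun, Fintype.card_fin, Fintype.card_prod, Nat.cast_pow, mul_pow, ← pow_mul,
    mul_comm c K]
  ring

theorem castAtom_inj : Function.Injective (M.castAtom (N := N)) := fun a b h => by
  obtain ⟨h1, h2⟩ := Prod.mk.inj h
  exact Prod.ext h1 (funext fun j => Fin.castSucc_injective _ (congrFun h2 j))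

/-- Clauses away from the new site and clauses at it once fit into the clauses of the larger system. -/
theorem split_le [NeZero N] [DecidableEq M.D] (hK : 0 < K) {lam : ℝ} (hlam : 0 ≤ lam)
    (x : M.Atom (N + 1)) :
    pPush M.castAtom (fun a => lam * (N + 1) * ((N : ℝ) / (N + 1)) ^ K * M.slotW N a) x
      + pPush M.hitAtom (fun a => K * lam * ((N : ℝ) / (N + 1)) ^ (K - 1) * M.hitW N a) x
      ≤ lam * (N + 1) * M.slotW (N + 1) x := by
  have hN : (0 : ℝ) < N := Nat.cast_pos.2 (NeZero.pos N)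
  obtain ⟨m, rfl⟩ : ∃ m, K = m + 1 := ⟨K - 1, by omega⟩
  set v := lam * ((N : ℝ) + 1) * M.slotW (N + 1) x with hv
  have hv0 : 0 ≤ v := mul_nonneg (by positivity) ((slotW_weight M).nonneg x)
  have hA : ∀ a : M.Atom N, a.1 = x.1 →
      lam * ((N : ℝ) + 1) * ((N : ℝ) / (N + 1)) ^ (m + 1) * M.slotW N a = v := fun a ha => by
    simp only [hv, FinModel.slotW, Fintype.card_fun, Fintype.card_fin, Nat.cast_pow, Nat.cast_succ, ha,
      div_pow]
    field_simp
  have hU : ∀ a : M.Hit N, a.1 = x.1 →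
      ((m + 1 : ℕ) : ℝ) * lam * ((N : ℝ) / (N + 1)) ^ (m + 1 - 1) * M.hitW N a = v / N := fun a ha => by
    have hm : ((m : ℝ) + 1) ≠ 0 := by positivity
    simp only [hv, FinModel.hitW, FinModel.slotW, Fintype.card_fun, Fintype.card_fin, Nat.cast_pow,
      Nat.cast_succ, ha, div_pow, Nat.add_sub_cancel]
    field_simp
    ring
  by_cases hx : ∃ j, x.2 j = Fin.last N
  · obtain ⟨j₀, hj₀⟩ := hx
    have e1 : (univ.filter fun a : M.Atom N => M.castAtom a = x) = ∅ := by
      refine Finset.filter_eq_empty_iff.2 fun a _ ha => Fin.castSucc_ne_last (a.2 j₀) ?_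
      rw [← hj₀, ← ha]; rfl
    simp only [pPush, e1, sum_empty, zero_add]
    rw [sum_congr rfl fun a ha => hU a (congrArg Prod.fst (mem_filter.1 ha).2), sum_const, nsmul_eq_mul]
    have hc : (univ.filter fun a : M.Hit N => M.hitAtom a = x).card ≤ N := by
      refine (Finset.card_le_card_of_injOn (t := (univ : Finset (Fin N))) (fun a => a.2.2 a.2.1)
        (fun a _ => mem_univ _) ?_).trans (by simp)
      intro a ha b hb hab
      simp only [coe_filter, mem_univ, true_and, Set.mem_ofPred_eq] at ha hb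
      rw [← hb] at ha
      obtain ⟨h1, h2⟩ := Prod.mk.inj ha
      have hl : a.2.1 = b.2.1 := by
        by_contra hne
        have := congrFun h2 a.2.1
        simp only [if_pos, if_neg hne] at this
        exact Fin.castSucc_ne_last _ this.symm
      refine Prod.ext h1 (Prod.ext hl (funext fun j => ?_))
      by_cases hj : j = a.2.1
      · subst hj
        exact hab.trans (by rw [hl])
      · have := congrFun h2 j
        simp only [if_neg hj, if_neg (hl ▸ hj : ¬j = b.2.1)] at this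
        exact Fin.castSucc_injective _ this
    calc ((univ.filter fun a : M.Hit N => M.hitAtom a = x).card : ℝ) * (v / N)
        ≤ N * (v / N) := mul_le_mul_of_nonneg_right (Nat.cast_le.2 hc) (div_nonneg hv0 hN.le)
      _ = v := by field_simp
  · have e1 : (univ.filter fun a : M.Hit N => M.hitAtom a = x) = ∅ := by
      refine Finset.filter_eq_empty_iff.2 fun a _ ha => hx ⟨a.2.1, ?_⟩
      rw [← ha]; simp [FinModel.hitAtom]
    simp only [pPush, e1, sum_empty, add_zero]
    rw [sum_congr rfl fun a ha => hA a (congrArg Prod.fst (mem_filter.1 ha).2), sum_const, nsmul_eq_mul]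
    refine mul_le_of_le_one_left hv0 (Nat.cast_le_one.2 (Finset.card_le_one.2 fun a ha b hb => ?_))
    exact castAtom_inj M ((mem_filter.1 ha).2.trans (mem_filter.1 hb).2.symm)

theorem rate_bounds (hK : 1 ≤ K) {lam : ℝ} (hlam : 0 ≤ lam) (N : ℕ) :
    |(K : ℝ) * lam * ((N : ℝ) / (N + 1)) ^ (K - 1) - K * lam| ≤ lam * (K : ℝ) ^ 2 / (N + 1) ∧
    0 ≤ lam * N - lam * (N + 1) * ((N : ℝ) / (N + 1)) ^ K ∧
    |lam * N - lam * (N + 1) * ((N : ℝ) / (N + 1)) ^ K - (K - 1) * lam| ≤ lam * (K : ℝ) ^ 2 / (N + 1) ∧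
    lam * (N + 1) - lam * (N + 1) * ((N : ℝ) / (N + 1)) ^ K - K * lam * ((N : ℝ) / (N + 1)) ^ (K - 1)
      ≤ lam * (K : ℝ) ^ 2 / (N + 1) := by
  have h0 : (0 : ℝ) ≤ N := Nat.cast_nonneg N
  have hM : (0 : ℝ) < (N : ℝ) + 1 := by linarith
  set q := (N : ℝ) / (N + 1) with hq
  have hq0 : 0 ≤ q := div_nonneg h0 hM.le
  have hq1 : q ≤ 1 := by rw [hq, div_le_one hM]; linarith
  have eq1 : q * ((N : ℝ) + 1) = N := div_mul_cancel₀ _ hM.ne'
  have hb : ∀ m : ℕ, m ≤ K → 1 - (K : ℝ) / (N + 1) ≤ q ^ m := fun m hm => by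
    have h := one_add_mul_le_pow (show (-2 : ℝ) ≤ q - 1 by linarith) m
    rw [add_sub_cancel] at h
    refine le_trans ?_ h
    have e : q - 1 = -(1 / ((N : ℝ) + 1)) := by rw [hq]; field_simp; ring
    rw [e, mul_neg, ← sub_eq_add_neg, mul_one_div]
    exact sub_le_sub_left (div_le_div_of_nonneg_right (Nat.cast_le.2 hm) hM.le) _
  have hgeo : 1 - q ^ K = (1 - q) * ∑ j ∈ range K, q ^ j := (mul_neg_geom_sum q K).symm
  have e1q : ((N : ℝ) + 1) * (1 - q) = 1 := by rw [hq]; field_simp; ring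
  have hS : lam * ((N : ℝ) + 1) * (1 - q ^ K) = lam * ∑ j ∈ range K, q ^ j := by
    rw [hgeo, ← mul_assoc, mul_assoc lam, e1q, mul_one]
  have hSle : ∑ j ∈ range K, q ^ j ≤ K :=
    (sum_le_sum fun j _ => pow_le_one₀ hq0 hq1).trans (by simp)
  have hSge : (K : ℝ) * (1 - K / (N + 1)) ≤ ∑ j ∈ range K, q ^ j := by
    refine le_trans ?_ (sum_le_sum fun j hj => hb j (mem_range.1 hj).le)
    simp [mul_sub]
  have hp := hb (K - 1) (Nat.sub_le _ _)
  have hp1 : q ^ (K - 1) ≤ 1 := pow_le_one₀ hq0 hq1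
  have hD : (K : ℝ) ^ 2 / (N + 1) = K * ((K : ℝ) / (N + 1)) := by ring
  have hKl : 0 ≤ (K : ℝ) * lam := mul_nonneg (Nat.cast_nonneg K) hlam
  have m1 := mul_le_mul_of_nonneg_left hp hKl
  have m2 := mul_le_mul_of_nonneg_left hp1 hKl
  have m3 := mul_le_mul_of_nonneg_left hSge hlam
  have m4 := mul_le_mul_of_nonneg_left hSle hlam
  have hS1 : (1 : ℝ) ≤ ∑ j ∈ range K, q ^ j :=
    le_trans (le_of_eq (pow_zero q).symm) (single_le_sum (f := fun j => q ^ j)
      (fun j _ => pow_nonneg hq0 j) (mem_range.2 hK))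
  have m5 := mul_le_mul_of_nonneg_left hS1 hlam
  have m6 : 0 ≤ lam * (K : ℝ) ^ 2 / (N + 1) := by positivity
  rw [mul_div_assoc, hD] at m6 ⊢
  refine ⟨abs_le.2 ⟨?_, ?_⟩, ?_, abs_le.2 ⟨?_, ?_⟩, ?_⟩ <;> nlinarith

end Vale.Agent.P168
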