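import Vale.Agent.P168.Lower.Dev
import Vale.Agent.P168.Upper.Factor

/-!
# P168: forgetting labels, and comparing two product laws coordinate by coordinate
-/

open Real Finset

namespace Vale.Agent.P168

variable {L : ℕ} {Z Z' W : Type} [Fintype Z] [Fintype Z'] [Fintype W]

theorem mean_split (e : Z' ≃ Z × W) (F : Z' → ℝ) :
    mean F = mean fun z => mean fun w => F (e.symm (z, w)) := by
  simp only [mean, Fintype.card_congr e, Fintype.card_prod, Nat.cast_mul, ← sum_div, div_div]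
  rw [← e.symm.sum_comp, Fintype.sum_prod_type, mul_comm]

theorem putZ_putZ {Z : Type} (ξ : Fin L → Z) (s : ℕ) (a b : Z) : putZ (putZ ξ s a) s b = putZ ξ s b := by
  funext l; simp only [putZ]; split_ifs <;> rfl

theorem putZ_map {Z Z' : Type} (f : Z' → Z) (ξ : Fin L → Z') (s : ℕ) (a : Z') :
    (fun l => f (putZ ξ s a l)) = putZ (fun l => f (ξ l)) s (f a) := by
  funext l; simp only [putZ]; split_ifs <;> rfl

theorem vRec_proj [Nonempty Z] [Nonempty W] (G : Grid L) (e : Z' ≃ Z × W) (H' : (Fin L → Z') → ℝ)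
    (H : (Fin L → Z) → ℝ) (hL : 0 < L)
    (h : ∀ ξ : Fin L → Z', mean (fun w => exp (H' (putZ ξ (L - 1)
      (e.symm ((e (ξ ⟨L - 1, Nat.sub_lt hL one_pos⟩)).1, w))))) = exp (H fun l => (e (ξ l)).1)) :
    ∀ d, ∀ ξ : Fin L → Z', vRec G H' (d + 1) ξ = vRec G H (d + 1) fun l => (e (ξ l)).1
  | 0, ξ => by
    simp only [vRec, Nat.sub_zero, G.m_last, one_mul, div_one]
    rw [mean_split e]
    congr 1
    refine congrArg mean (funext fun z => ?_)
    have hw := h (putZ ξ (L - 1) (e.symm (z, Classical.arbitrary W)))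
    rw [putZ_map (fun a => (e a).1)] at hw
    simp only [putZ_putZ, putZ, if_true, Equiv.apply_symm_apply] at hw
    exact hw
  | d + 1, ξ => by
    rw [vRec, vRec]
    simp only [vRec_proj G e H' H hL h d, putZ_map (fun a => (e a).1)]
    rw [mean_split e]
    simp only [Equiv.apply_symm_apply, mean_const]

/-- Labels used only at the top level may be averaged out. -/
theorem vAt_proj [Nonempty Z] [Nonempty W] (G : Grid L) (e : Z' ≃ Z × W) (H' : (Fin L → Z') → ℝ)
    (H : (Fin L → Z) → ℝ) (hL : 0 < L)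
    (h : ∀ ξ : Fin L → Z', mean (fun w => exp (H' (putZ ξ (L - 1)
      (e.symm ((e (ξ ⟨L - 1, Nat.sub_lt hL one_pos⟩)).1, w))))) = exp (H fun l => (e (ξ l)).1))
    (ξ : Fin L → Z') : vAt G H' 0 ξ = vAt G H 0 fun l => (e (ξ l)).1 := by
  rw [vAt, vAt, Nat.sub_zero]
  have := vRec_proj G e H' H hL h (L - 1) ξ
  rwa [Nat.sub_add_cancel hL] at this

theorem vAt_root_eq [DecidableEq Z] [Nonempty Z] (G : Grid L) (H : (Fin L → Z) → ℝ) (ξ ξ' : Fin L → Z) :
    vAt G H 0 ξ = vAt G H 0 ξ' :=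
  vAt_congr G H 0 fun c hc => absurd hc (Nat.not_lt_zero _)

theorem vAt_add_const [DecidableEq Z] [Nonempty Z] (G : Grid L) (H : (Fin L → Z) → ℝ) (a : ℝ)
    (ξ : Fin L → Z) : vAt G (fun ζ => H ζ + a) 0 ξ = vAt G H 0 ξ + a := by
  have h1 := vRec_lip G (H := fun ζ => H ζ + a) (H' := H) (A := a) (fun ζ => le_rfl) (L - 0)
    (Nat.sub_le _ _) ξ
  have h2 := vRec_lip G (H := H) (H' := fun ζ => H ζ + a) (A := -a) (fun ζ => by simp) (L - 0)
    (Nat.sub_le _ _) ξ
  unfold vAt; linarith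

theorem vRec_top_only [Nonempty Z] (G : Grid L) (hL : 0 < L) (f : Z → ℝ) :
    ∀ d, d < L → ∀ ξ : Fin L → Z,
      vRec G (fun ζ => f (ζ ⟨L - 1, Nat.sub_lt hL one_pos⟩)) (d + 1) ξ = log (mean fun z => exp (f z))
  | 0, _, ξ => by simp [vRec, G.m_last, putZ]
  | d + 1, hd, ξ => by
    have hm : 0 < G.m (L - (d + 1)) := G.m_pos _ (by omega) (by omega)
    rw [vRec]
    simp only [vRec_top_only G hL f d (by omega), mean_const, log_exp]
    field_simp

theorem vAt_top_only [Nonempty Z] (G : Grid L) (hL : 0 < L) (f : Z → ℝ) (ξ : Fin L → Z) :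
    vAt G (fun ζ => f (ζ ⟨L - 1, Nat.sub_lt hL one_pos⟩)) 0 ξ = log (mean fun z => exp (f z)) := by
  rw [vAt, Nat.sub_zero]
  have := vRec_top_only G hL f (L - 1) (by omega) ξ
  rwa [Nat.sub_add_cancel hL] at this

/-! ### Two product laws -/

theorem wmean_equiv {α β : Type*} [Fintype α] [Fintype β] (e : β ≃ α) (w f : α → ℝ) :
    wmean (fun b => w (e b)) (fun b => f (e b)) = wmean w f :=
  e.sum_comp fun a => w a * f a

theorem mean_eq_wmean {α : Type*} [Fintype α] (f : α → ℝ) :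
    mean f = wmean (fun _ => 1 / (Fintype.card α : ℝ)) f := by
  simp only [mean, wmean, ← mul_sum, one_div]
  rw [mul_comm, div_eq_mul_inv]

theorem wmean_two {α β : Type*} [Fintype α] [Fintype β] {u : α → ℝ} {v : β → ℝ} (hv : IsWeight v)
    (e : β → α) {g : α → ℝ} {g' : β → ℝ} {δ d : ℝ}
    (h1 : |wmean u g - wmean v (fun b => g (e b))| ≤ δ) (h2 : ∀ b, |g (e b) - g' b| ≤ d) :
    |wmean u g - wmean v g'| ≤ δ + d :=
  (abs_sub_le _ _ _).trans (add_le_add h1 (wmean_lip hv h2))

theorem wmean_fin_compare :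
    ∀ (n : ℕ) (X Y : Fin n → Type) [∀ i, Fintype (X i)] [∀ i, Fintype (Y i)] (e : ∀ i, Y i → X i)
      (u : ∀ i, X i → ℝ) (v : ∀ i, Y i → ℝ) (B δ : ℝ), (∀ i, IsWeight (u i)) → (∀ i, IsWeight (v i)) →
      (∀ i (g : X i → ℝ), (∀ a a', |g a - g a'| ≤ B) → |wmean (u i) g - wmean (v i) (fun b => g (e i b))| ≤ δ) →
      ∀ (F : (∀ i, X i) → ℝ), (∀ i x x', (∀ j, j ≠ i → x j = x' j) → |F x - F x'| ≤ B) →
        |wmean (fun x : ∀ i, X i => ∏ i, u i (x i)) F
          - wmean (fun y : ∀ i, Y i => ∏ i, v i (y i)) (fun y => F fun i => e i (y i))| ≤ n * δ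
  | 0, X, Y, _, _, e, u, v, B, δ, _, _, _, F, _ => by
    have hF : ∀ a b : ∀ i, X i, F a = F b := fun a b => congrArg F (funext fun i => i.elim0)
    simp only [wmean, Fintype.sum_unique, univ_eq_empty, prod_empty, one_mul, Nat.cast_zero, zero_mul]
    rw [hF default (fun i => e i ((default : ∀ i, Y i) i)), sub_self, abs_zero]
  | n + 1, X, Y, _, _, e, u, v, B, δ, hu, hv, hc, F, hF => by
    have hX : wmean (fun x : ∀ i, X i => ∏ i, u i (x i)) F
        = wmean (u 0) fun a => wmean (fun x : ∀ i : Fin n, X i.succ => ∏ i, u i.succ (x i))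
            fun x => F (Fin.cons a x) := by
      unfold wmean
      rw [← (Fin.consEquiv X).sum_comp, Fintype.sum_prod_type]
      simp [Fin.consEquiv, Fin.prod_univ_succ, mul_sum, mul_assoc]
    have hY : wmean (fun y : ∀ i, Y i => ∏ i, v i (y i)) (fun y => F fun i => e i (y i))
        = wmean (v 0) fun b => wmean (fun y : ∀ i : Fin n, Y i.succ => ∏ i, v i.succ (y i))
            fun y => F (Fin.cons (e 0 b) fun i => e i.succ (y i)) := by
      unfold wmean
      rw [← (Fin.consEquiv Y).sum_comp, Fintype.sum_prod_type]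
      refine sum_congr rfl fun b _ => ?_
      rw [mul_sum]
      refine sum_congr rfl fun y _ => ?_
      have he : (fun i => e i ((Fin.consEquiv Y) (b, y) i)) = Fin.cons (e 0 b) fun i => e i.succ (y i) :=
        funext fun i => by induction i using Fin.cases <;> simp [Fin.consEquiv]
      dsimp only
      rw [he]
      simp [Fin.consEquiv, Fin.prod_univ_succ, mul_assoc]
    rw [hX, hY]
    have hw : IsWeight fun x : ∀ i : Fin n, X i.succ => ∏ i, u i.succ (x i) :=
      IsWeight.piProd fun i => hu i.succ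
    refine (wmean_two (hv 0) (e 0) (hc 0 _ fun a a' => wmean_lip hw fun x => ?_) (d := n * δ)
      fun b => ?_).trans (le_of_eq (by push_cast; ring))
    · refine hF 0 _ _ fun j hj => ?_
      induction j using Fin.cases with
      | zero => exact absurd rfl hj
      | succ k => simp
    · refine wmean_fin_compare n _ _ (fun i => e i.succ) _ _ B δ (fun i => hu i.succ) (fun i => hv i.succ)
        (fun i => hc i.succ) (fun x => F (Fin.cons (e 0 b) x)) fun i x x' hx => hF i.succ _ _ fun j hj => ?_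
      induction j using Fin.cases with
      | zero => rfl
      | succ k => simpa using hx k fun hk => hj (congrArg Fin.succ hk)

theorem wmean_pi_compare {ι : Type} [Fintype ι] [DecidableEq ι] {X Y : ι → Type} [∀ i, Fintype (X i)]
    [∀ i, Fintype (Y i)] (e : ∀ i, Y i → X i) (u : ∀ i, X i → ℝ) (v : ∀ i, Y i → ℝ) {B δ : ℝ}
    (hu : ∀ i, IsWeight (u i)) (hv : ∀ i, IsWeight (v i))
    (hc : ∀ i (g : X i → ℝ), (∀ a a', |g a - g a'| ≤ B) →
      |wmean (u i) g - wmean (v i) (fun b => g (e i b))| ≤ δ)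
    (F : (∀ i, X i) → ℝ) (hF : ∀ i x x', (∀ j, j ≠ i → x j = x' j) → |F x - F x'| ≤ B) :
    |wmean (fun x : ∀ i, X i => ∏ i, u i (x i)) F
      - wmean (fun y : ∀ i, Y i => ∏ i, v i (y i)) (fun y => F fun i => e i (y i))|
      ≤ Fintype.card ι * δ := by
  set φ := (Fintype.equivFin ι).symm
  rw [← wmean_equiv (Equiv.piCongrLeft X φ), ← wmean_equiv (Equiv.piCongrLeft Y φ)]
  refine le_trans (le_of_eq ?_) (wmean_fin_compare _ (fun i => X (φ i)) (fun i => Y (φ i))
    (fun i => e (φ i)) (fun i => u (φ i)) (fun i => v (φ i)) B δ (fun i => hu _) (fun i => hv _)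
    (fun i => hc _) (fun y => F (Equiv.piCongrLeft X φ y)) fun i x x' hx => hF (φ i) _ _ fun j hj => ?_)
  · have hu' : (fun b => ∏ i, u i (Equiv.piCongrLeft X φ b i)) = fun b => ∏ i, u (φ i) (b i) :=
      funext fun b => by rw [← φ.prod_comp]; simp
    have hv' : (fun b => ∏ i, v i (Equiv.piCongrLeft Y φ b i)) = fun b => ∏ i, v (φ i) (b i) :=
      funext fun b => by rw [← φ.prod_comp]; simp
    have he : ∀ y, (fun i => e i (Equiv.piCongrLeft Y φ y i))
        = Equiv.piCongrLeft X φ (fun i => e (φ i) (y i)) := fun y => funext fun i => by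
      obtain ⟨i, rfl⟩ := φ.surjective i; simp
    simp only [hu', hv', he]
  · obtain ⟨j, rfl⟩ := φ.surjective j
    simpa using hx j fun hk => hj (congrArg φ hk)

end Vale.Agent.P168
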