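import Vale.Agent.P168.Lower.Poisson
import Vale.Agent.P168.Lower.Proj

/-!
# P168: the root value at size `N` and its comparisons
-/

open Real Finset

namespace Vale.Agent.P168

variable {K L P N : ℕ}

/-! ### Averages -/

theorem wmean_comm {α β : Type*} [Fintype α] [Fintype β] (u : α → ℝ) (v : β → ℝ) (F : α → β → ℝ) :
    wmean u (fun a => wmean v (F a)) = wmean v fun b => wmean u fun a => F a b := by
  simp only [wmean, mul_sum]
  rw [sum_comm]
  exact sum_congr rfl fun b _ => sum_congr rfl fun a _ => by ring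

theorem wmean_add {α : Type*} [Fintype α] (u f g : α → ℝ) :
    wmean u (fun a => f a + g a) = wmean u f + wmean u g := by
  simp only [wmean, mul_add, sum_add_distrib]

theorem wmean_sub {α : Type*} [Fintype α] (u f g : α → ℝ) :
    wmean u (fun a => f a - g a) = wmean u f - wmean u g := by
  simp only [wmean, mul_sub, sum_sub_distrib]

theorem wmean_const {α : Type*} [Fintype α] {u : α → ℝ} (hu : IsWeight u) (r : ℝ) :
    wmean u (fun _ => r) = r := by
  rw [wmean, ← sum_mul, hu.sum, one_mul]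

theorem wmean_abs {α : Type*} [Fintype α] {u f : α → ℝ} (hu : IsWeight u) {A : ℝ} (h : ∀ a, |f a| ≤ A) :
    |wmean u f| ≤ A := by
  have := wmean_lip hu (f := f) (g := fun _ => 0) (B := A) fun a => by simpa using h a
  rwa [wmean_const hu, sub_zero] at this

/-! ### The root value -/

/-- A clause with its sites. -/
abbrev FinModel.Atom (M : FinModel K) (N : ℕ) : Type := M.D × (Fin K → Fin N)

/-- The labels of all terms at one level. -/
abbrev TermLab (τ : Fin P → Kind L) (s : ℕ) : Type := ∀ p, Fin s → (τ p).Lab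

/-- The root data of all terms. -/
abbrev TermRoot (τ : Fin P → Kind L) (N s : ℕ) : Type := ∀ p, Fin s → (τ p).Root N

/-- The energy of the clauses and the fields. -/
noncomputable def FinModel.confH (M : FinModel K) (ms : Multiset (M.Atom N)) (g : Fin N → M.Hh)
    (σ : Fin N → Bool) : ℝ :=
  (ms.map fun a => M.th a.1 fun j => σ (a.2 j)).sum + ∑ v, M.hv (g v) * spin (σ v)

/-- The energy of the terms. -/
noncomputable def termsH (τ : Fin P → Kind L) {s : ℕ} (t : Fin P → ℝ) (r : TermRoot τ N s)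
    (σ : Fin N → Bool) (lab : Fin L → TermLab τ s) : ℝ :=
  ∑ p, ∑ c : Fin s, (τ p).term (t p) (r p c) (fun l => lab l p c) σ

variable (M : FinModel K) (G : Grid L) (hL : 0 < L) (τ : Fin P → Kind L)

/-- The whole potential. -/
noncomputable def FinModel.pertV {s : ℕ} (t : Fin P → ℝ) (ms : Multiset (M.Atom N)) (g : Fin N → M.Hh)
    (r : TermRoot τ N s) (ξ : Fin L → (Fin N → Bool) × TermLab τ s) : ℝ :=
  M.confH ms g (ξ ⟨L - 1, Nat.sub_lt hL one_pos⟩).1
    + termsH τ t r (ξ ⟨L - 1, Nat.sub_lt hL one_pos⟩).1 fun l => (ξ l).2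

/-- The root value for given root data. -/
noncomputable def FinModel.rootVal {s : ℕ} (t : Fin P → ℝ) (ms : Multiset (M.Atom N)) (g : Fin N → M.Hh)
    (r : TermRoot τ N s) : ℝ :=
  vAt G (M.pertV hL τ t ms g r) 0 fun _ => Classical.arbitrary ((Fin N → Bool) × TermLab τ s)

/-- The law of the fields. -/
noncomputable def FinModel.fldW (g : Fin N → M.Hh) : ℝ := ∏ v, M.wH (g v)

/-- The root value averaged over fields and terms. -/
noncomputable def FinModel.avgVal (s : ℕ) (t : Fin P → ℝ) (ms : Multiset (M.Atom N)) : ℝ :=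
  wmean M.fldW fun g => wmean (rootW τ N fun _ => s) fun r => M.rootVal G hL τ t ms g r

/-- The increase of the root value when `Y` multiplies the weight. -/
noncomputable def FinModel.gainRoot {s : ℕ} (t : Fin P → ℝ) (ms : Multiset (M.Atom N)) (g : Fin N → M.Hh)
    (r : TermRoot τ N s) {ι : Type} (i : ι → Fin N) (Y : (ι → Bool) → ℝ) : ℝ :=
  vAt G (fun ξ => M.pertV hL τ t ms g r ξ + log (Y fun a => (ξ ⟨L - 1, Nat.sub_lt hL one_pos⟩).1 (i a))) 0
      (fun _ => Classical.arbitrary ((Fin N → Bool) × TermLab τ s))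
    - M.rootVal G hL τ t ms g r

/-- The averaged increase. -/
noncomputable def FinModel.gainAt (s : ℕ) (t : Fin P → ℝ) (ms : Multiset (M.Atom N)) {ι : Type} [Fintype ι]
    [DecidableEq ι] (Y : (ι → Bool) → ℝ) : ℝ :=
  wmean M.fldW fun g => wmean (rootW τ N fun _ => s) fun r =>
    mean fun i : ι → Fin N => M.gainRoot G hL τ t ms g r i Y

theorem fldW_weight : IsWeight (M.fldW (N := N)) := IsWeight.piProd fun _ => ⟨M.wH_nonneg, M.wH_sum⟩

theorem rootVal_diff {s : ℕ} {t t' : Fin P → ℝ} {ms ms' : Multiset (M.Atom N)} {g g' : Fin N → M.Hh}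
    {r r' : TermRoot τ N s} {A : ℝ}
    (h : ∀ σ lab, |(M.confH ms g σ + termsH τ t r σ lab) - (M.confH ms' g' σ + termsH τ t' r' σ lab)| ≤ A) :
    |M.rootVal G hL τ t ms g r - M.rootVal G hL τ t' ms' g' r'| ≤ A :=
  vAt_sub_abs G (fun _ => h _ _) 0 _

theorem avgVal_lip [NeZero N] (s : ℕ) (t : Fin P → ℝ) :
    PLip (M.avgVal G hL τ s t (N := N)) M.tabBound := fun a ms => by
  refine wmean_lip (fldW_weight M) fun g => wmean_lip (rootW_weight τ _) fun r => ?_
  refine rootVal_diff M G hL τ fun σ lab => ?_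
  simp only [FinModel.confH, Multiset.map_cons, Multiset.sum_cons]
  ring_nf
  exact abs_th_le M _ _

theorem gainRoot_abs {s : ℕ} (t : Fin P → ℝ) (ms : Multiset (M.Atom N)) (g : Fin N → M.Hh)
    (r : TermRoot τ N s) {ι : Type} (i : ι → Fin N) {Y : (ι → Bool) → ℝ} {A : ℝ}
    (hY : ∀ x, |log (Y x)| ≤ A) : |M.gainRoot G hL τ t ms g r i Y| ≤ A :=
  vAt_sub_abs G (fun ξ => by rw [add_sub_cancel_left]; exact hY _) 0 _

theorem gainAt_abs [NeZero N] (s : ℕ) (t : Fin P → ℝ) (ms : Multiset (M.Atom N)) {ι : Type} [Fintype ι]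
    [DecidableEq ι] {Y : (ι → Bool) → ℝ} {A : ℝ} (hA : 0 ≤ A) (hY : ∀ x, |log (Y x)| ≤ A) :
    |M.gainAt G hL τ s t ms Y| ≤ A :=
  wmean_abs (fldW_weight M) fun g => wmean_abs (rootW_weight τ _) fun r =>
    mean_abs_le hA fun i => gainRoot_abs M G hL τ t ms g r i hY

/-! ### Changing the parameters of the terms -/

theorem avgVal_time [NeZero N] (hτ : ∀ p, |(τ p).u| * (τ p).n ≤ 1 / 2) (s : ℕ) (t t' : Fin P → ℝ)
    (ms : Multiset (M.Atom N)) :
    |M.avgVal G hL τ s t ms - M.avgVal G hL τ s t' ms| ≤ 2 * s * ∑ p, |t p - t' p| := by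
  refine wmean_lip (fldW_weight M) fun g => wmean_lip (rootW_weight τ _) fun r =>
    rootVal_diff M G hL τ fun σ lab => ?_
  rw [add_sub_add_left_eq_sub, termsH, termsH, ← sum_sub_distrib, mul_sum]
  refine (abs_sum_le_sum_abs _ _).trans (sum_le_sum fun p _ => ?_)
  rw [← sum_sub_distrib]
  refine (abs_sum_le_sum_abs _ _).trans ((sum_le_sum fun c _ => ?_).trans
    (le_of_eq (show ∑ _c : Fin s, 2 * |t p - t' p| = 2 * (s : ℝ) * |t p - t' p| by
      rw [sum_const, card_univ, Fintype.card_fin, nsmul_eq_mul]; ring)))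
  rw [Kind.term, Kind.term, add_sub_add_left_eq_sub, ← sub_mul, abs_mul, mul_comm 2]
  exact mul_le_mul_of_nonneg_left (abs_energy_le (hτ p) _ _ _) (abs_nonneg _)

/-- Splitting off the last `d` coordinates of each kind. -/
def tailEquiv (X : Fin P → Type) (s d : ℕ) :
    (∀ p, Fin (s + d) → X p) ≃ (∀ p, Fin s → X p) × (∀ p, Fin d → X p) where
  toFun f := (fun p c => f p (Fin.castAdd d c), fun p c => f p (Fin.natAdd s c))
  invFun q := fun p => Fin.append (q.1 p) (q.2 p)
  left_inv f := by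
    funext p c
    refine Fin.addCases (fun a => ?_) (fun a => ?_) c <;> simp
  right_inv q := by
    refine Prod.ext ?_ ?_ <;> funext p c <;> simp

/-- Configurations with labels, splitting off the last labels. -/
def confEquiv (τ : Fin P → Kind L) (N s d : ℕ) :
    (Fin N → Bool) × TermLab τ (s + d) ≃ ((Fin N → Bool) × TermLab τ s) × TermLab τ d :=
  (Equiv.prodCongr (Equiv.refl _) (tailEquiv (fun p => (τ p).Lab) s d)).trans (Equiv.prodAssoc _ _ _).symm

theorem rootVal_counts [NeZero N] (hτ : ∀ p, |(τ p).u| * (τ p).n ≤ 1 / 2) {t : Fin P → ℝ}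
    (ht : ∀ p, |t p| ≤ 2) (s d : ℕ) (ms : Multiset (M.Atom N)) (g : Fin N → M.Hh)
    (r : TermRoot τ N (s + d)) :
    |M.rootVal G hL τ t ms g r - M.rootVal G hL τ t ms g (tailEquiv _ s d r).1| ≤ 5 * (P * d) := by
  set H' : (Fin L → (Fin N → Bool) × TermLab τ (s + d)) → ℝ :=
    fun ξ => M.pertV hL τ t ms g (tailEquiv _ s d r).1 fun l => (confEquiv τ N s d (ξ l)).1 with hH'
  have e1 : vAt G H' 0 (fun _ => Classical.arbitrary _) = M.rootVal G hL τ t ms g (tailEquiv _ s d r).1 := by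
    rw [vAt_proj G (confEquiv τ N s d) H' (M.pertV hL τ t ms g (tailEquiv _ s d r).1) hL fun ξ => ?_]
    · exact vAt_root_eq _ _ _ _
    · have key : ∀ w, (fun l => (confEquiv τ N s d (putZ ξ (L - 1) ((confEquiv τ N s d).symm
          ((confEquiv τ N s d (ξ ⟨L - 1, Nat.sub_lt hL one_pos⟩)).1, w)) l)).1)
          = fun l => (confEquiv τ N s d (ξ l)).1 := fun w => funext fun l => by
        by_cases hl : (l : ℕ) = L - 1
        · rw [show l = ⟨L - 1, Nat.sub_lt hL one_pos⟩ from Fin.ext hl]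
          simp [putZ]
        · simp [putZ, hl]
      simp only [hH', key, mean_const]
  rw [← e1]
  refine vAt_sub_abs G (fun ξ => ?_) 0 _
  simp only [hH', FinModel.pertV, confEquiv, tailEquiv, Equiv.trans_apply, Equiv.prodCongr_apply,
    Prod.map, Equiv.refl_apply, Equiv.coe_fn_mk, Equiv.prodAssoc_symm_apply, add_sub_add_left_eq_sub,
    termsH, ← sum_sub_distrib]
  refine (abs_sum_le_sum_abs _ _).trans ((sum_le_sum (g := fun _ : Fin P => 5 * (d : ℝ)) fun p _ => ?_).trans
    (le_of_eq (by rw [sum_const, card_univ, Fintype.card_fin, nsmul_eq_mul]; ring)))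
  rw [Fin.sum_univ_add, add_sub_cancel_left]
  refine (abs_sum_le_sum_abs _ _).trans ((sum_le_sum fun c _ => abs_term_le (hτ p) (ht p) _ _ _).trans
    (le_of_eq (by rw [sum_const, card_univ, Fintype.card_fin, nsmul_eq_mul]; ring)))

theorem avgVal_counts [NeZero N] (hτ : ∀ p, |(τ p).u| * (τ p).n ≤ 1 / 2) {t : Fin P → ℝ}
    (ht : ∀ p, |t p| ≤ 2) (s d : ℕ) (ms : Multiset (M.Atom N)) :
    |M.avgVal G hL τ (s + d) t ms - M.avgVal G hL τ s t ms| ≤ 5 * (P * d) := by
  refine wmean_lip (fldW_weight M) fun g => ?_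
  have e : ∀ (s : ℕ) (F : TermRoot τ N s → ℝ), wmean (rootW τ N fun _ => s) F = mean F := fun s F => by
    rw [mean_eq_wmean, show rootW τ N (fun _ => s) = _ from funext (rootW_eq τ N _)]
  have e2 : mean (fun r : TermRoot τ N s => M.rootVal G hL τ t ms g r)
      = mean fun r : TermRoot τ N (s + d) => M.rootVal G hL τ t ms g (tailEquiv _ s d r).1 := by
    rw [mean_split (tailEquiv (fun p => (τ p).Root N) s d)]
    simp only [Equiv.apply_symm_apply, mean_const]
  rw [e, e, e2]
  exact mean_diff_le (by positivity) fun r => rootVal_counts M G hL τ hτ ht s d ms g r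

/-! ### Changing the sites of the terms -/

/-- A root datum seen among one more site. -/
def rootUp {τ : Kind L} (r : τ.Root N) : τ.Root (N + 1) := (r.1.castSucc, r.2)

theorem site_compare [NeZero N] (k : Kind L) (f : k.Root (N + 1) → ℝ) {B : ℝ}
    (h : ∀ a a', |f a - f a'| ≤ B) :
    |wmean (fun _ => 1 / (Fintype.card (k.Root (N + 1)) : ℝ)) f
      - wmean (fun _ => 1 / (Fintype.card (k.Root N) : ℝ)) (fun b => f (rootUp b))| ≤ B / (N + 1) := by
  have hN : (0 : ℝ) < N := Nat.cast_pos.2 (NeZero.pos N)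
  have e : mean f - mean (fun b => f (rootUp b))
      = mean (fun q : k.Root N => f (Fin.last N, q.2) - f (rootUp q)) / (N + 1) := by
    simp only [mean, Fintype.card_prod, Fintype.card_fin, Nat.cast_mul, Nat.cast_succ,
      Fintype.sum_prod_type, Fin.sum_univ_castSucc, sum_sub_distrib, rootUp]
    simp only [sum_const, card_univ, Fintype.card_fin, nsmul_eq_mul]
    field_simp
    ring
  rw [← mean_eq_wmean, ← mean_eq_wmean, e, abs_div, abs_of_pos (show (0 : ℝ) < N + 1 by linarith)]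
  refine div_le_div_of_nonneg_right (mean_abs_le ?_ fun q => h _ _) (by linarith)
  exact (abs_nonneg _).trans (h (Classical.arbitrary _) (Classical.arbitrary _))

theorem roots_compare [NeZero N] (s : ℕ) (F : TermRoot τ (N + 1) s → ℝ) {B : ℝ}
    (hF : ∀ p (a : Fin s) r r', (∀ p' (a' : Fin s), (p', a') ≠ (p, a) → r p' a' = r' p' a') →
      |F r - F r'| ≤ B) :
    |wmean (rootW τ (N + 1) fun _ => s) F
      - wmean (rootW τ N fun _ => s) (fun r => F fun p c => rootUp (r p c))|
      ≤ P * s * (B / (N + 1)) := by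
  let eX : (∀ q : (Σ _ : Fin P, Fin s), (τ q.1).Root (N + 1)) ≃ TermRoot τ (N + 1) s :=
    Equiv.piCurry fun p (_ : Fin s) => (τ p).Root (N + 1)
  let eY : (∀ q : (Σ _ : Fin P, Fin s), (τ q.1).Root N) ≃ TermRoot τ N s :=
    Equiv.piCurry fun p (_ : Fin s) => (τ p).Root N
  have key := wmean_pi_compare (X := fun q : (Σ _ : Fin P, Fin s) => (τ q.1).Root (N + 1))
    (Y := fun q : (Σ _ : Fin P, Fin s) => (τ q.1).Root N) (fun q => rootUp)
    (fun q _ => 1 / (Fintype.card ((τ q.1).Root (N + 1)) : ℝ))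
    (fun q _ => 1 / (Fintype.card ((τ q.1).Root N) : ℝ)) (B := B) (δ := B / (N + 1))
    (fun q => IsWeight.uniform) (fun q => IsWeight.uniform) (fun q f hf => site_compare _ f hf)
    (fun x => F (eX x)) (fun q x x' hx => hF q.1 q.2 _ _ fun p' a' hne => hx ⟨p', a'⟩ fun h => hne (by
      obtain ⟨p, a⟩ := q
      obtain ⟨rfl, h'⟩ := Sigma.mk.inj_iff.1 h
      rw [eq_of_heq h']))
  rw [← wmean_equiv eX (rootW τ (N + 1) fun _ => s), ← wmean_equiv eY (rootW τ N fun _ => s)]
  refine le_trans (le_of_eq ?_) (key.trans (le_of_eq ?_))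
  · rfl
  · simp [Fintype.card_sigma]

theorem rootVal_diff_one (hτ : ∀ p, |(τ p).u| * (τ p).n ≤ 1 / 2) {t : Fin P → ℝ} (ht : ∀ p, |t p| ≤ 2)
    (s : ℕ) (ms : Multiset (M.Atom N)) (g : Fin N → M.Hh) (p : Fin P) (c : Fin s) (r r' : TermRoot τ N s)
    (hr : ∀ p' (a' : Fin s), (p', a') ≠ (p, c) → r p' a' = r' p' a') :
    |M.rootVal G hL τ t ms g r - M.rootVal G hL τ t ms g r'| ≤ 10 := by
  refine rootVal_diff M G hL τ fun σ lab => ?_
  rw [add_sub_add_left_eq_sub, termsH, termsH]
  refine sum_diff_one p (fun p' hp => sum_congr rfl fun a _ => ?_) (sum_diff_one c (fun a ha => ?_) ?_)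
  · rw [hr p' a fun h => hp (congrArg Prod.fst h)]
  · rw [hr p a fun h => ha (congrArg Prod.snd h)]
  · exact (abs_sub _ _).trans ((add_le_add (abs_term_le (hτ _) (ht _) _ _ _)
      (abs_term_le (hτ _) (ht _) _ _ _)).trans (le_of_eq (by norm_num)))

/-! ### The cavity site -/

/-- Configurations on one more site. -/
def siteEquiv (τ : Fin P → Kind L) (N s : ℕ) :
    (Fin (N + 1) → Bool) × TermLab τ s ≃ ((Fin N → Bool) × TermLab τ s) × Bool where
  toFun q := ((fun v => q.1 v.castSucc, q.2), q.1 (Fin.last N))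
  invFun q := (Fin.snoc q.1.1 q.2, q.1.2)
  left_inv q := by
    refine Prod.ext (funext fun v => ?_) rfl
    induction v using Fin.lastCases <;> simp
  right_inv q := by
    refine Prod.ext (Prod.ext (funext fun v => ?_) rfl) ?_ <;> simp

/-- A clause not at the new site. -/
def FinModel.castAtom (a : M.Atom N) : M.Atom (N + 1) := (a.1, fun j => (a.2 j).castSucc)

/-- The data of a clause at the new site. -/
abbrev FinModel.Hit (N : ℕ) : Type := M.D × Fin K × (Fin K → Fin N)

/-- A clause at the new site. -/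
def FinModel.hitAtom (a : M.Hit N) : M.Atom (N + 1) :=
  (a.1, fun j => if j = a.2.1 then Fin.last N else (a.2.2 j).castSucc)

theorem map_univ_sum {α : Type*} {c : ℕ} (a : Fin c → α) (f : α → ℝ) :
    ((univ.val.map a).map f).sum = ∑ k, f (a k) := by
  rw [Multiset.map_map]; rfl

theorem term_up {k : Kind L} (t : ℝ) (r : k.Root N) (lab : Fin L → k.Lab) (σ : Fin (N + 1) → Bool) :
    k.term t (rootUp r) lab σ = k.term t r lab fun v => σ v.castSucc := rfl

theorem confH_hit (ms : Multiset (M.Atom N)) {c : ℕ} (d : Fin c → M.D) (ℓ : Fin c → Fin K)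
    (i : Fin c × Fin K → Fin N) (g : Fin N → M.Hh) (h : M.Hh) (σ : Fin (N + 1) → Bool) :
    M.confH (univ.val.map (fun k => M.hitAtom (d k, ℓ k, fun j => i (k, j))) + ms.map M.castAtom)
      (Fin.snoc g h) σ
    = M.confH ms g (fun v => σ v.castSucc) + (M.hv h * spin (σ (Fin.last N))
        + ∑ k, M.th (d k) fun j => if j = ℓ k then σ (Fin.last N) else σ (i (k, j)).castSucc) := by
  simp only [FinModel.confH, Multiset.map_add, Multiset.sum_add, Finset.sum_map_val, Multiset.map_map,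
    Function.comp_def, FinModel.castAtom, FinModel.hitAtom, Fin.sum_univ_castSucc, Fin.snoc_castSucc,
    Fin.snoc_last, apply_ite σ]
  ring

theorem termsH_up {s : ℕ} (t : Fin P → ℝ) (r : TermRoot τ N s) (σ : Fin (N + 1) → Bool)
    (lab : Fin L → TermLab τ s) :
    termsH τ t (fun p a => rootUp (r p a)) σ lab = termsH τ t r (fun v => σ v.castSucc) lab := rfl

theorem pertV_hit {s : ℕ} (t : Fin P → ℝ) (ms : Multiset (M.Atom N)) {c : ℕ} (d : Fin c → M.D)
    (ℓ : Fin c → Fin K) (i : Fin c × Fin K → Fin N) (g : Fin N → M.Hh) (h : M.Hh) (r : TermRoot τ N s)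
    (η : Fin L → (Fin (N + 1) → Bool) × TermLab τ s) :
    M.pertV hL τ t (univ.val.map (fun k => M.hitAtom (d k, ℓ k, fun j => i (k, j))) + ms.map M.castAtom)
      (Fin.snoc g h) (fun p a => rootUp (r p a)) η
    = M.pertV hL τ t ms g r (fun l => (siteEquiv τ N s (η l)).1)
      + (M.hv h * spin ((η ⟨L - 1, Nat.sub_lt hL one_pos⟩).1 (Fin.last N))
        + ∑ k, M.th (d k) fun j => if j = ℓ k then (η ⟨L - 1, Nat.sub_lt hL one_pos⟩).1 (Fin.last N)
            else (η ⟨L - 1, Nat.sub_lt hL one_pos⟩).1 (i (k, j)).castSucc) := by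
  rw [FinModel.pertV, FinModel.pertV, confH_hit, termsH_up]
  simp only [siteEquiv, Equiv.coe_fn_mk]
  ring

theorem rootVal_hit {s : ℕ} (t : Fin P → ℝ) (ms : Multiset (M.Atom N)) {c : ℕ} (d : Fin c → M.D)
    (ℓ : Fin c → Fin K) (i : Fin c × Fin K → Fin N) (g : Fin N → M.Hh) (h : M.Hh) (r : TermRoot τ N s) :
    M.rootVal G hL τ t
      (univ.val.map (fun k => M.hitAtom (d k, ℓ k, fun j => i (k, j))) + ms.map M.castAtom)
      (Fin.snoc g h) (fun p a => rootUp (r p a))
    = M.rootVal G hL τ t ms g r + M.gainRoot G hL τ t ms g r i (M.cavU d ℓ h) - log 2 := by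
  set top : Fin L := ⟨L - 1, Nat.sub_lt hL one_pos⟩
  let H₂ : (Fin L → (Fin N → Bool) × TermLab τ s) → ℝ := fun ξ =>
    M.pertV hL τ t ms g r ξ + log (M.cavU d ℓ h fun a => (ξ top).1 (i a)) + -log 2
  have e2 : ∀ ξ, vAt G H₂ 0 ξ = vAt G (fun ξ => M.pertV hL τ t ms g r ξ
      + log (M.cavU d ℓ h fun a => (ξ top).1 (i a))) 0 ξ + -log 2 := fun ξ => vAt_add_const G _ _ ξ
  rw [FinModel.gainRoot, add_sub_cancel, sub_eq_add_neg, ← e2]
  rw [FinModel.rootVal, vAt_proj G (siteEquiv τ N s) _ H₂ hL fun ξ => ?_]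
  · exact vAt_root_eq _ _ _ _
  set v := siteEquiv τ N s (ξ top) with hv
  have hη : ∀ e : Bool, (fun l => (siteEquiv τ N s (putZ ξ (L - 1)
      ((siteEquiv τ N s).symm (v.1, e)) l)).1) = fun l => (siteEquiv τ N s (ξ l)).1 := fun e => funext fun l => by
    by_cases hl : (l : ℕ) = L - 1
    · rw [show l = top from Fin.ext hl]; simp [putZ, top, hv]
    · simp [putZ, hl]
  simp only [pertV_hit, hη, H₂, exp_add, exp_neg,
    exp_log (two_pos : (0 : ℝ) < 2)]
  rw [exp_log ((exp_pos _).trans_le (cavU_bounds M d ℓ h _).1)]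
  simp only [FinModel.cavU, mean, Fintype.card_bool, Nat.cast_ofNat, exp_sum, mul_sum, hv]
  rw [div_eq_mul_inv, sum_mul, sum_mul]
  refine sum_congr rfl fun e _ => ?_
  simp [putZ, siteEquiv, top]

theorem rootVal_extra {s : ℕ} (t : Fin P → ℝ) (ms : Multiset (M.Atom N)) {c : ℕ} (d : Fin c → M.D)
    (i : Fin c × Fin K → Fin N) (g : Fin N → M.Hh) (r : TermRoot τ N s) :
    M.rootVal G hL τ t (univ.val.map (fun k => (d k, fun j => i (k, j))) + ms) g r
      = M.rootVal G hL τ t ms g r + M.gainRoot G hL τ t ms g r i (M.cavV d) := by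
  rw [FinModel.gainRoot, add_sub_cancel, FinModel.rootVal]
  congr 1
  funext ξ
  simp only [FinModel.pertV, FinModel.confH, Multiset.map_add, Multiset.sum_add, map_univ_sum,
    FinModel.cavV, log_exp]
  ring

end Vale.Agent.P168
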