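import Vale.Agent.P168.Lower.AsmAverage

/-!
# P168: assembly of the lower bound
-/

open Real Finset MeasureTheory Filter Topology

namespace Vale.Agent.P168

variable {K L N : ℕ}

theorem measurable_mix {ι : Type} [Fintype ι] [DecidableEq ι] (Y : (ι → Bool) → ℝ) :
    Measurable fun z : ι → ℝ => log (∑ s, Y s * ∏ a, msgW (z a) (s a)) := by
  refine measurable_log.comp (Finset.measurable_sum _ fun s _ => ?_)
  refine measurable_const.mul (Finset.measurable_prod _ fun a _ => ?_)
  unfold msgW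
  exact ((measurable_const.add ((measurable_pi_apply a).mul measurable_const)).div_const _)

theorem gain_bdd (B : Sys L N) (G : Grid L) (M : FinModel K) :
    M.BddFunctional fun _ Y => B.gain G Y := fun c Y hY => by
  refine gain_abs_le B G (cavBound_nonneg M c) fun s => ?_
  have hpos : 0 < Y s := (exp_pos _).trans_le (hY s).1
  rw [abs_le]
  exact ⟨(le_log_iff_exp_le hpos).2 (hY s).1, (log_le_iff_le_exp hpos).2 (hY s).2⟩

theorem uniformGrid_mem {L : ℕ} (hL : 0 < L) (p : Fin (L - 1)) :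
    (uniformGrid L hL).m (p.1 + 1) ∈ Set.Ioo (0 : ℝ) 1 := by
  have hp := p.2
  show ((p.1 + 1 : ℕ) : ℝ) / L ∈ Set.Ioo (0 : ℝ) 1
  exact ⟨div_pos (Nat.cast_pos.2 p.1.succ_pos) (Nat.cast_pos.2 hL),
    (div_lt_one (Nat.cast_pos.2 hL)).2 (Nat.cast_lt.2 (by omega))⟩

theorem uniformGrid_strictMono {L : ℕ} (hL : 0 < L) :
    StrictMono fun p : Fin (L - 1) => (uniformGrid L hL).m (p.1 + 1) := fun p q h => by
  show ((p.1 + 1 : ℕ) : ℝ) / L < ((q.1 + 1 : ℕ) : ℝ) / L
  exact div_lt_div_of_pos_right (Nat.cast_lt.2 (Nat.succ_lt_succ h)) (Nat.cast_pos.2 hL)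

theorem sum_max_bound (B : Sys L N) (G : Grid L) {D : ℕ} {δ : ℝ} (hδ : 0 < δ) {ι : Type} [Fintype ι]
    [DecidableEq ι] {Y : (ι → Bool) → ℝ} {A ε : ℝ} (hA : 0 ≤ A) (hε : 0 ≤ ε)
    (h : (∀ d ≤ D, B.seqDev G d ≤ δ) → |B.gain G Y - B.trialGain G Y| ≤ ε)
    (h1 : |B.gain G Y| ≤ A) (h2 : |B.trialGain G Y| ≤ A) :
    |B.gain G Y - B.trialGain G Y| ≤ ε + 2 * A / δ * ∑ d ∈ range (D + 1), max 0 (B.seqDev G d) := by
  have hS : 0 ≤ ∑ d ∈ range (D + 1), max 0 (B.seqDev G d) := sum_nonneg fun _ _ => le_max_left _ _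
  by_cases hall : ∀ d ≤ D, B.seqDev G d ≤ δ
  · exact (h hall).trans (le_add_of_nonneg_right (mul_nonneg (by positivity) hS))
  · push Not at hall
    obtain ⟨d, hd, hlt⟩ := hall
    have hge : δ ≤ ∑ d ∈ range (D + 1), max 0 (B.seqDev G d) :=
      (hlt.le.trans (le_max_right _ _)).trans
        (single_le_sum (f := fun d => max 0 (B.seqDev G d)) (fun _ _ => le_max_left _ _)
          (mem_range.2 (Nat.lt_succ_of_le hd)))
    have h3 : 2 * A ≤ 2 * A / δ * ∑ d ∈ range (D + 1), max 0 (B.seqDev G d) := by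
      rw [div_mul_eq_mul_div, le_div_iff₀ hδ]
      exact mul_le_mul_of_nonneg_left hge (by positivity)
    have := (abs_sub _ _).trans (add_le_add h1 h2)
    linarith

/-- The cavity gain at size `n + 1` as a function of the parameters. -/
noncomputable def FinModel.cavGain (M : FinModel K) (lam : ℝ) (hlam : 0 ≤ lam) (L : ℕ) (hL : 0 < L)
    (G : Grid L) {P : ℕ} (τ : Fin P → Kind L) (n : ℕ) (t : Fin P → ℝ) : ℝ :=
  M.cavity lam fun _ Y => (M.cavSys lam hlam L hL τ (fun p => boxWidth (n + 1) * t p) n).gain G Y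

theorem continuous_pertCav (M : FinModel K) {lam : ℝ} (hlam : 0 ≤ lam) (hK : 1 ≤ K) [NeZero N]
    (B : Sys L N) (G : Grid L) {P : ℕ} (τ : Fin P → Kind L) (s : Fin P → ℕ) (w : ℝ) :
    Continuous fun t : Fin P → ℝ =>
      M.cavity lam fun _ Y => (B.perturb τ (fun p => w * t p) s).gain G Y := by
  have ht : Continuous fun (t : Fin P → ℝ) p => w * t p :=
    continuous_pi fun p => continuous_const.mul (continuous_apply p)
  refine continuous_cavity M hlam hK ?_ ?_
  · intro t
    exact gain_bdd (B.perturb τ (fun p => w * t p) s) G M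
  · intro c Y _
    have h := continuous_gain (ι := Fin c × Fin K) B G τ s ht Y
    exact h

theorem continuous_cavGain (M : FinModel K) (lam : ℝ) (hlam : 0 ≤ lam) (hK : 1 ≤ K) (hL : 0 < L)
    (G : Grid L) {P : ℕ} (τ : Fin P → Kind L) (n : ℕ) : Continuous (M.cavGain lam hlam L hL G τ n) := by
  unfold FinModel.cavGain FinModel.cavSys
  exact continuous_pertCav M hlam hK _ G τ _ _

theorem integral_affine_dev {P : ℕ} {μ : Measure (Fin P → ℝ)} [IsProbabilityMeasure μ] {f : (Fin P → ℝ) → ℝ}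
    (hf : Integrable f μ) (v c K₁ w : ℝ) :
    Integrable (fun t => v - c - K₁ * (w + f t)) μ
      ∧ ∫ t, (v - c - K₁ * (w + f t)) ∂μ = v - c - K₁ * (w + ∫ t, f t ∂μ) := by
  have h1 : Integrable (fun t => w + f t) μ := (integrable_const w).add hf
  refine ⟨(integrable_const _).sub (h1.const_mul _), ?_⟩
  rw [integral_sub (integrable_const _) (h1.const_mul _), integral_const_mul,
    integral_add (integrable_const _) hf, integral_const, integral_const, probReal_univ, one_smul, one_smul]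

/-- The lower bound for finite models, from the other statements. -/
theorem lowerFin_of (hconc : ConcStmt) (hener : EnergyStmt) (hkinds : KindsStmt) (hser : SeriesStmt)
    (hreal : RealStmt) (hcav : CavityStmt) (hdev : DevStmt) : LowerFinStmt := by
  intro K hK lam hlam M ε hε
  set c₀ := ε / 32 with hc₀
  have hc₀pos : 0 < c₀ := by rw [hc₀]; positivity
  obtain ⟨C₀, hC₀⟩ := eventually_atTop.1
    ((tail_tendsto M lam).eventually (eventually_le_nhds hc₀pos))
  set A := M.cavBound C₀ with hA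
  have hA0 : 0 ≤ A := cavBound_nonneg M C₀
  have hAmono : ∀ c < C₀, M.cavBound c ≤ A := fun c hc => by
    rw [hA]; unfold FinModel.cavBound
    exact add_le_add le_rfl (mul_le_mul_of_nonneg_right (Nat.cast_le.2 hc.le)
      (sum_nonneg fun _ _ => sum_nonneg fun _ _ => abs_nonneg _))
  obtain ⟨D, δ, hδ, hserD⟩ := hser (C₀ * K) A c₀ hc₀pos
  set Q := 2 * A / δ * (D + 1) with hQ
  have hQ0 : 0 ≤ Q := by positivity
  set δ₁ := c₀ / (Q + 1) with hδ₁
  have hδ₁pos : 0 < δ₁ := by positivity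
  obtain ⟨L₀, hL₀⟩ := hconc D δ₁ hδ₁pos
  obtain ⟨Cc, hCc, hconcL⟩ := hL₀ (L₀ + 2) (Nat.succ_pos _) (Nat.le_add_right _ _)
  set L := L₀ + 2
  set G := uniformGrid L (Nat.succ_pos _) with hG
  set η₀ := c₀ / ((Q + 1) * (Cc + 1)) with hη₀
  have hη₀pos : 0 < η₀ := by positivity
  obtain ⟨P, τ, Ck, hCk, hu, hident⟩ := hkinds L (2 * D + 2) G η₀ hη₀pos
  set K₁ := 2 * Q * Cc * Ck with hK₁
  set a : ℕ → ℝ := fun n => K₁ * (boxWidth (n + 1)
    + ∫ t, M.devSum lam hlam.le L (Nat.succ_pos _) G τ n t ∂Measure.pi fun _ : Fin P => unif) with ha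
  have halim : Tendsto a atTop (𝓝 0) := by
    simpa [ha] using (boxWidth_tendsto.add
      (devSum_tendsto hener hdev M lam hlam.le (Nat.succ_pos _) G τ hu)).const_mul K₁
  have hces : ∀ᶠ N : ℕ in atTop, (N : ℝ)⁻¹ * ∑ n ∈ range N, a n ≤ c₀ :=
    halim.cesaro.eventually (eventually_le_nhds hc₀pos)
  filter_upwards [hcav K hK lam hlam.le M L (Nat.succ_pos _) G P τ hu (ε / 4) (by positivity), hces,
    eventually_gt_atTop 0] with N hN hNces hNpos
  by_contra hno
  push Not at hno
  set v := M.pressure lam N + ε with hv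
  set gainF := M.cavGain lam hlam.le L (Nat.succ_pos _) G τ with hgainF
  have hpoint : ∀ n t, (∀ p, t p ∈ Set.Icc (0 : ℝ) 1) →
      v - 7 * c₀ - K₁ * (boxWidth (n + 1) + M.devSum lam hlam.le L (Nat.succ_pos _) G τ n t) ≤ gainF n t := by
    intro n t ht
    set B := M.cavSys lam hlam.le L (Nat.succ_pos _) τ (fun p => boxWidth (n + 1) * t p) n with hB
    obtain ⟨x, hxm, hxb, hx⟩ := hreal L (n + 1) (Nat.succ_pos _) G B (Nat.succ_pos _)
    set T : ∀ c : ℕ, ((Fin c × Fin K → Bool) → ℝ) → ℝ := fun c Y =>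
      trialT (Fin c × Fin K) (L - 1) (fun p => G.m (p.1 + 1)) x
        (fun z => log (∑ s, Y s * ∏ b, msgW (z b) (s b))) with hT
    have hTb : M.BddFunctional T := fun c Y hY =>
      trialT_abs_le (fun p => (uniformGrid_mem _ p).1) hxm hxb (measurable_mix Y)
        fun z hz => log_mix_abs hY hz
    have hbad : v < M.cavity lam T := hno (L - 1) (fun p => G.m (p.1 + 1)) x
      (fun p => uniformGrid_mem _ p) (uniformGrid_strictMono _) hxm hxb
    set S := ∑ d ∈ range (D + 1), max 0 (B.seqDev G d) with hS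
    have hS0 : 0 ≤ S := sum_nonneg fun _ _ => le_max_left _ _
    have hclose : |M.cavity lam T - M.cavity lam (fun _ Y => B.gain G Y)|
        ≤ 2 * (c₀ + 2 * A / δ * S) + M.tail lam C₀ := by
      refine cavity_close M hlam.le (by omega) hTb (gain_bdd B G M) C₀ (by positivity) fun c hc Y hY => ?_
      have hYpos : ∀ s, 0 < Y s := fun s => (exp_pos _).trans_le (hY s).1
      have e : T c Y = B.trialGain G Y := hx (Fin c × Fin K) Y hYpos
      have hT' := hTb c Y hY
      rw [e] at hT'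
      rw [e, abs_sub_comm]
      refine sum_max_bound B G hδ hA0 hc₀pos.le (fun hall => ?_)
        ((gain_bdd B G M c Y hY).trans (hAmono c hc)) (hT'.trans (hAmono c hc))
      refine hserD L (n + 1) G B (Nat.succ_pos _) (Nat.succ_pos _) hall (Fin c × Fin K) Y ?_ fun s => ?_
      · rw [Fintype.card_prod, Fintype.card_fin, Fintype.card_fin]
        exact Nat.mul_le_mul hc.le le_rfl
      · exact ⟨(exp_le_exp.2 (neg_le_neg (hAmono c hc))).trans (hY s).1,
          (hY s).2.trans (exp_le_exp.2 (hAmono c hc))⟩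
    obtain ⟨hw0, hw1⟩ := boxWidth_mem n
    have hid := hident (n + 1)
      (M.base L (n + 1) (⌈4 * lam * ((n : ℝ) + 1)⌉₊ + 4 * (n + 1)) (Nat.succ_pos _)
        (lam * ((n : ℝ) + 2) * (((n : ℝ) + 1) / ((n : ℝ) + 2)) ^ K)
        (mul_nonneg (mul_nonneg hlam.le (by positivity)) (by positivity)))
      (fun _ => termCount (n + 1)) (fun p => boxWidth (n + 1) * t p) (boxWidth (n + 1)) hw1
      fun p => by
        obtain ⟨h1, h2⟩ := ht p
        rw [abs_of_nonneg (mul_nonneg hw0.le h1)]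
        exact mul_le_of_le_one_right hw0.le h2
    set W := boxWidth (n + 1) + M.devSum lam hlam.le L (Nat.succ_pos _) G τ n t with hW
    have hW0 : 0 ≤ W := add_nonneg hw0.le (devSum_nonneg M lam hlam.le _ G τ n t)
    have hseq : ∀ d ∈ range (D + 1), max 0 (B.seqDev G d) ≤ δ₁ + Cc * (η₀ + Ck * W) := fun d hd => by
      refine max_le (by positivity) ?_
      exact hconcL (n + 1) (Nat.succ_pos _) B (η₀ + Ck * W) hid d (Nat.lt_succ_iff.1 (mem_range.1 hd))
    have hSb : 2 * A / δ * S ≤ 2 * c₀ + Q * Cc * Ck * W := by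
      refine (mul_le_mul_of_nonneg_left ((sum_le_sum hseq).trans (le_of_eq (by
        rw [sum_const, card_range, nsmul_eq_mul]))) (by positivity)).trans ?_
      have e1 : Q * δ₁ ≤ c₀ := by
        rw [hδ₁, mul_div_assoc', div_le_iff₀ (by positivity)]; nlinarith
      have e2 : Q * (Cc * η₀) ≤ c₀ := by
        rw [hη₀, mul_div_assoc', mul_div_assoc', div_le_iff₀ (by positivity)]; nlinarith
      have e3 : 2 * A / δ * (((D + 1 : ℕ) : ℝ) * (δ₁ + Cc * (η₀ + Ck * W)))
          = Q * δ₁ + Q * (Cc * η₀) + Q * Cc * Ck * W := by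
        rw [hQ]; push_cast; ring
      rw [e3]; linarith
    have htail := hC₀ C₀ le_rfl
    have e4 : K₁ * W = 2 * (Q * Cc * Ck * W) := by rw [hK₁]; ring
    show v - 7 * c₀ - K₁ * W ≤ M.cavity lam fun _ Y => B.gain G Y
    linarith [(abs_le.1 hclose).2, (abs_le.1 hclose).1]
  have hint : ∀ n, v - 7 * c₀ - a n ≤ ∫ t, gainF n t ∂Measure.pi fun _ : Fin P => unif := fun n => by
    obtain ⟨hl, he⟩ := integral_affine_dev (μ := Measure.pi fun _ : Fin P => unif)
      (integrable_box (continuous_devSum M lam hlam.le _ G τ n)) v (7 * c₀) K₁ (boxWidth (n + 1))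
    refine le_trans (le_of_eq he.symm) (integral_mono_ae hl
      (integrable_box (continuous_cavGain M lam hlam.le (by omega) _ G τ n))
      ((ae_box P).mono fun t ht => hpoint n t ht))
  have hsum : v - 7 * c₀ - (N : ℝ)⁻¹ * ∑ n ∈ range N, a n
      ≤ (∑ n ∈ range N, ∫ t, gainF n t ∂Measure.pi fun _ : Fin P => unif) / N := by
    have hNr : (0 : ℝ) < N := Nat.cast_pos.2 hNpos
    rw [le_div_iff₀ hNr]
    refine le_trans (le_of_eq ?_) (sum_le_sum fun n _ => hint n)
    simp only [sum_sub_distrib, sum_const, card_range, nsmul_eq_mul]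
    field_simp
  have : ε = 32 * c₀ := by rw [hc₀]; ring
  have hN' : (∑ n ∈ range N, ∫ t, gainF n t ∂Measure.pi fun _ : Fin P => unif) / N
      ≤ M.pressure lam N + ε / 4 := hN
  linarith

end Vale.Agent.P168
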