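import Vale.Agent.P168.Lower.CavAtoms
import Vale.Agent.P168.Lower.Main

/-!
# P168: one step of the cavity computation
-/

open Real Finset

namespace Vale.Agent.P168

variable {K L P N : ℕ} (M : FinModel K) (G : Grid L) (hL : 0 < L) (τ : Fin P → Kind L)

/-- The cavity functional read at a multiset of clauses. -/
noncomputable def FinModel.gainT (s : ℕ) (t : Fin P → ℝ) (ms : Multiset (M.Atom N)) (c : ℕ)
    (Y : (Fin c × Fin K → Bool) → ℝ) : ℝ :=
  M.gainAt G hL τ s t ms Y

theorem gainT_bdd [NeZero N] (s : ℕ) (t : Fin P → ℝ) (ms : Multiset (M.Atom N)) :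
    M.BddFunctional (M.gainT G hL τ s t ms) := fun c Y hY => by
  refine gainAt_abs M G hL τ s t ms (cavBound_nonneg M c) fun s => ?_
  have hpos : 0 < Y s := (exp_pos _).trans_le (hY s).1
  exact abs_le.2 ⟨(le_log_iff_exp_le hpos).2 (hY s).1, (log_le_iff_le_exp hpos).2 (hY s).2⟩

/-- The part of the cavity functional of the cavity site. -/
noncomputable def FinModel.sumU (lam : ℝ) (T : ∀ c : ℕ, ((Fin c × Fin K → Bool) → ℝ) → ℝ) : ℝ :=
  ∑' c, pois (K * lam) c * M.partU T c

/-- The part of the cavity functional of the compensating clauses. -/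
noncomputable def FinModel.sumV (lam : ℝ) (T : ∀ c : ℕ, ((Fin c × Fin K → Bool) → ℝ) → ℝ) : ℝ :=
  ∑' c, pois ((K - 1) * lam) c * M.partV T c

/-- A bound on the cavity functional. -/
noncomputable def FinModel.cavTotal (lam : ℝ) : ℝ :=
  (∑' c, pois (K * lam) c * M.cavBound c) + ∑' c, pois ((K - 1) * lam) c * M.cavBound c

theorem series_abs {a : ℝ} (ha : 0 ≤ a) {f : ℕ → ℝ} (hf : ∀ c, |f c| ≤ M.cavBound c) :
    |∑' c, pois a c * f c| ≤ ∑' c, pois a c * M.cavBound c := by
  rw [← Real.norm_eq_abs]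
  refine tsum_of_norm_bounded (cavBound_summable M a).hasSum fun c => ?_
  rw [Real.norm_eq_abs, abs_mul, abs_of_nonneg (pois_nonneg ha c)]
  exact mul_le_mul_of_nonneg_left (hf c) (pois_nonneg ha c)

theorem sums_abs {lam : ℝ} (hlam : 0 ≤ lam) (hK : 1 ≤ K)
    {T : ∀ c : ℕ, ((Fin c × Fin K → Bool) → ℝ) → ℝ} (hT : M.BddFunctional T) :
    |M.sumU lam T| ≤ M.cavTotal lam ∧ |M.sumV lam T| ≤ M.cavTotal lam ∧
      |M.cavity lam T| ≤ M.cavTotal lam := by
  have h1 : (0 : ℝ) ≤ K * lam := mul_nonneg (Nat.cast_nonneg K) hlam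
  have h2 : (0 : ℝ) ≤ (K - 1) * lam := mul_nonneg (sub_nonneg.2 (Nat.one_le_cast.2 hK)) hlam
  have u := series_abs M h1 (fun c => (part_abs_le M hT c).1)
  have v := series_abs M h2 (fun c => (part_abs_le M hT c).2)
  have nu : 0 ≤ ∑' c, pois (K * lam) c * M.cavBound c :=
    tsum_nonneg fun c => mul_nonneg (pois_nonneg h1 c) (cavBound_nonneg M c)
  have nv : 0 ≤ ∑' c, pois ((K - 1) * lam) c * M.cavBound c :=
    tsum_nonneg fun c => mul_nonneg (pois_nonneg h2 c) (cavBound_nonneg M c)
  exact ⟨u.trans (le_add_of_nonneg_right nv), v.trans (le_add_of_nonneg_left nu),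
    (abs_sub _ _).trans (add_le_add u v)⟩

variable {τ} [NeZero N] (hτ : ∀ p, |(τ p).u| * (τ p).n ≤ 1 / 2) {t : Fin P → ℝ} (ht : ∀ p, |t p| ≤ 2)

include hτ ht

theorem hit_point (s : ℕ) (ms : Multiset (M.Atom N)) (c : ℕ) :
    |∑ a : Fin c → M.Hit N, (∏ k, M.hitW N (a k)) *
        M.avgVal G hL τ s t ((univ.val.map a).map M.hitAtom + ms.map M.castAtom)
      - ∑ a : Fin c → M.Hit N, (∏ k, M.hitW N (a k)) * wmean M.fldW (fun g =>
          wmean (rootW τ N fun _ => s) fun r => wmean M.wH fun h => M.rootVal G hL τ t ms g r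
            + M.gainRoot G hL τ t ms g r (fun q => (a q.1).2.2 q.2)
                (M.cavU (fun k => (a k).1) (fun k => (a k).2.1) h) - log 2)|
      ≤ P * s * (10 / (N + 1)) * ∑ a : Fin c → M.Hit N, ∏ k, M.hitW N (a k) := by
  rw [← sum_sub_distrib, mul_sum]
  refine (abs_sum_le_sum_abs _ _).trans (sum_le_sum fun a _ => ?_)
  have hnn : 0 ≤ ∏ k, M.hitW N (a k) :=
    prod_nonneg fun k _ => div_nonneg (M.wD_nonneg _) (by positivity)
  rw [← mul_sub, abs_mul, abs_of_nonneg hnn, mul_comm (_ * (10 / _) : ℝ)]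
  refine mul_le_mul_of_nonneg_left ?_ hnn
  have e : (univ.val.map a).map M.hitAtom
      = univ.val.map fun k => M.hitAtom ((a k).1, (a k).2.1, fun j => (a k).2.2 j) := by
    rw [Multiset.map_map]; rfl
  set D : Fin (N + 1) → M.Hh → ℝ := fun _ _ => 0
  have hsite : ∀ g : Fin (N + 1) → M.Hh,
      |wmean (rootW τ (N + 1) fun _ => s) (fun r => M.rootVal G hL τ t
          ((univ.val.map a).map M.hitAtom + ms.map M.castAtom) g r)
        - wmean (rootW τ N fun _ => s) (fun r => M.rootVal G hL τ t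
          ((univ.val.map a).map M.hitAtom + ms.map M.castAtom) g fun p c => rootUp (r p c))|
      ≤ P * s * (10 / (N + 1)) := fun g =>
    roots_compare τ s _ fun p c r r' hr => rootVal_diff_one M G hL τ hτ ht s _ g p c r r' hr
  have hsnoc : ∀ F : (Fin (N + 1) → M.Hh) → ℝ,
      wmean M.fldW F = wmean M.fldW fun g => wmean M.wH fun h => F (Fin.snoc g h) := fun F => by
    rw [wmean_comm]
    unfold wmean
    rw [← (Fin.snocEquiv fun _ : Fin (N + 1) => M.Hh).sum_comp, Fintype.sum_prod_type]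
    simp only [mul_sum]
    refine sum_congr rfl fun h _ => sum_congr rfl fun g _ => ?_
    simp [Fin.snocEquiv, FinModel.fldW, Fin.prod_univ_castSucc]
    ring
  refine (le_of_eq (congrArg abs ?_)).trans (wmean_lip (fldW_weight M) hsite |>.trans le_rfl)
  rw [FinModel.avgVal]
  congr 1
  rw [hsnoc]
  refine congrArg (wmean M.fldW) (funext fun g => ?_)
  rw [wmean_comm]
  refine congrArg (wmean _) (funext fun h => congrArg (wmean _) (funext fun r => ?_))
  rw [e]
  exact (rootVal_hit M G hL τ t ms (fun k => (a k).1) (fun k => (a k).2.1) (fun q => (a q.1).2.2 q.2) g h r).symm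

omit hτ ht in
theorem hit_exact (hK : 0 < K) (s : ℕ) (ms : Multiset (M.Atom N)) (c : ℕ) :
    ∑ a : Fin c → M.Hit N, (∏ k, M.hitW N (a k)) * wmean M.fldW (fun g =>
          wmean (rootW τ N fun _ => s) fun r => wmean M.wH fun h => M.rootVal G hL τ t ms g r
            + M.gainRoot G hL τ t ms g r (fun q => (a q.1).2.2 q.2)
                (M.cavU (fun k => (a k).1) (fun k => (a k).2.1) h) - log 2)
      = M.avgVal G hL τ s t ms - log 2 + M.partU (M.gainT G hL τ s t ms) c := by
  have hw : ∑ a : Fin c → M.Hit N, ∏ k, M.hitW N (a k) = 1 := by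
    rw [sum_prod_pow, (hitW_weight M hK).sum, one_pow]
  have split : ∀ a : Fin c → M.Hit N, wmean M.fldW (fun g =>
          wmean (rootW τ N fun _ => s) fun r => wmean M.wH fun h => M.rootVal G hL τ t ms g r
            + M.gainRoot G hL τ t ms g r (fun q => (a q.1).2.2 q.2)
                (M.cavU (fun k => (a k).1) (fun k => (a k).2.1) h) - log 2)
      = M.avgVal G hL τ s t ms - log 2 + wmean M.wH fun h => wmean M.fldW fun g =>
          wmean (rootW τ N fun _ => s) fun r => M.gainRoot G hL τ t ms g r (fun q => (a q.1).2.2 q.2)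
            (M.cavU (fun k => (a k).1) (fun k => (a k).2.1) h) := fun a => by
    simp only [wmean_sub, wmean_add, wmean_const (⟨M.wH_nonneg, M.wH_sum⟩ : IsWeight M.wH),
      wmean_const (rootW_weight τ _), wmean_const (fldW_weight M)]
    rw [wmean_comm M.wH]
    simp only [wmean_comm M.wH]
    rw [FinModel.avgVal]
    ring
  rw [sum_congr rfl fun a _ => by rw [split a, mul_add], sum_add_distrib, ← sum_mul, hw, one_mul]
  congr 1
  rw [sum_hit M c]
  unfold FinModel.partU
  refine sum_congr rfl fun d _ => congrArg _ ?_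
  change _ = wmean M.wH fun h => mean fun ℓ => M.gainT G hL τ s t ms c (M.cavU d ℓ h)
  simp only [FinModel.gainT, FinModel.gainAt, mean_eq_wmean]
  rw [wmean_comm M.wH]
  refine congrArg (wmean _) (funext fun ℓ => ?_)
  rw [wmean_comm]
  refine congrArg (wmean _) (funext fun h => ?_)
  rw [wmean_comm]
  refine congrArg (wmean _) (funext fun g => ?_)
  rw [wmean_comm]

omit hτ ht in
theorem extra_exact (s : ℕ) (ms : Multiset (M.Atom N)) (c : ℕ) :
    ∑ a : Fin c → M.Atom N, (∏ k, M.slotW N (a k)) * M.avgVal G hL τ s t (univ.val.map a + ms)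
      = M.avgVal G hL τ s t ms + M.partV (M.gainT G hL τ s t ms) c := by
  rw [sum_extra M c]
  unfold FinModel.partV
  conv_rhs => rw [← one_mul (M.avgVal G hL τ s t ms), ← wD_prod_sum M c, sum_mul, ← sum_add_distrib]
  refine sum_congr rfl fun d _ => ?_
  rw [← mul_add]
  congr 1
  simp only [FinModel.avgVal, FinModel.gainT, FinModel.gainAt, rootVal_extra, mean_eq_wmean,
    ← wmean_add]
  rw [wmean_comm]
  refine congrArg (wmean _) (funext fun g => ?_)
  rw [wmean_comm]
  refine congrArg (wmean _) (funext fun r => ?_)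
  rw [wmean_add, wmean_const IsWeight.uniform]

theorem pE_hit (hK : 1 ≤ K) {lam : ℝ} (hlam : 0 ≤ lam) (s : ℕ) (ms : Multiset (M.Atom N)) :
    |pE (fun a => K * lam * M.hitW N a)
        (fun u => M.avgVal G hL τ s t (u.map M.hitAtom + ms.map M.castAtom))
      - (M.avgVal G hL τ s t ms - log 2 + M.sumU lam (M.gainT G hL τ s t ms))|
      ≤ P * s * (10 / (N + 1)) := by
  have hKl : (0 : ℝ) ≤ K * lam := mul_nonneg (Nat.cast_nonneg K) hlam
  have hT := gainT_bdd M G hL τ s t ms
  rw [pE_mul _ _ (hitW_weight M hK).sum]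
  have e : M.avgVal G hL τ s t ms - log 2 + M.sumU lam (M.gainT G hL τ s t ms)
      = ∑' c, pois (K * lam) c *
          (M.avgVal G hL τ s t ms - log 2 + M.partU (M.gainT G hL τ s t ms) c) := by
    simp only [mul_add]
    rw [Summable.tsum_add ((hasSum_pois _).summable.mul_right _) (part_summable M hT hKl).1,
      tsum_mul_right, (hasSum_pois _).tsum_eq, one_mul]
    rfl
  rw [e]
  refine (tsum_pois_diff (α := M.tabBound)
    (β := |M.avgVal G hL τ s t ms - log 2| + (log 2 + M.fldBound)) (δ := 0) (η := (P : ℝ) * s * (10 / ((N : ℝ) + 1))) hKl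
    (fun c => ?_) fun c => ?_).trans (le_of_eq (by ring))
  · refine (abs_add_le _ _).trans ?_
    have := (part_abs_le M hT c).1
    rw [FinModel.cavBound] at this
    unfold FinModel.tabBound FinModel.fldBound
    linarith
  · rw [zero_mul, zero_add, ← hit_exact M G hL hK s ms c]
    refine (hit_point M G hL hτ ht s ms c).trans (le_of_eq ?_)
    rw [sum_prod_pow, (hitW_weight M hK).sum, one_pow, mul_one]

omit hτ ht in
theorem pE_extra (hK : 1 ≤ K) {lam : ℝ} (hlam : 0 ≤ lam) (s : ℕ) (ms : Multiset (M.Atom N)) :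
    pE (fun a => (K - 1) * lam * M.slotW N a) (fun u => M.avgVal G hL τ s t (u + ms))
      = M.avgVal G hL τ s t ms + M.sumV lam (M.gainT G hL τ s t ms) := by
  have h2 : (0 : ℝ) ≤ (K - 1) * lam := mul_nonneg (sub_nonneg.2 (Nat.one_le_cast.2 hK)) hlam
  rw [pE_mul _ _ (slotW_weight M).sum]
  simp only [extra_exact, mul_add]
  rw [Summable.tsum_add ((hasSum_pois _).summable.mul_right _)
    (part_summable M (gainT_bdd M G hL τ s t ms) h2).2, tsum_mul_right, (hasSum_pois _).tsum_eq, one_mul]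
  rfl

omit hτ ht [NeZero N] in
theorem PLip.comp_map {A A' : Type} [Fintype A] [Fintype A'] {Φ : Multiset A' → ℝ} {B : ℝ} (h : PLip Φ B)
    (g : A → A') (v : Multiset A') : PLip (fun u : Multiset A => Φ (u.map g + v)) B := fun a u => by
  dsimp only
  rw [Multiset.map_cons, Multiset.cons_add]
  exact h _ _

omit hτ ht in
/-- The clauses of the larger system, split at the new site. -/
theorem pE_sites [DecidableEq M.D] (hK : 1 ≤ K) {lam : ℝ} (hlam : 0 ≤ lam) (s : ℕ) :
    |pE (fun a => lam * (N + 1) * M.slotW (N + 1) a) (M.avgVal G hL τ s t)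
      - pE (fun a => lam * (N + 1) * ((N : ℝ) / (N + 1)) ^ K * M.slotW N a) (fun ms =>
          pE (fun a => K * lam * M.hitW N a)
            fun u => M.avgVal G hL τ s t (u.map M.hitAtom + ms.map M.castAtom))|
      ≤ 2 * M.tabBound * (lam * (K : ℝ) ^ 2 / (N + 1)) := by
  have hT := tabBound_nonneg M
  have hN : (0 : ℝ) ≤ N := Nat.cast_nonneg N
  have hlip : PLip (M.avgVal G hL τ s t (N := N + 1)) M.tabBound := avgVal_lip M G hL τ s t
  obtain ⟨b1, -, -, b4⟩ := rate_bounds hK hlam N
  set c := lam * ((N : ℝ) + 1) * ((N : ℝ) / (N + 1)) ^ K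
  set α := (K : ℝ) * lam * ((N : ℝ) / (N + 1)) ^ (K - 1)
  have hc : 0 ≤ c := mul_nonneg (mul_nonneg hlam (by linarith)) (by positivity)
  have hα : 0 ≤ α := mul_nonneg (mul_nonneg (Nat.cast_nonneg K) hlam) (by positivity)
  have wc : ∀ a, 0 ≤ c * M.slotW N a := fun a => mul_nonneg hc ((slotW_weight M).nonneg a)
  have wα : ∀ a, 0 ≤ α * M.hitW N a := fun a => mul_nonneg hα ((hitW_weight M hK).nonneg a)
  let pa := pPush M.castAtom fun a => c * M.slotW N a
  let pu := pPush M.hitAtom fun a => α * M.hitW N a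
  have na : ∀ x, 0 ≤ pa x := fun x => sum_nonneg fun a _ => wc a
  have nu : ∀ x, 0 ≤ pu x := fun x => sum_nonneg fun a _ => wα a
  have e : (fun a => lam * ((N : ℝ) + 1) * M.slotW (N + 1) a)
      = fun a => (pa a + pu a) + (lam * ((N : ℝ) + 1) * M.slotW (N + 1) a - (pa a + pu a)) :=
    funext fun a => by ring
  have hr : ∑ a, (lam * ((N : ℝ) + 1) * M.slotW (N + 1) a - (pa a + pu a))
      = lam * ((N : ℝ) + 1) - c - α := by
    rw [sum_sub_distrib, sum_add_distrib, pPush_total, pPush_total, ← mul_sum, ← mul_sum, ← mul_sum,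
      (slotW_weight M).sum, (slotW_weight M).sum, (hitW_weight M hK).sum]
    ring
  have h1 := pE_add_le (c := fun a => pa a + pu a)
    (d := fun a => lam * ((N : ℝ) + 1) * M.slotW (N + 1) a - (pa a + pu a))
    (fun a => add_nonneg (na a) (nu a)) (fun a => sub_nonneg.2 (split_le M hK hlam a)) hlip
  rw [← e, hr] at h1
  have h2 : pE (fun a => pa a + pu a) (M.avgVal G hL τ s t)
      = pE (fun a => c * M.slotW N a) fun ms => pE (fun a => α * M.hitW N a)
          fun u => M.avgVal G hL τ s t (u.map M.hitAtom + ms.map M.castAtom) := by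
    rw [pE_split na nu hlip, ← pE_map]
    refine congrArg (pE _) (funext fun ms => ?_)
    exact (pE_map M.hitAtom (fun a => α * M.hitW N a)
      fun u => M.avgVal G hL τ s t (u + ms.map M.castAtom)).symm
  rw [h2] at h1
  have hKl : (0 : ℝ) ≤ K * lam := mul_nonneg (Nat.cast_nonneg K) hlam
  have havg : ∀ (r : ℝ), 0 ≤ r → PLip (fun ms : Multiset (M.Atom N) => pE (fun a => r * M.hitW N a)
      fun u => M.avgVal G hL τ s t (u.map M.hitAtom + ms.map M.castAtom)) M.tabBound := fun r hr a ms => by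
    have hp : ∀ b, 0 ≤ r * M.hitW N b := fun b => mul_nonneg hr ((hitW_weight M hK).nonneg b)
    refine pE_mono hp (hlip.comp_map _ _).growth (hlip.comp_map _ _).growth fun u => ?_
    rw [Multiset.map_cons, Multiset.add_cons]
    exact hlip _ _
  have h3 := pE_mono wc (havg α hα).growth (havg _ hKl).growth
    (e := M.tabBound * (lam * (K : ℝ) ^ 2 / (N + 1))) fun ms => by
      refine (pE_scale_le (hitW_weight M hK).nonneg hα hKl (hlip.comp_map M.hitAtom (ms.map M.castAtom))).trans ?_
      rw [(hitW_weight M hK).sum, mul_one]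
      exact mul_le_mul_of_nonneg_left b1 hT
  have h4 := mul_le_mul_of_nonneg_left b4 hT
  refine (abs_sub_le _ _ _).trans ((add_le_add h1 h3).trans ?_)
  linarith

/-- The increase from `N` to `N + 1` sites. -/
theorem step_pair [DecidableEq M.D] (hK : 1 ≤ K) {lam : ℝ} (hlam : 0 ≤ lam) (s : ℕ) :
    |(pE (fun a => lam * (N + 1) * M.slotW (N + 1) a) (M.avgVal G hL τ s t) + log 2
        - pE (fun a => lam * N * M.slotW N a) (M.avgVal G hL τ s t))
      - pE (fun a => lam * (N + 1) * ((N : ℝ) / (N + 1)) ^ K * M.slotW N a)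
          (fun ms => M.cavity lam (M.gainT G hL τ s t ms))|
      ≤ 3 * M.tabBound * (lam * (K : ℝ) ^ 2 / (N + 1)) + P * s * (10 / (N + 1)) := by
  have hT := tabBound_nonneg M
  have hN : (0 : ℝ) ≤ N := Nat.cast_nonneg N
  have hlip : PLip (M.avgVal G hL τ s t (N := N)) M.tabBound := avgVal_lip M G hL τ s t
  have hlip2 : PLip (M.avgVal G hL τ s t (N := N + 1)) M.tabBound := avgVal_lip M G hL τ s t
  obtain ⟨-, b2, b3, -⟩ := rate_bounds hK hlam N
  set c := lam * ((N : ℝ) + 1) * ((N : ℝ) / (N + 1)) ^ K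
  set β := lam * (N : ℝ) - c
  have hc : 0 ≤ c := mul_nonneg (mul_nonneg hlam (by linarith)) (by positivity)
  have hKl : (0 : ℝ) ≤ K * lam := mul_nonneg (Nat.cast_nonneg K) hlam
  have hK1 : (0 : ℝ) ≤ (K - 1) * lam := mul_nonneg (sub_nonneg.2 (Nat.one_le_cast.2 hK)) hlam
  have hcw : ∀ a, 0 ≤ c * M.slotW N a := fun a => mul_nonneg hc ((slotW_weight M).nonneg a)
  have hsw : ∀ r, 0 ≤ r → ∀ a, 0 ≤ r * M.slotW N a := fun r hr a =>
    mul_nonneg hr ((slotW_weight M).nonneg a)
  set Φ := M.avgVal G hL τ s t (N := N) with hΦ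
  let U : Multiset (M.Atom N) → ℝ := fun ms => pE (fun a => K * lam * M.hitW N a)
    fun u => M.avgVal G hL τ s t (u.map M.hitAtom + ms.map M.castAtom)
  let V : Multiset (M.Atom N) → ℝ := fun ms => pE (fun a => (K - 1) * lam * M.slotW N a) fun u => Φ (u + ms)
  let SU : Multiset (M.Atom N) → ℝ := fun ms => Φ ms - log 2 + M.sumU lam (M.gainT G hL τ s t ms)
  -- the system of size `N`
  have hV1 : |pE (fun a => lam * (N : ℝ) * M.slotW N a) Φ - pE (fun a => c * M.slotW N a) V|
      ≤ M.tabBound * (lam * (K : ℝ) ^ 2 / (N + 1)) := by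
    rw [show (fun a => lam * (N : ℝ) * M.slotW N a) = fun a => c * M.slotW N a + β * M.slotW N a from
      funext fun a => by simp only [β]; ring, pE_split hcw (hsw β b2) hlip]
    refine pE_mono hcw (hlip.avg (hsw β b2)).growth (hlip.avg (hsw _ hK1)).growth fun ms => ?_
    refine (pE_scale_le (slotW_weight M).nonneg b2 hK1 (hlip.shift ms)).trans ?_
    rw [(slotW_weight M).sum, mul_one]
    exact mul_le_mul_of_nonneg_left b3 hT
  have hU1 := pE_sites (N := N) M G hL (τ := τ) (t := t) hK hlam s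
  -- the expansions
  have gU : ∀ ms, |SU ms| ≤ |Φ 0| + log 2 + M.cavTotal lam + M.tabBound * ms.card := fun ms => by
    have a1 := hlip.growth ms
    have a2 := (sums_abs M hlam hK (gainT_bdd M G hL τ s t ms)).1
    have a3 : (0 : ℝ) ≤ log 2 := log_nonneg one_le_two
    simp only [SU]
    rw [abs_le] at a1 a2 ⊢
    constructor <;> linarith
  have pU : PLip U M.tabBound := fun a ms => by
    have hp : ∀ b, 0 ≤ (K : ℝ) * lam * M.hitW N b := fun b => mul_nonneg hKl ((hitW_weight M hK).nonneg b)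
    refine pE_mono hp (hlip2.comp_map _ _).growth (hlip2.comp_map _ _).growth fun u => ?_
    rw [Multiset.map_cons, Multiset.add_cons]
    exact hlip2 _ _
  have hU2 := pE_mono hcw pU.growth gU (e := P * s * (10 / ((N : ℝ) + 1))) fun ms =>
    pE_hit M G hL hτ ht hK hlam s ms
  have hVeq : ∀ ms, V ms = Φ ms + M.sumV lam (M.gainT G hL τ s t ms) := fun ms =>
    pE_extra M G hL hK hlam s ms
  -- the difference
  have gV : PLip V M.tabBound := hlip.avg (hsw _ hK1)
  have hD : pE (fun a => c * M.slotW N a) SU + log 2 - pE (fun a => c * M.slotW N a) V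
      = pE (fun a => c * M.slotW N a) (fun ms => M.cavity lam (M.gainT G hL τ s t ms)) := by
    have e : (fun ms => M.cavity lam (M.gainT G hL τ s t ms)) = fun ms => SU ms - (V ms - log 2) :=
      funext fun ms => by
        simp only [SU, hVeq, cavity_eq, FinModel.sumU, FinModel.sumV]
        ring
    have gV' : ∀ ms, |V ms - log 2| ≤ |V 0| + log 2 + M.tabBound * ms.card := fun ms => by
      have a1 := gV.growth ms
      have a3 : (0 : ℝ) ≤ log 2 := log_nonneg one_le_two
      rw [abs_le] at a1 ⊢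
      constructor <;> linarith
    rw [e, pE_sub hcw gU gV', pE_sub hcw gV.growth
      (C' := log 2) (B' := 0) (fun ms => by rw [abs_of_nonneg (log_nonneg one_le_two)]; simp), pE_const]
    ring
  change |(_ + log 2 - _) - pE (fun a => c * M.slotW N a) _| ≤ _
  rw [← hD]
  rw [abs_le] at hU1 hU2 hV1 ⊢
  constructor <;> linarith

/-- Changing the number and the parameters of the terms. -/
theorem step_terms {lam : ℝ} (hlam : 0 ≤ lam) (s d : ℕ) (t' : Fin P → ℝ) :
    |pE (fun a => lam * N * M.slotW N a) (M.avgVal G hL τ (s + d) t)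
      - pE (fun a => lam * N * M.slotW N a) (M.avgVal G hL τ s t')|
      ≤ 5 * (P * d) + 2 * s * ∑ p, |t p - t' p| := by
  have hw : ∀ a, 0 ≤ lam * (N : ℝ) * M.slotW N a := fun a =>
    mul_nonneg (mul_nonneg hlam (Nat.cast_nonneg N)) ((slotW_weight M).nonneg a)
  refine pE_mono hw (avgVal_lip M G hL τ _ _).growth (avgVal_lip M G hL τ _ _).growth fun ms => ?_
  exact (abs_sub_le _ _ _).trans (add_le_add (avgVal_counts M G hL τ hτ ht s d ms)
    (avgVal_time M G hL τ hτ s t t' ms))

end Vale.Agent.P168
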