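import Vale.Agent.P168.Lower.CavStep

/-!
# P168: the Cesaro mean of cavity gains is a lower bound for the pressure
-/

open Real Finset MeasureTheory Filter Topology

namespace Vale.Agent.P168

variable {K L P N : ℕ}

/-! ### The cut at `m` clauses -/

theorem pois_tail_le {c : ℝ} (hc : 0 ≤ c) {m : ℕ} (hm : c < (m : ℝ) + 1) :
    1 - ∑ k : Fin (m + 1), pois c k ≤ c / ((m : ℝ) + 1 - c) ^ 2 := by
  rw [Fin.sum_univ_eq_sum_range fun k => pois c k]
  have h1 : HasSum (fun n => if n ∈ range (m + 1) then pois c n else 0)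
      (∑ n ∈ range (m + 1), pois c n) := by
    have h := hasSum_sum_of_ne_finset_zero (α := ℝ) (f := fun n => if n ∈ range (m + 1) then pois c n else 0)
      (s := range (m + 1)) (L := SummationFilter.unconditional ℕ) fun n hn => if_neg hn
    rwa [sum_congr rfl fun n hn => if_pos hn] at h
  have hd : 0 < ((m : ℝ) + 1 - c) ^ 2 := by
    have : 0 < (m : ℝ) + 1 - c := by linarith
    positivity
  have h2 := h1.add ((hasSum_pois_sq c).div_const (((m : ℝ) + 1 - c) ^ 2))
  have h3 := hasSum_le (fun n => ?_) (hasSum_pois c) h2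
  · linarith
  · have hp := pois_nonneg hc n
    split_ifs with hn
    · linarith [div_nonneg (mul_nonneg hp (sq_nonneg ((n : ℝ) - c))) hd.le]
    · rw [mem_range, not_lt] at hn
      rw [zero_add, le_div_iff₀ hd]
      have : (m : ℝ) + 1 ≤ n := by exact_mod_cast hn
      exact mul_le_mul_of_nonneg_left (pow_le_pow_left₀ (by linarith) (by linarith) 2) hp

theorem pE_cut {A : Type} [Fintype A] {w : A → ℝ} (hw : IsWeight w) {c : ℝ} (hc : 0 ≤ c) (m : ℕ)
    {f : Multiset A → ℝ} {C : ℝ} (hf : ∀ s, |f s| ≤ C) :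
    |pE (fun a => c * w a) f - ∑ k : Fin (m + 1), pois c k / (∑ j : Fin (m + 1), pois c j) *
        ∑ a : Fin k → A, (∏ i, w (a i)) * f (univ.val.map a)|
      ≤ 2 * C * (1 - ∑ k : Fin (m + 1), pois c k) := by
  rw [pE_mul _ _ hw.sum]
  set g : ℕ → ℝ := fun n => ∑ a : Fin n → A, (∏ i, w (a i)) * f (univ.val.map a)
  have hg : ∀ n, |g n| ≤ C := fun n =>
    wsum_abs_le (fun a => prod_nonneg fun i _ => hw.nonneg _)
      (by rw [sum_prod_pow, hw.sum, one_pow]) fun a => hf _
  have hZ : 0 < ∑ k : Fin (m + 1), pois c k := by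
    refine sum_pos' (fun k _ => pois_nonneg hc _) ⟨0, mem_univ _, ?_⟩
    simp [pois, exp_pos]
  set Z := ∑ k : Fin (m + 1), pois c k with hZd
  have hsum : Summable fun n => pois c n * g n :=
    Summable.of_norm_bounded ((hasSum_pois c).summable.mul_right C) fun n => by
      rw [Real.norm_eq_abs, abs_mul, abs_of_nonneg (pois_nonneg hc n)]
      exact mul_le_mul_of_nonneg_left (hg n) (pois_nonneg hc n)
  have hS : |∑ k : Fin (m + 1), pois c k * g k| ≤ C * Z := by
    rw [hZd, mul_sum]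
    refine (abs_sum_le_sum_abs _ _).trans (sum_le_sum fun k _ => ?_)
    rw [abs_mul, abs_of_nonneg (pois_nonneg hc _), mul_comm C]
    exact mul_le_mul_of_nonneg_left (hg _) (pois_nonneg hc _)
  have htail : |(∑' n, pois c n * g n) - ∑ k : Fin (m + 1), pois c k * g k| ≤ C * (1 - Z) := by
    rw [Fin.sum_univ_eq_sum_range fun k => pois c k * g k, ← hsum.sum_add_tsum_nat_add (m + 1),
      add_sub_cancel_left]
    have e : HasSum (fun n => C * pois c (n + (m + 1))) (C * (1 - Z)) := by
      refine HasSum.mul_left C ?_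
      rw [hZd, Fin.sum_univ_eq_sum_range fun k => pois c k]
      exact (hasSum_nat_add_iff' (m + 1)).2 (hasSum_pois c)
    rw [← Real.norm_eq_abs]
    refine tsum_of_norm_bounded e fun n => ?_
    rw [Real.norm_eq_abs, abs_mul, abs_of_nonneg (pois_nonneg hc _), mul_comm C]
    exact mul_le_mul_of_nonneg_left (hg _) (pois_nonneg hc _)
  have hZ1 : Z ≤ 1 := by
    rw [hZd, Fin.sum_univ_eq_sum_range fun k => pois c k]
    exact sum_le_hasSum _ (fun k _ => pois_nonneg hc k) (hasSum_pois c)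
  have e : ∑ k : Fin (m + 1), pois c k / Z * g k = (∑ k : Fin (m + 1), pois c k * g k) / Z := by
    rw [sum_div]; exact sum_congr rfl fun k _ => by ring
  change |(∑' n, pois c n * g n) - ∑ k : Fin (m + 1), pois c k / Z * g k| ≤ _
  rw [e]
  set S := ∑ k : Fin (m + 1), pois c k * g k
  have h4 : |S - S / Z| ≤ C * (1 - Z) := by
    rw [show S - S / Z = -(S * ((1 - Z) / Z)) by field_simp; ring, abs_neg, abs_mul,
      abs_of_nonneg (div_nonneg (sub_nonneg.2 hZ1) hZ.le)]
    refine (mul_le_mul_of_nonneg_right hS (div_nonneg (sub_nonneg.2 hZ1) hZ.le)).trans (le_of_eq ?_)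
    field_simp
  exact (abs_sub_le _ _ _).trans ((add_le_add htail h4).trans (le_of_eq (by ring)))

/-! ### The cavity system -/

variable (M : FinModel K) (G : Grid L) (hL : 0 < L) {τ : Fin P → Kind L}

theorem cavity_wmean {lam : ℝ} (hlam : 0 ≤ lam) (hK : 1 ≤ K) {J : Type} [Fintype J] (u : J → ℝ)
    (T : J → ∀ c : ℕ, ((Fin c × Fin K → Bool) → ℝ) → ℝ) (hT : ∀ j, M.BddFunctional (T j)) :
    M.cavity lam (fun c Y => ∑ j, u j * T j c Y) = ∑ j, u j * M.cavity lam (T j) := by
  have hU : ∀ c, M.partU (fun c Y => ∑ j, u j * T j c Y) c = ∑ j, u j * M.partU (T j) c := fun c => by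
    simp only [FinModel.partU, mean, mul_sum, sum_div]
    rw [sum_comm (s := (univ : Finset J))]
    refine sum_congr rfl fun d _ => ?_
    rw [sum_comm (s := (univ : Finset J))]
    refine sum_congr rfl fun h _ => ?_
    rw [sum_comm (s := (univ : Finset J))]
    exact sum_congr rfl fun ℓ _ => sum_congr rfl fun j _ => by ring
  have hV : ∀ c, M.partV (fun c Y => ∑ j, u j * T j c Y) c = ∑ j, u j * M.partV (T j) c := fun c => by
    simp only [FinModel.partV, mul_sum]
    rw [sum_comm]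
    exact sum_congr rfl fun j _ => sum_congr rfl fun d _ => by ring
  have h1 : (0 : ℝ) ≤ K * lam := mul_nonneg (Nat.cast_nonneg K) hlam
  have h2 : (0 : ℝ) ≤ (K - 1) * lam := mul_nonneg (sub_nonneg.2 (Nat.one_le_cast.2 hK)) hlam
  simp only [cavity_eq, hU, hV, mul_sub, sum_sub_distrib, mul_sum]
  rw [Summable.tsum_finsetSum (fun j _ => ((part_summable M (hT j) h1).1.mul_left (u j)).congr fun c => by ring),
    Summable.tsum_finsetSum (fun j _ => ((part_summable M (hT j) h2).2.mul_left (u j)).congr fun c => by ring)]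
  simp only [← tsum_mul_left]
  congr 1 <;> exact sum_congr rfl fun j _ => tsum_congr fun c => by ring

theorem gain_cut {N : ℕ} [NeZero N] (m : ℕ) (c : ℝ) (hc : 0 ≤ c) (t : Fin P → ℝ) (s : ℕ)
    {ι : Type} [Fintype ι] [DecidableEq ι] (Y : (ι → Bool) → ℝ) :
    ((M.base L N m hL c hc).perturb τ t fun _ => s).gain G Y
      = ∑ j : (Σ k : Fin (m + 1), Fin k → M.Atom N),
          (pois c j.1 / (∑ k : Fin (m + 1), pois c k) * ∏ i, M.slotW N (j.2 i)) *
            M.gainAt G hL τ s t (univ.val.map j.2) Y := by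
  rw [gain_eq]
  change ∑ o : ((Σ k : Fin (m + 1), Fin k → M.Atom N) × (Fin N → M.Hh)) × TermRoot τ N s, _ = _
  rw [Fintype.sum_prod_type, Fintype.sum_prod_type]
  refine sum_congr rfl fun j _ => ?_
  simp only [FinModel.gainAt, wmean, mul_sum]
  refine sum_congr rfl fun g _ => sum_congr rfl fun r _ => ?_
  have hH : (M.base L N m hL c hc).pertH τ (fun _ => s) t ((j, g), r)
      = M.pertV hL τ t (univ.val.map j.2) g r := funext fun ξ => by
    simp only [Sys.pertH, FinModel.pertV, FinModel.confH, map_univ_sum, termsH]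
    rfl
  rw [← mul_assoc, ← mul_assoc]
  refine congrArg₂ (· * ·) ?_ (congrArg mean (funext fun i => congrArg₂ (· - ·) ?_ ?_))
  · rw [rootW_eq, mul_one_div]
    rfl
  · exact congrArg (fun H => vAt G H 0 fun _ => Classical.arbitrary ((Fin N → Bool) × TermLab τ s))
      (funext fun ξ => congrArg₂ (· + ·) (congrFun hH ξ) rfl)
  · exact congrArg (fun H => vAt G H 0 fun _ => Classical.arbitrary ((Fin N → Bool) × TermLab τ s)) hH

theorem root_flat [NeZero N] (hτ : ∀ p, |(τ p).u| * (τ p).n ≤ 1 / 2) {t : Fin P → ℝ}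
    (ht : ∀ p, |t p| ≤ 2) (s : ℕ) (ms : Multiset (M.Atom N)) (g : Fin N → M.Hh) (r : TermRoot τ N s) :
    |M.rootVal G hL τ t ms g r + N * log 2 - log (∑ σ, exp (M.confH ms g σ))| ≤ 5 * (P * s) := by
  have e : log (∑ σ, exp (M.confH ms g σ)) = vAt G (fun ζ : Fin L → (Fin N → Bool) × TermLab τ s =>
      M.confH ms g (ζ ⟨L - 1, Nat.sub_lt hL one_pos⟩).1) 0 (fun _ => Classical.arbitrary _) + N * log 2 := by
    rw [vAt_top_only G hL (fun z : (Fin N → Bool) × TermLab τ s => M.confH ms g z.1),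
      mean_fst fun σ => exp (M.confH ms g σ), mean,
      log_div (sum_pos (fun σ _ => exp_pos _) univ_nonempty).ne' (Nat.cast_ne_zero.2 Fintype.card_ne_zero)]
    simp [log_pow]
  rw [e, add_sub_add_right_eq_sub]
  refine vAt_sub_abs G (fun ξ => ?_) 0 _
  rw [FinModel.pertV, add_sub_cancel_left, termsH]
  refine (abs_sum_le_sum_abs _ _).trans ((sum_le_sum (g := fun _ : Fin P => 5 * (s : ℝ)) fun p _ => ?_).trans
    (le_of_eq (by rw [sum_const, card_univ, Fintype.card_fin, nsmul_eq_mul]; ring)))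
  refine (abs_sum_le_sum_abs _ _).trans ((sum_le_sum fun i _ => abs_term_le (hτ p) (ht p) _ _ _).trans
    (le_of_eq (by rw [sum_const, card_univ, Fintype.card_fin, nsmul_eq_mul]; ring)))

/-- The integrand of the pressure. -/
noncomputable def FinModel.pressFn (N n : ℕ) : ℝ :=
  ∑ d : Fin n → M.D, (∏ k, M.wD (d k)) * ∑ h : Fin N → M.Hh, (∏ v, M.wH (h v)) *
    mean fun i : Fin n → Fin K → Fin N =>
      log (∑ σ : Fin N → Bool, exp (∑ k, M.th (d k) (fun j => σ (i k j)) + ∑ v, M.hv (h v) * spin (σ v)))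

theorem press_point [NeZero N] (hτ : ∀ p, |(τ p).u| * (τ p).n ≤ 1 / 2) {t : Fin P → ℝ}
    (ht : ∀ p, |t p| ≤ 2) (s n : ℕ) :
    |(∑ a : Fin n → M.Atom N, (∏ k, M.slotW N (a k)) * M.avgVal G hL τ s t (univ.val.map a))
      - (M.pressFn N n - N * log 2)| ≤ 5 * (P * s) := by
  rw [sum_extra M n, FinModel.pressFn]
  conv_lhs => arg 1; arg 2; arg 2; rw [← one_mul ((N : ℝ) * log 2), ← wD_prod_sum M n, sum_mul]
  rw [← sum_sub_distrib, ← sum_sub_distrib]
  simp only [← mul_sub]
  refine wsum_abs_le (wD_prod_nonneg M) (wD_prod_sum M n) fun d => ?_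
  have e1 : ∀ F : (Fin n → Fin K → Fin N) → ℝ, mean (fun i : Fin n × Fin K → Fin N => F fun k j => i (k, j))
      = mean F := fun F => by
    simp only [mean]
    rw [Fintype.card_congr (Equiv.curry (Fin n) (Fin K) (Fin N))]
    congr 1
    exact (Equiv.curry (Fin n) (Fin K) (Fin N)).sum_comp F
  rw [e1 fun i => M.avgVal G hL τ s t (univ.val.map fun k => (d k, i k))]
  have e2 : (∑ h : Fin N → M.Hh, (∏ v, M.wH (h v)) * mean fun i : Fin n → Fin K → Fin N =>
        log (∑ σ : Fin N → Bool, exp (∑ k, M.th (d k) (fun j => σ (i k j)) + ∑ v, M.hv (h v) * spin (σ v))))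
      = mean fun i : Fin n → Fin K → Fin N => wmean M.fldW fun h => wmean (rootW τ N fun _ => s) fun _ =>
          log (∑ σ, exp (M.confH (univ.val.map fun k => (d k, i k)) h σ)) := by
    simp only [wmean_const (rootW_weight τ _), mean_eq_wmean, FinModel.confH, map_univ_sum]
    exact wmean_comm _ _ _
  rw [e2, show (N : ℝ) * log 2 = mean fun _ : Fin n → Fin K → Fin N => (N : ℝ) * log 2 from
    (mean_const _).symm, mean_sub, mean_sub]
  refine mean_abs_le (by positivity) fun i => ?_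
  rw [FinModel.avgVal, ← wmean_const (fldW_weight M) ((N : ℝ) * log 2), ← wmean_sub, ← wmean_sub]
  refine wmean_abs (fldW_weight M) fun g => ?_
  rw [← wmean_const (rootW_weight (N := N) τ fun _ => s) ((N : ℝ) * log 2), ← wmean_sub, ← wmean_sub]
  refine wmean_abs (rootW_weight τ _) fun r => ?_
  rw [sub_sub_eq_add_sub]
  exact root_flat M G hL hτ ht s _ g r

theorem press_compare [NeZero N] (hτ : ∀ p, |(τ p).u| * (τ p).n ≤ 1 / 2) {t : Fin P → ℝ}
    (ht : ∀ p, |t p| ≤ 2) {lam : ℝ} (hlam : 0 ≤ lam) (s : ℕ) :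
    |pE (fun a => lam * N * M.slotW N a) (M.avgVal G hL τ s t) + N * log 2 - N * M.pressure lam N|
      ≤ 5 * (P * s) := by
  have hN : (N : ℝ) ≠ 0 := Nat.cast_ne_zero.2 (NeZero.ne N)
  have hc : 0 ≤ lam * (N : ℝ) := mul_nonneg hlam (Nat.cast_nonneg N)
  rw [pE_mul _ _ (slotW_weight M).sum,
    show (N : ℝ) * M.pressure lam N = ∑' n, pois (lam * N) n * M.pressFn N n by
      rw [FinModel.pressure, mul_div_cancel₀ _ hN]; rfl]
  have hb : ∀ n : ℕ, |M.pressFn N n - N * log 2| ≤ M.tabBound * n + (N * M.fldBound + 2 * N * log 2) :=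
    fun n => by
    refine (abs_sub _ _).trans ?_
    have h1 : |M.pressFn N n| ≤ M.tabBound * n + (N * M.fldBound + N * log 2) := by
      refine wsum_abs_le (wD_prod_nonneg M) (wD_prod_sum M n) fun d =>
        wsum_abs_le (fun h => prod_nonneg fun v _ => M.wH_nonneg _)
          (by rw [← Fintype.prod_sum fun _ h => M.wH h, prod_eq_one fun _ _ => M.wH_sum]) fun h =>
            mean_abs_le ?_ fun i => ?_
      · have := tabBound_nonneg M; have := fldBound_nonneg M
        positivity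
      refine (rawZ_abs (fun k => M.th (d k)) i fun v => M.hv (h v)).trans ?_
      have a1 : ∑ k, tnorm (M.th (d k)) ≤ M.tabBound * n := by
        refine (sum_le_sum (g := fun _ => M.tabBound) fun k _ => single_le_sum (f := fun d => ∑ s, |M.th d s|)
          (fun _ _ => sum_nonneg fun _ _ => abs_nonneg _) (mem_univ (d k))).trans (le_of_eq ?_)
        simp [mul_comm]
      have a2 : ∑ v, |M.hv (h v)| ≤ N * M.fldBound := by
        refine (sum_le_sum (g := fun _ => M.fldBound) fun v _ => single_le_sum (f := fun h => |M.hv h|)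
          (fun _ _ => abs_nonneg _) (mem_univ (h v))).trans (le_of_eq ?_)
        simp
      linarith
    have h2 : |(N : ℝ) * log 2| = N * log 2 :=
      abs_of_nonneg (mul_nonneg (Nat.cast_nonneg N) (log_nonneg one_le_two))
    linarith
  have h := tsum_pois_diff (δ := 0) (η := 5 * ((P : ℝ) * s)) hc hb
    (a' := fun n => ∑ a : Fin n → M.Atom N, (∏ k, M.slotW N (a k)) * M.avgVal G hL τ s t (univ.val.map a))
    fun n => (press_point M G hL hτ ht s n).trans (by rw [zero_mul, zero_add])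
  rw [zero_mul, zero_add] at h
  have e : ∑' n, pois (lam * N) n * (M.pressFn N n - N * log 2)
      = ∑' n, pois (lam * N) n * M.pressFn N n - N * log 2 := by
    have hs := summable_pois_mul hc hb
    have hk := (hasSum_pois (lam * N)).summable.mul_right ((N : ℝ) * log 2)
    have := (hs.hasSum.add hk.hasSum).tsum_eq
    rw [tsum_mul_right, (hasSum_pois _).tsum_eq, one_mul] at this
    rw [tsum_congr fun n => show pois (lam * N) n * M.pressFn N n
      = pois (lam * N) n * (M.pressFn N n - N * log 2) + pois (lam * N) n * (N * log 2) by ring, this]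
    ring
  rw [e] at h
  rw [abs_le] at h ⊢
  constructor <;> linarith

/-! ### The statement -/

theorem termCount_mono {a b : ℕ} (h : a ≤ b) : termCount a ≤ termCount b :=
  Nat.floor_mono (rpow_le_rpow (Nat.cast_nonneg a) (Nat.cast_le.2 h) (by norm_num))

theorem boxWidth_anti (n : ℕ) : boxWidth (n + 2) ≤ boxWidth (n + 1) :=
  rpow_le_rpow_of_nonpos (Nat.cast_pos.2 n.succ_pos) (Nat.cast_le.2 (Nat.le_succ _)) (by norm_num)

theorem termCount_over_tendsto : Tendsto (fun n : ℕ => (termCount n : ℝ) / n) atTop (𝓝 0) := by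
  refine squeeze_zero' (Eventually.of_forall fun n => by positivity) ?_
    ((tendsto_rpow_neg_atTop (show (0 : ℝ) < 1 / 4 by norm_num)).comp tendsto_natCast_atTop_atTop)
  filter_upwards [eventually_gt_atTop 0] with n hn
  have h0 : (0 : ℝ) < n := Nat.cast_pos.2 hn
  rw [div_le_iff₀ h0]
  refine (Nat.floor_le (rpow_nonneg h0.le _)).trans (le_of_eq ?_)
  rw [Function.comp_apply, show (3 / 4 : ℝ) = -(1 / 4) + 1 by norm_num, rpow_add h0, rpow_one]

/-- The root value at size `n + 1` with scaled parameters. -/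
noncomputable def FinModel.sizeVal (lam : ℝ) (n : ℕ) (t : Fin P → ℝ) (τ : Fin P → Kind L) : ℝ :=
  pE (fun a => lam * ((n + 1 : ℕ) : ℝ) * M.slotW (n + 1) a)
      (M.avgVal G hL τ (termCount (n + 1)) fun p => boxWidth (n + 1) * t p) + ((n + 1 : ℕ) : ℝ) * log 2

/-- The vanishing part of the error of one step. -/
noncomputable def FinModel.stepErr (lam : ℝ) (P n : ℕ) : ℝ :=
  (3 * M.tabBound * lam * (K : ℝ) ^ 2 + 2 * M.cavTotal lam * lam) / ((n : ℝ) + 1)
    + 10 * P * ((termCount (n + 1) : ℝ) / ((n : ℝ) + 1))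

theorem stepErr_tendsto (lam : ℝ) : Tendsto (M.stepErr lam P) atTop (𝓝 0) := by
  have a := (tendsto_one_div_add_atTop_nhds_zero_nat (𝕜 := ℝ)).const_mul
    (3 * M.tabBound * lam * (K : ℝ) ^ 2 + 2 * M.cavTotal lam * lam)
  have b := (termCount_over_tendsto.comp (tendsto_add_atTop_nat 1)).const_mul (10 * (P : ℝ))
  have h := a.add b
  simp only [mul_zero, add_zero] at h
  refine h.congr fun n => ?_
  simp only [FinModel.stepErr, Function.comp_apply, Nat.cast_succ, mul_one_div]

theorem box_param {t : Fin P → ℝ} (ht : ∀ p, t p ∈ Set.Icc (0 : ℝ) 1) (n : ℕ) (p : Fin P) :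
    |boxWidth (n + 1) * t p| ≤ 2 := by
  obtain ⟨h1, h2⟩ := boxWidth_mem n
  rw [abs_of_nonneg (mul_nonneg h1.le (ht p).1)]
  nlinarith [(ht p).1, (ht p).2]

theorem cav_step {lam : ℝ} (hlam : 0 ≤ lam) (hK : 1 ≤ K) (hτ : ∀ p, |(τ p).u| * (τ p).n ≤ 1 / 2)
    {t : Fin P → ℝ} (ht : ∀ p, t p ∈ Set.Icc (0 : ℝ) 1) (n : ℕ) :
    M.cavGain lam hlam L hL G τ n t
      ≤ M.sizeVal G hL lam (n + 1) t τ - M.sizeVal G hL lam n t τ + M.stepErr lam P n
        + (5 * P * ((termCount (n + 2) : ℝ) - termCount (n + 1))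
          + 2 * P * ((termCount (n + 1) : ℝ) * (boxWidth (n + 1) - boxWidth (n + 2)))) := by
  classical
  set N := n + 1 with hN
  set s := termCount N with hs
  set tN : Fin P → ℝ := fun p => boxWidth N * t p
  obtain ⟨d, hd⟩ := Nat.exists_eq_add_of_le (termCount_mono (Nat.le_succ (n + 1)))
  rw [← hN, ← hs] at hd
  have htN : ∀ p, |tN p| ≤ 2 := box_param ht n
  have htN1 : ∀ p, |boxWidth (n + 2) * t p| ≤ 2 := box_param ht (n + 1)
  have hn : (0 : ℝ) ≤ n := Nat.cast_nonneg n
  -- sizes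
  have h1 := step_pair (N := N) M G hL hτ htN hK hlam s
  have h2 := step_terms (N := N + 1) M G hL hτ htN1 hlam s d tN
  have hsum : ∑ p, |boxWidth (n + 2) * t p - tN p| ≤ P * (boxWidth (n + 1) - boxWidth (n + 2)) := by
    refine (sum_le_sum (g := fun _ => boxWidth (n + 1) - boxWidth (n + 2)) fun p _ => ?_).trans
      (le_of_eq (by rw [sum_const, card_univ, Fintype.card_fin, nsmul_eq_mul]))
    rw [abs_sub_comm, ← sub_mul, abs_mul, abs_of_nonneg (sub_nonneg.2 (boxWidth_anti n)),
      abs_of_nonneg (ht p).1]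
    exact mul_le_of_le_one_right (sub_nonneg.2 (boxWidth_anti n)) (ht p).2
  have hsum' := mul_le_mul_of_nonneg_left hsum (show (0 : ℝ) ≤ 2 * s by positivity)
  -- the cut
  set m := ⌈4 * lam * ((n : ℝ) + 1)⌉₊ + 4 * (n + 1)
  set c := lam * ((n : ℝ) + 2) * (((n : ℝ) + 1) / ((n : ℝ) + 2)) ^ K with hc
  have hc0 : 0 ≤ c := mul_nonneg (mul_nonneg hlam (by positivity)) (by positivity)
  obtain ⟨hc2, hc3, -⟩ := cut_bounds hlam n K
  rw [← hc] at hc2 hc3
  have hb : ∀ ms : Multiset (M.Atom N), |M.cavity lam (M.gainT G hL τ s tN ms)| ≤ M.cavTotal lam :=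
    fun ms => (sums_abs M hlam hK (gainT_bdd M G hL τ s tN ms)).2.2
  have hCB : 0 ≤ M.cavTotal lam := (abs_nonneg _).trans (hb 0)
  have hm : 4 * ((n : ℝ) + 1) + c ≤ m + 1 := by
    have hceil := Nat.le_ceil (4 * lam * ((n : ℝ) + 1))
    simp only [m]
    push_cast
    nlinarith
  have h3 := pE_cut (slotW_weight M) hc0 m hb
  have htail : 1 - ∑ k : Fin (m + 1), pois c k ≤ lam / ((n : ℝ) + 1) := by
    refine (pois_tail_le hc0 (by linarith)).trans ?_
    calc c / ((m : ℝ) + 1 - c) ^ 2 ≤ 2 * lam * ((n : ℝ) + 1) / (4 * ((n : ℝ) + 1)) ^ 2 :=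
          div_le_div₀ (by positivity) hc3 (by positivity)
            (pow_le_pow_left₀ (by positivity) (by linarith) 2)
      _ ≤ lam / ((n : ℝ) + 1) := by
          rw [div_le_div_iff₀ (by positivity) (by positivity)]
          nlinarith [mul_nonneg hlam (sq_nonneg ((n : ℝ) + 1))]
  have htail' := mul_le_mul_of_nonneg_left htail (show (0 : ℝ) ≤ 2 * M.cavTotal lam by positivity)
  have hgain : M.cavGain lam hlam L hL G τ n t = ∑ k : Fin (m + 1), pois c k / (∑ j : Fin (m + 1), pois c j) *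
      ∑ a : Fin k → M.Atom N, (∏ i, M.slotW N (a i)) * M.cavity lam (M.gainT G hL τ s tN (univ.val.map a)) := by
    unfold FinModel.cavGain FinModel.cavSys
    simp only [gain_cut]
    refine (cavity_wmean M hlam hK
      (fun (j : Σ k : Fin (m + 1), Fin k → M.Atom N) =>
        pois c j.1 / (∑ k : Fin (m + 1), pois c k) * ∏ i, M.slotW N (j.2 i))
      (fun j => M.gainT G hL τ s tN (univ.val.map j.2))
      fun j => gainT_bdd M G hL τ s tN _).trans ?_
    rw [Fintype.sum_sigma]
    simp only [mul_sum, mul_assoc]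
  -- translation
  have hcN : lam * ((N : ℝ) + 1) * ((N : ℝ) / (N + 1)) ^ K = c := by
    simp only [hc, hN, Nat.cast_succ]; ring_nf
  rw [hcN] at h1
  rw [hgain]
  rw [abs_le] at h1 h2 h3
  unfold FinModel.sizeVal FinModel.stepErr
  rw [show n + 1 + 1 = n + 2 from rfl] at *
  rw [show termCount (n + 2) = s + d from hd]
  simp only [hN] at h1 h2 h3 htail' hsum' ⊢
  simp only [hs, hN] at h1 h2 h3 htail' hsum' ⊢
  push_cast at h1 h2 h3 htail' hsum' ⊢
  have e1 : 3 * M.tabBound * (lam * (K : ℝ) ^ 2 / ((n : ℝ) + 1 + 1))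
      ≤ 3 * M.tabBound * lam * (K : ℝ) ^ 2 / ((n : ℝ) + 1) := by
    have := tabBound_nonneg M
    rw [mul_div_assoc']
    refine div_le_div₀ (by positivity) (le_of_eq (by ring)) (by positivity) (by linarith)
  have e2 : (P : ℝ) * (termCount (n + 1) : ℝ) * (10 / ((n : ℝ) + 1 + 1))
      ≤ 10 * P * ((termCount (n + 1) : ℝ) / ((n : ℝ) + 1)) := by
    rw [mul_div_assoc', mul_div_assoc']
    exact div_le_div₀ (by positivity) (le_of_eq (by ring)) (by positivity) (by linarith)
  have e3 : (n : ℝ) + 1 + 1 = (n : ℝ) + 2 := by ring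
  rw [add_div, show (2 * M.cavTotal lam * lam) / ((n : ℝ) + 1) = 2 * M.cavTotal lam * (lam / ((n : ℝ) + 1))
    from mul_div_assoc _ _ _]
  simp only [e3] at *
  linarith

theorem cavityStmt : CavityStmt := by
  intro K hK2 lam hlam M L hL G P τ hτ ε hε
  have hK : 1 ≤ K := by omega
  set CB := M.cavTotal lam
  set A := |M.pressure lam 1| + 5 * (P * termCount 1) + CB with hA
  have hcav : ∀ n t, |M.cavGain lam hlam L hL G τ n t| ≤ CB := fun n t =>
    (sums_abs M hlam hK (gain_bdd _ G M)).2.2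
  have hbox : ∀ N : ℕ, ∀ t : Fin P → ℝ, (∀ p, t p ∈ Set.Icc (0 : ℝ) 1) →
      ∑ n ∈ range (N + 1), M.cavGain lam hlam L hL G τ n t
        ≤ ((N + 1 : ℕ) : ℝ) * M.pressure lam (N + 1) + 12 * P * termCount (N + 1) + A
          + ∑ n ∈ range N, M.stepErr lam P n := by
    intro N t ht
    have h1 := sum_le_sum (s := range N) fun n _ => cav_step M G hL hlam hK hτ ht n
    simp only [sum_add_distrib] at h1
    rw [sum_range_sub (fun n => M.sizeVal G hL lam n t τ)] at h1
    have hd : ∑ n ∈ range N, 5 * (P : ℝ) * ((termCount (n + 2) : ℝ) - termCount (n + 1))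
        ≤ 5 * P * termCount (N + 1) := by
      rw [← mul_sum, sum_range_sub (fun n => (termCount (n + 1) : ℝ))]
      exact mul_le_mul_of_nonneg_left (sub_le_self _ (Nat.cast_nonneg _)) (by positivity)
    have hw : ∑ n ∈ range N, 2 * (P : ℝ) * ((termCount (n + 1) : ℝ) * (boxWidth (n + 1) - boxWidth (n + 2)))
        ≤ 2 * P * termCount (N + 1) := by
      rw [← mul_sum]
      refine mul_le_mul_of_nonneg_left ?_ (by positivity)
      calc ∑ n ∈ range N, (termCount (n + 1) : ℝ) * (boxWidth (n + 1) - boxWidth (n + 2))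
          ≤ ∑ n ∈ range N, (termCount (N + 1) : ℝ) * (boxWidth (n + 1) - boxWidth (n + 2)) :=
            sum_le_sum fun n hn => mul_le_mul_of_nonneg_right
              (Nat.cast_le.2 (termCount_mono (by have := mem_range.1 hn; omega)))
              (sub_nonneg.2 (boxWidth_anti n))
        _ ≤ termCount (N + 1) := by
            rw [← mul_sum, sum_range_sub' (fun n => boxWidth (n + 1))]
            refine mul_le_of_le_one_right (Nat.cast_nonneg _) ?_
            linarith [(boxWidth_mem 0).2, (boxWidth_mem N).1]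
    have hP := abs_le.1 (press_compare (N := N + 1) M G hL hτ (box_param ht N) hlam (termCount (N + 1)))
    have h0 := abs_le.1 (press_compare (N := 0 + 1) M G hL hτ (box_param ht 0) hlam (termCount (0 + 1)))
    rw [sum_range_succ, hA]
    have h2 := (abs_le.1 (hcav N t)).2
    unfold FinModel.sizeVal at h1
    push_cast at h0 hP h1 ⊢
    simp only [one_mul] at h0 h1
    have := neg_abs_le (M.pressure lam 1)
    linarith
  have htend : Tendsto (fun N : ℕ => 12 * (P : ℝ) * ((termCount N : ℝ) / N) + |A| / N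
      + ((N : ℝ))⁻¹ * ∑ n ∈ range N, |M.stepErr lam P n|) atTop (𝓝 0) := by
    have a := termCount_over_tendsto.const_mul (12 * (P : ℝ))
    have b := (tendsto_const_div_atTop_nhds_zero_nat |A|)
    have c := ((stepErr_tendsto (P := P) M lam).abs).cesaro
    simpa using (a.add b).add c
  filter_upwards [htend.eventually (gt_mem_nhds hε), eventually_gt_atTop 0] with N hN hN0
  have hpos : (0 : ℝ) < N := Nat.cast_pos.2 hN0
  obtain ⟨N, rfl⟩ : ∃ k, N = k + 1 := ⟨N - 1, by omega⟩
  have hi : ∀ n, Integrable (M.cavGain lam hlam L hL G τ n) (Measure.pi fun _ : Fin P => unif) := fun n =>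
    integrable_box (continuous_cavGain M lam hlam hK hL G τ n)
  have hsum : ∑ n ∈ range (N + 1), ∫ t, M.cavGain lam hlam L hL G τ n t ∂Measure.pi (fun _ : Fin P => unif)
      ≤ ((N + 1 : ℕ) : ℝ) * M.pressure lam (N + 1) + 12 * P * termCount (N + 1) + |A|
        + ∑ n ∈ range (N + 1), |M.stepErr lam P n| := by
    rw [← integral_finsetSum _ fun n _ => hi n]
    refine (integral_mono_ae (integrable_finsetSum _ fun n _ => hi n) (integrable_const _)
      ((ae_box P).mono fun t ht => hbox N t ht)).trans ?_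
    rw [integral_const, probReal_univ, one_smul]
    have hs : ∑ n ∈ range N, M.stepErr lam P n ≤ ∑ n ∈ range (N + 1), |M.stepErr lam P n| := by
      rw [sum_range_succ]
      exact (sum_le_sum fun n _ => le_abs_self _).trans (le_add_of_nonneg_right (abs_nonneg _))
    linarith [le_abs_self A]
  change (∑ n ∈ range (N + 1), ∫ t, M.cavGain lam hlam L hL G τ n t ∂Measure.pi (fun _ : Fin P => unif))
    / ((N + 1 : ℕ) : ℝ) ≤ _
  rw [div_le_iff₀ hpos]
  refine hsum.trans ?_
  have key : 12 * (P : ℝ) * termCount (N + 1) + |A| + ∑ n ∈ range (N + 1), |M.stepErr lam P n|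
      = (12 * (P : ℝ) * ((termCount (N + 1) : ℝ) / ((N + 1 : ℕ) : ℝ)) + |A| / ((N + 1 : ℕ) : ℝ)
        + (((N + 1 : ℕ) : ℝ))⁻¹ * ∑ n ∈ range (N + 1), |M.stepErr lam P n|) * ((N + 1 : ℕ) : ℝ) := by
    field_simp
  have := mul_le_mul_of_nonneg_right hN.le hpos.le
  rw [← key] at this
  rw [add_mul]
  linarith

end Vale.Agent.P168
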