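import Vale.Agent.P168.Tree.Deriv

/-!
# P168, lower bound: the law of the shapes of sequentially attached replicas is exchangeable

Two consecutive attachments are symmetrical, so the shape of `d + 1` replicas has a law invariant under
permutations, and every sub-family has the law of a shorter sequence.
-/

open Real Finset

namespace Vale.Agent.P168

variable {L n d : ℕ}

theorem Shape.ext_J {S T : Shape L n} (h : ∀ a b, S.J a b = T.J a b) : S = T := by
  cases S; cases T
  simp only [Shape.mk.injEq]
  exact funext fun a => funext (h a)

/-- One attachment, averaged with the weights of the places. -/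
noncomputable def attStep (G : Grid L) (S : Shape L n) (F : Shape L (n + 1) → ℝ) : ℝ :=
  ∑ i, ∑ t : Fin L, S.attW G i t * F (S.ext i t t.2)

/-- The law of the shape of `d + 1` replicas attached one after another. -/
noncomputable def seqLaw (G : Grid L) : ∀ d, (Shape L (d + 1) → ℝ) → ℝ
  | 0, F => F (Shape.one L)
  | d + 1, F => seqLaw G d fun S => attStep G S F / (d + 1)

theorem attW_total (S : Shape L n) (G : Grid L) (i : Fin n) : ∑ t : Fin L, S.attW G i t = 1 := by
  rw [Fin.sum_univ_eq_sum_range (fun t => S.attW G i t), range_eq_Ico, sum_attW _ _ (Nat.zero_le L),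
    G.m_zero, zero_div, sub_zero]

theorem attStep_mono (G : Grid L) (S : Shape L n) {F F' : Shape L (n + 1) → ℝ} (h : ∀ T, F T ≤ F' T) :
    attStep G S F ≤ attStep G S F' :=
  sum_le_sum fun i _ => sum_le_sum fun t _ => mul_le_mul_of_nonneg_left (h _) (attW_nonneg S G t.2 i)

theorem attStep_const (G : Grid L) (S : Shape L n) (c : ℝ) : attStep G S (fun _ => c) = n * c := by
  simp [attStep, ← sum_mul, attW_total]

theorem attStep_lin (G : Grid L) (S : Shape L n) (a b : ℝ) (F F' : Shape L (n + 1) → ℝ) :
    attStep G S (fun T => a * F T + b * F' T) = a * attStep G S F + b * attStep G S F' := by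
  simp only [attStep, mul_sum, ← sum_add_distrib]
  exact sum_congr rfl fun i _ => sum_congr rfl fun t _ => by ring

theorem seqLaw_mono (G : Grid L) : ∀ (d : ℕ) {F F' : Shape L (d + 1) → ℝ}, (∀ T, F T ≤ F' T) →
    seqLaw G d F ≤ seqLaw G d F'
  | 0, _, _, h => h _
  | d + 1, _, _, h => seqLaw_mono G d fun S =>
      div_le_div_of_nonneg_right (attStep_mono G S h) (by positivity)

theorem seqLaw_const (G : Grid L) : ∀ (d : ℕ) (c : ℝ), seqLaw G d (fun _ => c) = c
  | 0, _ => rfl
  | d + 1, c => by
    rw [seqLaw]
    simp only [attStep_const]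
    rw [seqLaw_const G d]
    push_cast
    field_simp

theorem seqLaw_lin (G : Grid L) : ∀ (d : ℕ) (a b : ℝ) (F F' : Shape L (d + 1) → ℝ),
    seqLaw G d (fun T => a * F T + b * F' T) = a * seqLaw G d F + b * seqLaw G d F'
  | 0, _, _, _, _ => rfl
  | d + 1, a, b, F, F' => by
    simp only [seqLaw, attStep_lin, add_div, mul_div_assoc]
    exact seqLaw_lin G d a b _ _

theorem seqLaw_const_mul (G : Grid L) (d : ℕ) (a : ℝ) (F : Shape L (d + 1) → ℝ) :
    seqLaw G d (fun T => a * F T) = a * seqLaw G d F := by
  simpa using seqLaw_lin G d a 0 F F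

theorem seqLaw_sum (G : Grid L) (d : ℕ) {α : Type*} (s : Finset α) (F : α → Shape L (d + 1) → ℝ) :
    seqLaw G d (fun T => ∑ a ∈ s, F a T) = ∑ a ∈ s, seqLaw G d (F a) := by
  classical
  induction s using Finset.induction_on with
  | empty => simpa using seqLaw_const G d 0
  | insert a s ha ih =>
    simp only [sum_insert ha]
    have := seqLaw_lin G d 1 1 (F a) fun T => ∑ b ∈ s, F b T
    simp only [one_mul] at this
    rw [this, ih]

theorem seqLaw_abs (G : Grid L) (d : ℕ) (F : Shape L (d + 1) → ℝ) :
    |seqLaw G d F| ≤ seqLaw G d fun T => |F T| :=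
  abs_le.2 ⟨by
    rw [← neg_one_mul, ← seqLaw_const_mul]
    exact seqLaw_mono G d fun T => by linarith [neg_abs_le (F T)],
    seqLaw_mono G d fun T => le_abs_self _⟩

/-- A node-invariant sum over the places of an extended shape. -/
theorem node_sum_ext (G : Grid L) (S : Shape L n) (i : Fin n) (t s : Fin L) (g : Fin (n + 1) → ℝ)
    (hinv : ∀ a b, (s : ℕ) ≤ (S.ext i t t.2).J a b → g a = g b)
    (hlast : (t : ℕ) ≤ s → g (Fin.last n) = 0) :
    ∑ a, (S.ext i t t.2).attW G a s * g a = ∑ j, S.attW G j s * g j.castSucc := by
  set U := S.ext i t t.2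
  have key : ∀ r, (s : ℕ) ≤ r → r ≤ (s : ℕ) + 1 → ∑ a, g a / U.sz r a = ∑ j, g j.castSucc / S.sz r j := by
    intro r hr1 hr2
    have hr : r ≤ L := hr2.trans s.2
    have hc : U.comap Fin.castSuccEmb = S := ext_comap S i t.2
    have hat := ext_attached S i t.2
    have hf : ∀ a b, r ≤ U.J a b → g a = g b := fun a b hab => hinv a b (hr1.trans hab)
    by_cases hrt : r ≤ t
    · rw [← sum_nodes_meet U Fin.castSuccEmb hr g hf fun a => ?_, hc]
      · rfl
      · by_cases ha : a = Fin.last n
        · exact ⟨i, by rw [ha]; exact hrt.trans hat.join.ge⟩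
        · obtain ⟨c, rfl⟩ := Fin.exists_castSucc_eq.2 ha
          exact ⟨c, by show r ≤ U.J c.castSucc c.castSucc; rw [U.self]; exact hr⟩
    · have h := sum_nodes_closed U Fin.castSuccEmb g (s := r) fun c a hca => by
        refine Fin.exists_castSucc_eq.2 fun ha => ?_
        have : U.J (Fin.last n) (Fin.castSuccEmb c) ≤ t := hat.top c
        rw [ha, U.symm] at hca
        omega
      rw [hc] at h
      have hu : (univ : Finset (Fin (n + 1))) = insert (Fin.last n) (univ.map Fin.castSuccEmb) := by
        ext a
        simp only [mem_univ, mem_insert, Finset.mem_map, true_and, true_iff]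
        exact (em (a = Fin.last n)).imp id Fin.exists_castSucc_eq.2
      rw [hu, sum_insert (by simp), hlast (by omega), zero_div, zero_add]
      exact h.symm
  have h1 := key (s + 1) (by omega) le_rfl
  have h0 := key s le_rfl (by omega)
  simp only [Shape.attW, sub_mul, sum_sub_distrib, div_mul_eq_mul_div]
  simp only [mul_div_assoc, ← mul_sum, h1, h0]

/-- The exchange of the last two replicas. -/
def lastSwap (n : ℕ) : Equiv.Perm (Fin (n + 2)) :=
  Equiv.swap (Fin.last n).castSucc (Fin.last (n + 1))

theorem lastSwap_last (n : ℕ) : lastSwap n (Fin.last (n + 1)) = (Fin.last n).castSucc := by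
  simp [lastSwap]

theorem lastSwap_mid (n : ℕ) : lastSwap n (Fin.last n).castSucc = Fin.last (n + 1) := by
  simp [lastSwap]

theorem lastSwap_cast (j : Fin n) : lastSwap n j.castSucc.castSucc = j.castSucc.castSucc :=
  Equiv.swap_apply_of_ne_of_ne (by simp [Fin.ext_iff]; omega) (by simp [Fin.ext_iff]; omega)

theorem ext_ext_swap (S : Shape L n) (i j : Fin n) (t s : Fin L) :
    ((S.ext i t t.2).ext j.castSucc s s.2).comap (lastSwap n).toEmbedding =
      (S.ext j s s.2).ext i.castSucc t t.2 := by
  have hs := S.symm i j
  refine Shape.ext_J fun a b => ?_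
  induction a using Fin.lastCases with
  | last =>
    induction b using Fin.lastCases with
    | last => simp [Shape.comap, Shape.ext, Shape.extJ, lastSwap_last]
    | cast b =>
      induction b using Fin.lastCases with
      | last => simp [Shape.comap, Shape.ext, Shape.extJ, lastSwap_last, lastSwap_mid, hs]; omega
      | cast b => simp [Shape.comap, Shape.ext, Shape.extJ, lastSwap_last, lastSwap_cast]
  | cast a =>
    induction a using Fin.lastCases with
    | last =>
      induction b using Fin.lastCases with
      | last => simp [Shape.comap, Shape.ext, Shape.extJ, lastSwap_last, lastSwap_mid, hs]; omega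
      | cast b =>
        induction b using Fin.lastCases with
        | last => simp [Shape.comap, Shape.ext, Shape.extJ, lastSwap_mid]
        | cast b => simp [Shape.comap, Shape.ext, Shape.extJ, lastSwap_mid, lastSwap_cast]
    | cast a =>
      induction b using Fin.lastCases with
      | last => simp [Shape.comap, Shape.ext, Shape.extJ, lastSwap_last, lastSwap_cast]
      | cast b =>
        induction b using Fin.lastCases with
        | last => simp [Shape.comap, Shape.ext, Shape.extJ, lastSwap_mid, lastSwap_cast]
        | cast b => simp [Shape.comap, Shape.ext, Shape.extJ, lastSwap_cast]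

theorem ext_last_swap (S : Shape L n) (i : Fin n) (t s : Fin L) (h : (t : ℕ) ≤ s) :
    ((S.ext i t t.2).ext (Fin.last n) s s.2).comap (lastSwap n).toEmbedding =
      (S.ext i t t.2).ext (Fin.last n) s s.2 := by
  refine Shape.ext_J fun a b => ?_
  induction a using Fin.lastCases with
  | last =>
    induction b using Fin.lastCases with
    | last => simp [Shape.comap, Shape.ext, Shape.extJ, lastSwap_last]
    | cast b =>
      induction b using Fin.lastCases with
      | last => simp [Shape.comap, Shape.ext, Shape.extJ, lastSwap_last, lastSwap_mid]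
      | cast b => simp [Shape.comap, Shape.ext, Shape.extJ, lastSwap_last, lastSwap_cast]; omega
  | cast a =>
    induction a using Fin.lastCases with
    | last =>
      induction b using Fin.lastCases with
      | last => simp [Shape.comap, Shape.ext, Shape.extJ, lastSwap_last, lastSwap_mid]
      | cast b =>
        induction b using Fin.lastCases with
        | last => simp [Shape.comap, Shape.ext, Shape.extJ, lastSwap_mid]
        | cast b => simp [Shape.comap, Shape.ext, Shape.extJ, lastSwap_mid, lastSwap_cast]; omega
    | cast a =>
      induction b using Fin.lastCases with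
      | last => simp [Shape.comap, Shape.ext, Shape.extJ, lastSwap_last, lastSwap_cast]; omega
      | cast b =>
        induction b using Fin.lastCases with
        | last => simp [Shape.comap, Shape.ext, Shape.extJ, lastSwap_mid, lastSwap_cast]; omega
        | cast b => simp [Shape.comap, Shape.ext, Shape.extJ, lastSwap_cast]

theorem ext_congr (S : Shape L n) {a b : Fin n} {s : ℕ} (hs : s < L) (h : s ≤ S.J a b) :
    S.ext a s hs = S.ext b s hs := by
  have e : ∀ c, min s (S.J a c) = min s (S.J b c) := fun c => by
    have := S.ultra a b c; have := S.ultra b a c; have := S.symm a b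
    omega
  refine Shape.ext_J fun x y => ?_
  induction x using Fin.lastCases with
  | last => induction y using Fin.lastCases <;> simp [Shape.ext, Shape.extJ, e]
  | cast x => induction y using Fin.lastCases <;> simp [Shape.ext, Shape.extJ, e]

/-- Two attachments are symmetrical. -/
theorem attStep_two (G : Grid L) (S : Shape L n) (F : Shape L (n + 2) → ℝ) :
    attStep G S (fun U => attStep G U fun V => F (V.comap (lastSwap n).toEmbedding)) =
      attStep G S fun U => attStep G U F := by
  rw [eq_comm, ← sub_eq_zero]
  set Dv : Shape L (n + 2) → ℝ := fun V => F V - F (V.comap (lastSwap n).toEmbedding) with hDv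
  have hD : attStep G S (fun U => attStep G U F) -
      attStep G S (fun U => attStep G U fun V => F (V.comap (lastSwap n).toEmbedding)) =
      ∑ i, ∑ t : Fin L, S.attW G i t * ∑ a, ∑ s : Fin L,
        (S.ext i t t.2).attW G a s * Dv ((S.ext i t t.2).ext a s s.2) := by
    simp only [attStep, hDv, mul_sub, sum_sub_distrib, mul_sum]
  set D : Fin n → Fin L → Fin n → Fin L → ℝ := fun i t j s =>
    Dv ((S.ext i t t.2).ext j.castSucc s s.2) with hDd
  have hnode : ∀ i (t : Fin L), (∑ a, ∑ s : Fin L,
      (S.ext i t t.2).attW G a s * Dv ((S.ext i t t.2).ext a s s.2)) =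
      ∑ j, ∑ s : Fin L, S.attW G j s * D i t j s := fun i t => by
    rw [sum_comm, sum_comm (γ := Fin n)]
    refine sum_congr rfl fun s _ => node_sum_ext G S i t s
      (fun a => Dv ((S.ext i t t.2).ext a s s.2)) (fun a b hab => ?_) fun hts => ?_
    · exact congrArg Dv (ext_congr _ s.2 hab)
    · simp only [hDv, ext_last_swap S i t s hts, sub_self]
  have hanti : ∀ i t j s, D i t j s = -D j s i t := fun i t j s => by
    have h1 : ((S.ext i t t.2).ext j.castSucc s s.2).comap (lastSwap n).toEmbedding =
        (S.ext j s s.2).ext i.castSucc t t.2 := ext_ext_swap S i j t s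
    have h2 : ((S.ext j s s.2).ext i.castSucc t t.2).comap (lastSwap n).toEmbedding =
        (S.ext i t t.2).ext j.castSucc s s.2 := ext_ext_swap S j i s t
    simp only [hDd, hDv, h1, h2]
    ring
  rw [hD]
  simp only [hnode]
  have hneg : ∑ p : Fin n × Fin L, ∑ q : Fin n × Fin L,
      S.attW G p.1 p.2 * (S.attW G q.1 q.2 * D p.1 p.2 q.1 q.2) =
      -∑ p : Fin n × Fin L, ∑ q : Fin n × Fin L,
        S.attW G p.1 p.2 * (S.attW G q.1 q.2 * D p.1 p.2 q.1 q.2) := by
    conv_lhs => rw [sum_comm]
    rw [← sum_neg_distrib]
    refine sum_congr rfl fun p _ => ?_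
    rw [← sum_neg_distrib]
    refine sum_congr rfl fun q _ => ?_
    rw [hanti p.1 p.2 q.1 q.2]
    ring
  simp only [Fintype.sum_prod_type] at hneg
  simp only [mul_sum]
  linarith

theorem attW_comap (G : Grid L) (S : Shape L n) (p : Equiv.Perm (Fin n)) (i : Fin n) (t : ℕ) :
    (S.comap p.toEmbedding).attW G i t = S.attW G (p i) t := by
  have h : ∀ s, (S.comap p.toEmbedding).sz s i = S.sz s (p i) := fun s => by
    refine card_equiv p fun j => ?_
    simp [mem_cls, Shape.comap]
  simp only [Shape.attW, h]

theorem attStep_comap (G : Grid L) (S : Shape L n) (p : Equiv.Perm (Fin n))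
    (p' : Equiv.Perm (Fin (n + 1))) (h : ∀ j, p' j.castSucc = (p j).castSucc)
    (hl : p' (Fin.last n) = Fin.last n) (F : Shape L (n + 1) → ℝ) :
    attStep G S (fun T => F (T.comap p'.toEmbedding)) = attStep G (S.comap p.toEmbedding) F := by
  simp only [attStep]
  refine (Fintype.sum_equiv p _ _ fun i => sum_congr rfl fun t _ => ?_).symm
  rw [attW_comap]
  congr 2
  refine Shape.ext_J fun a b => ?_
  induction a using Fin.lastCases with
  | last => induction b using Fin.lastCases <;> simp [Shape.comap, Shape.ext, Shape.extJ, h, hl]
  | cast a => induction b using Fin.lastCases <;> simp [Shape.comap, Shape.ext, Shape.extJ, h, hl]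

/-- The law is exchangeable. -/
theorem seqLaw_perm (G : Grid L) : ∀ (d : ℕ) (p : Equiv.Perm (Fin (d + 1))) (F : Shape L (d + 1) → ℝ),
    seqLaw G d (fun T => F (T.comap p.toEmbedding)) = seqLaw G d F
  | 0, p, F => congrArg F (Shape.ext_J fun a b => by
      show (Shape.one L).J _ _ = _
      rfl)
  | d + 1, p, F => by
    have hp : p ∈ Submonoid.closure
        (Set.range fun i : Fin (d + 1) => Equiv.swap i.castSucc i.succ) := by
      rw [Equiv.Perm.mclosure_swap_castSucc_succ]; trivial
    induction hp using Submonoid.closure_induction generalizing F with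
    | mem x hx =>
      obtain ⟨i, rfl⟩ := hx
      induction i using Fin.lastCases with
      | cast i =>
        simp only [seqLaw]
        have h := fun S : Shape L (d + 1) => attStep_comap G S (Equiv.swap i.castSucc i.succ)
          (Equiv.swap i.castSucc.castSucc i.castSucc.succ)
          (fun j => by
            rw [← Fin.castSucc_succ, (Fin.castSucc_injective _).swap_apply])
          (Equiv.swap_apply_of_ne_of_ne (by simp [Fin.ext_iff]; omega) (by simp [Fin.ext_iff]; omega)) F
        simp only [h]
        exact seqLaw_perm G d (Equiv.swap i.castSucc i.succ) fun S => attStep G S F / (d + 1)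
      | last =>
        cases d with
        | zero =>
          congr 1
          funext T
          congr 1
          exact Shape.ext_J fun a b => by
            fin_cases a <;> fin_cases b <;> simp [Shape.comap, T.self, T.symm]
        | succ d =>
          show seqLaw G (d + 2) (fun T => F (T.comap (lastSwap (d + 1)).toEmbedding)) = _
          simp only [seqLaw]
          congr 1
          funext S
          congr 1
          have h := attStep_two G S F
          simp only [attStep] at h ⊢
          simp only [mul_div_assoc', ← sum_div] at h ⊢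
          rw [h]
    | one => rfl
    | mul x y _ _ hx hy =>
      calc seqLaw G (d + 1) (fun T => F (T.comap (x * y).toEmbedding))
          = seqLaw G (d + 1) (fun T => (fun U : Shape L (d + 2) => F (U.comap y.toEmbedding))
              (T.comap x.toEmbedding)) := rfl
        _ = _ := (hx fun U => F (U.comap y.toEmbedding)).trans (hy F)

/-- Every sub-family has the law of a shorter sequence. -/
theorem seqLaw_comap (G : Grid L) : ∀ {d k : ℕ} (e : Fin (k + 1) ↪ Fin (d + 1))
    (F : Shape L (k + 1) → ℝ), seqLaw G d (fun T => F (T.comap e)) = seqLaw G k F := by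
  intro d
  induction d with
  | zero =>
    intro k e F
    obtain rfl : k = 0 := by
      have := Fintype.card_le_of_embedding e
      simpa using this
    exact congrArg F (Shape.ext_J fun a b => rfl)
  | succ d ih =>
    intro k e F
    by_cases he : Function.Surjective e
    · obtain rfl : k = d + 1 := by
        have := Fintype.card_of_bijective ⟨e.injective, he⟩
        simpa using this
      exact seqLaw_perm G (d + 1) (Equiv.ofBijective e ⟨e.injective, he⟩) F
    · simp only [Function.Surjective, not_forall, not_exists] at he
      obtain ⟨j, hj⟩ := he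
      set p := Equiv.swap j (Fin.last (d + 1))
      have hr : ∀ c, ∃ a : Fin (d + 1), a.castSucc = p (e c) := fun c =>
        Fin.exists_castSucc_eq.2 fun h => hj c (by
          rw [← Equiv.swap_apply_self j (Fin.last (d + 1)) (e c), h, Equiv.swap_apply_right])
      choose g hg using hr
      let e' : Fin (k + 1) ↪ Fin (d + 1) := ⟨g, fun a b hab => e.injective (p.injective (by
        rw [← hg a, ← hg b, hab]))⟩
      rw [← seqLaw_perm G (d + 1) p]
      have h1 : ∀ T : Shape L (d + 2), (T.comap p.toEmbedding).comap e =
          (T.comap Fin.castSuccEmb).comap e' := fun T => Shape.ext_J fun a b => by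
        show T.J (p (e a)) (p (e b)) = T.J (g a).castSucc (g b).castSucc
        rw [hg, hg]
      simp only [h1, seqLaw]
      rw [← ih e' F]
      congr 1
      funext S
      simp only [attStep, ext_comap, ← sum_mul, attW_total]
      simp
      field_simp

end Vale.Agent.P168
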