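import Vale.Agent.P168.Lower.Continuity

/-!
# P168: Poisson averages over multisets of atoms

`pE c Φ` is the mean of `Φ` at a Poisson configuration with intensity `c` on a finite alphabet: it is
linear, splits over sums of intensities, moves along maps of the alphabet, and is Lipschitz in the
intensity when `Φ` has bounded increments.
-/

open Real Finset

namespace Vale.Agent.P168

variable {A A' : Type} [Fintype A] [Fintype A'] {c d : A → ℝ} {Φ Ψ : Multiset A → ℝ}

/-- Adding one atom. -/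
noncomputable def pT (c : A → ℝ) : Module.End ℝ (Multiset A → ℝ) where
  toFun Φ s := ∑ a, c a * Φ (a ::ₘ s)
  map_add' Φ Ψ := funext fun s => by simp [mul_add, sum_add_distrib]
  map_smul' r Φ := funext fun s => by simp [mul_sum, mul_left_comm]

/-- The Poisson average with intensity `c`. -/
noncomputable def pE (c : A → ℝ) (Φ : Multiset A → ℝ) : ℝ :=
  ∑' n : ℕ, exp (-∑ a, c a) / n.factorial * ((pT c)^[n] Φ) 0

/-- Increments are at most `B`. -/
def PLip (Φ : Multiset A → ℝ) (B : ℝ) : Prop := ∀ a s, |Φ (a ::ₘ s) - Φ s| ≤ B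

theorem pT_apply (c : A → ℝ) (Φ : Multiset A → ℝ) (s : Multiset A) :
    pT c Φ s = ∑ a, c a * Φ (a ::ₘ s) := rfl

theorem pT_iter (c : A → ℝ) : ∀ (n : ℕ) (Φ : Multiset A → ℝ) (s : Multiset A),
    ((pT c)^[n] Φ) s = ∑ a : Fin n → A, (∏ k, c (a k)) * Φ (univ.val.map a + s)
  | 0, Φ, s => by simp
  | n + 1, Φ, s => by
    have h : ∀ (x : A) (a : Fin n → A),
        (univ : Finset (Fin (n + 1))).val.map (Fin.cons x a) = x ::ₘ (univ : Finset (Fin n)).val.map a :=
      fun x a => by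
        simp only [Fin.univ_val_map, List.ofFn_succ, Fin.cons_zero, Fin.cons_succ, Multiset.cons_coe]
    rw [Function.iterate_succ_apply, pT_iter c n,
      ← (Fin.consEquiv fun _ : Fin (n + 1) => A).sum_comp, Fintype.sum_prod_type, sum_comm]
    refine sum_congr rfl fun a _ => ?_
    rw [pT_apply, mul_sum]
    refine sum_congr rfl fun x _ => ?_
    simp only [Fin.consEquiv, Equiv.coe_fn_mk, Fin.prod_univ_succ, Fin.cons_zero, Fin.cons_succ,
      h x a, Multiset.cons_add]
    ring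

theorem pT_iter_zero (c : A → ℝ) (n : ℕ) (Φ : Multiset A → ℝ) :
    ((pT c)^[n] Φ) 0 = ∑ a : Fin n → A, (∏ k, c (a k)) * Φ (univ.val.map a) := by
  simp [pT_iter]

theorem sum_prod_pow (c : A → ℝ) (n : ℕ) : ∑ a : Fin n → A, ∏ k, c (a k) = (∑ a, c a) ^ n := by
  rw [← Fintype.prod_sum fun (_ : Fin n) a => c a, prod_const, card_univ, Fintype.card_fin]

theorem pT_iter_abs (hc : ∀ a, 0 ≤ c a) {C B : ℝ} (hΦ : ∀ s, |Φ s| ≤ C + B * s.card) (n : ℕ) :
    |((pT c)^[n] Φ) 0| ≤ (∑ a, c a) ^ n * (C + B * n) := by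
  rw [pT_iter_zero, ← sum_prod_pow, sum_mul]
  refine (abs_sum_le_sum_abs _ _).trans (sum_le_sum fun a _ => ?_)
  rw [abs_mul, abs_of_nonneg (prod_nonneg fun k _ => hc _)]
  refine mul_le_mul_of_nonneg_left ((hΦ _).trans (le_of_eq ?_)) (prod_nonneg fun k _ => hc _)
  simp

theorem pE_term_abs (hc : ∀ a, 0 ≤ c a) {C B : ℝ} (hΦ : ∀ s, |Φ s| ≤ C + B * s.card) (n : ℕ) :
    |exp (-∑ a, c a) / n.factorial * ((pT c)^[n] Φ) 0| ≤ pois (∑ a, c a) n * (C + B * n) := by
  rw [abs_mul, abs_of_nonneg (show 0 ≤ exp (-∑ a, c a) / n.factorial by positivity)]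
  refine (mul_le_mul_of_nonneg_left (pT_iter_abs hc hΦ n) (by positivity)).trans (le_of_eq ?_)
  rw [pois]; ring

theorem pE_bound_hasSum (x C B : ℝ) : HasSum (fun n : ℕ => pois x n * (C + B * n)) (C + B * x) := by
  have h := ((hasSum_pois x).mul_left C).add ((hasSum_pois_mul x).mul_left B)
  rw [mul_one] at h
  exact h.congr_fun fun n => by ring

theorem pE_summable (hc : ∀ a, 0 ≤ c a) {C B : ℝ} (hΦ : ∀ s, |Φ s| ≤ C + B * s.card) :
    Summable fun n : ℕ => exp (-∑ a, c a) / n.factorial * ((pT c)^[n] Φ) 0 :=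
  Summable.of_norm_bounded (pE_bound_hasSum _ C B).summable
    fun n => (Real.norm_eq_abs _).trans_le (pE_term_abs hc hΦ n)

theorem pE_abs (hc : ∀ a, 0 ≤ c a) {C B : ℝ} (hΦ : ∀ s, |Φ s| ≤ C + B * s.card) :
    |pE c Φ| ≤ C + B * ∑ a, c a :=
  tsum_of_norm_bounded (pE_bound_hasSum _ C B) fun n => (Real.norm_eq_abs _).trans_le (pE_term_abs hc hΦ n)

theorem pE_sub (hc : ∀ a, 0 ≤ c a) {C B C' B' : ℝ} (hΦ : ∀ s, |Φ s| ≤ C + B * s.card)
    (hΨ : ∀ s, |Ψ s| ≤ C' + B' * s.card) : pE c (fun s => Φ s - Ψ s) = pE c Φ - pE c Ψ := by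
  rw [pE, pE, pE, ← Summable.tsum_sub (pE_summable hc hΦ) (pE_summable hc hΨ)]
  refine tsum_congr fun n => ?_
  simp only [pT_iter_zero, ← mul_sub, ← sum_sub_distrib]

theorem pE_const (c : A → ℝ) (r : ℝ) : pE c (fun _ => r) = r := by
  rw [pE]
  have h := ((hasSum_pois (∑ a, c a)).mul_right r).tsum_eq
  rw [one_mul] at h
  refine Eq.trans (tsum_congr fun n => ?_) h
  simp only [pT_iter_zero, ← sum_mul, sum_prod_pow, pois]
  ring

omit [Fintype A] in
theorem PLip.card_bound {B : ℝ} (h : PLip Φ B) : ∀ s, |Φ s - Φ 0| ≤ B * s.card := by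
  intro s
  induction s using Multiset.induction_on with
  | empty => simp
  | cons a s ih =>
    refine (abs_sub_le _ (Φ s) _).trans ((add_le_add (h a s) ih).trans (le_of_eq ?_))
    rw [Multiset.card_cons]; push_cast; ring

omit [Fintype A] in
theorem PLip.growth {B : ℝ} (h : PLip Φ B) (s : Multiset A) : |Φ s| ≤ |Φ 0| + B * s.card :=
  (abs_le.2 ⟨by linarith [(abs_le.1 (h.card_bound s)).1, neg_abs_le (Φ 0)],
    by linarith [(abs_le.1 (h.card_bound s)).2, le_abs_self (Φ 0)]⟩)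

theorem pE_near_zero {B : ℝ} (hc : ∀ a, 0 ≤ c a) (h : PLip Φ B) : |pE c Φ - Φ 0| ≤ B * ∑ a, c a := by
  rw [show Φ 0 = pE c (fun _ => Φ 0) from (pE_const c _).symm,
    ← pE_sub (B' := 0) (C' := |Φ 0|) hc h.growth fun s => by simp]
  refine (pE_abs (C := 0) hc fun s => ?_).trans (le_of_eq (zero_add _))
  rw [zero_add]; exact h.card_bound s

omit [Fintype A] in
theorem PLip.shift {B : ℝ} (h : PLip Φ B) (s : Multiset A) : PLip (fun u => Φ (u + s)) B :=
  fun a u => by simpa using h a (u + s)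

theorem pE_mono {C B C' B' e : ℝ} (hc : ∀ a, 0 ≤ c a) (hΦ : ∀ s, |Φ s| ≤ C + B * s.card)
    (hΨ : ∀ s, |Ψ s| ≤ C' + B' * s.card) (h : ∀ s, |Φ s - Ψ s| ≤ e) : |pE c Φ - pE c Ψ| ≤ e := by
  rw [← pE_sub hc hΦ hΨ]
  exact (pE_abs (C := e) (B := 0) hc fun s => by simpa using h s).trans (le_of_eq (by simp))

theorem PLip.avg {B : ℝ} (hd : ∀ a, 0 ≤ d a) (h : PLip Φ B) :
    PLip (fun s => pE d fun u => Φ (u + s)) B := fun a s => by
  refine pE_mono hd (h.shift _).growth (h.shift _).growth fun u => ?_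
  rw [Multiset.add_cons]
  exact h a (u + s)

theorem pT_shift (c : A → ℝ) (n : ℕ) (Φ : Multiset A → ℝ) (s : Multiset A) :
    ((pT c)^[n] Φ) s = ((pT c)^[n] fun u => Φ (u + s)) 0 := by
  rw [pT_iter_zero, pT_iter]

theorem pT_comm (c d : A → ℝ) : Commute (pT c) (pT d) := by
  refine LinearMap.ext fun Φ => funext fun s => ?_
  simp only [Module.End.mul_apply, pT_apply, mul_sum]
  rw [sum_comm]
  exact sum_congr rfl fun a _ => sum_congr rfl fun b _ => by rw [Multiset.cons_swap]; ring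

theorem pT_add (c d : A → ℝ) : pT (fun a => c a + d a) = pT c + pT d :=
  LinearMap.ext fun Φ => funext fun s => by
    simp [pT_apply, add_mul, sum_add_distrib]

theorem pT_binomial (c d : A → ℝ) (n : ℕ) (Φ : Multiset A → ℝ) :
    ((pT fun a => c a + d a)^[n] Φ) 0 =
      ∑ m ∈ Finset.HasAntidiagonal.antidiagonal n,
        (n.choose m.1 : ℝ) * ((pT c)^[m.1] ((pT d)^[m.2] Φ)) 0 := by
  rw [← Module.End.pow_apply, pT_add, (pT_comm c d).add_pow' n]
  simp [LinearMap.sum_apply, Finset.sum_apply, Module.End.mul_apply, Module.End.pow_apply]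

/-- A configuration with a sum of intensities is a sum of independent configurations. -/
theorem pE_split {B : ℝ} (hc : ∀ a, 0 ≤ c a) (hd : ∀ a, 0 ≤ d a) (h : PLip Φ B) :
    pE (fun a => c a + d a) Φ = pE c fun s => pE d fun u => Φ (u + s) := by
  set x := ∑ a, c a with hx
  set y := ∑ a, d a with hy
  let f : ℕ × ℕ → ℝ := fun q =>
    exp (-x) / q.1.factorial * (exp (-y) / q.2.factorial * ((pT c)^[q.1] ((pT d)^[q.2] Φ)) 0)
  have hx0 : 0 ≤ x := sum_nonneg fun a _ => hc a
  have hy0 : 0 ≤ y := sum_nonneg fun a _ => hd a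
  have hB : ∀ q : ℕ × ℕ, |f q| ≤ pois x q.1 * (pois y q.2 * (|Φ 0| + B * q.1 + B * q.2)) := by
    intro q
    have hq : |((pT c)^[q.1] ((pT d)^[q.2] Φ)) 0| ≤
        x ^ q.1 * (y ^ q.2 * (|Φ 0| + B * q.1 + B * q.2)) := by
      rw [pT_iter_zero, hx, ← sum_prod_pow, sum_mul]
      refine (abs_sum_le_sum_abs _ _).trans (sum_le_sum fun a _ => ?_)
      rw [abs_mul, abs_of_nonneg (prod_nonneg fun k _ => hc _)]
      refine mul_le_mul_of_nonneg_left ?_ (prod_nonneg fun k _ => hc _)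
      rw [pT_iter, hy, ← sum_prod_pow, sum_mul]
      refine (abs_sum_le_sum_abs _ _).trans (sum_le_sum fun b _ => ?_)
      rw [abs_mul, abs_of_nonneg (prod_nonneg fun k _ => hd _)]
      refine mul_le_mul_of_nonneg_left ((h.growth _).trans (le_of_eq ?_)) (prod_nonneg fun k _ => hd _)
      simp
      ring
    simp only [f, abs_mul, abs_div, abs_exp, Nat.abs_cast]
    refine (mul_le_mul_of_nonneg_left (mul_le_mul_of_nonneg_left hq (by positivity)) (by positivity)).trans
      (le_of_eq ?_)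
    simp only [pois]; ring
  have hf : Summable f := by
    have s1 := (hasSum_pois x).summable
    have s2 := (hasSum_pois y).summable
    have t1 := (hasSum_pois_mul x).summable
    have t2 := (hasSum_pois_mul y).summable
    have pn : ∀ {z : ℝ}, 0 ≤ z → ∀ n, 0 ≤ pois z n := fun hz n => pois_nonneg hz n
    have pm : ∀ {z : ℝ}, 0 ≤ z → ∀ n : ℕ, 0 ≤ pois z n * n := fun hz n =>
      mul_nonneg (pois_nonneg hz n) (Nat.cast_nonneg n)
    refine Summable.of_norm_bounded
      ((((s1.mul_of_nonneg s2 (pn hx0) (pn hy0)).mul_left |Φ 0|).add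
        ((t1.mul_of_nonneg s2 (pm hx0) (pn hy0)).mul_left B)).add
          ((s1.mul_of_nonneg t2 (pn hx0) (pm hy0)).mul_left B)) fun q => ?_
    exact (Real.norm_eq_abs _).trans_le ((hB q).trans (le_of_eq (by ring)))
  have lhs : pE (fun a => c a + d a) Φ
      = ∑' n, ∑ m ∈ Finset.HasAntidiagonal.antidiagonal n, f m := by
    refine tsum_congr fun n => ?_
    rw [pT_binomial, mul_sum, sum_add_distrib, ← hx, ← hy, neg_add, exp_add]
    refine sum_congr rfl fun m hm => ?_
    rw [Finset.HasAntidiagonal.mem_antidiagonal] at hm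
    have hch : (n.choose m.1 : ℝ) * ((m.1.factorial : ℝ) * m.2.factorial) = n.factorial := by
      rw [← hm, ← Nat.choose_mul_factorial_mul_factorial (Nat.le_add_right m.1 m.2),
        Nat.add_sub_cancel_left]
      push_cast; ring
    have hch0 : (n.choose m.1 : ℝ) ≠ 0 :=
      Nat.cast_ne_zero.2 (Nat.choose_pos (by omega)).ne'
    simp only [f, ← hch]
    field_simp
  have rhs : (pE c fun s => pE d fun u => Φ (u + s)) = ∑' i, ∑' j, f (i, j) := by
    refine tsum_congr fun i => ?_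
    have key : ((pT c)^[i] fun s => pE d fun u => Φ (u + s)) 0
        = ∑' j : ℕ, exp (-y) / j.factorial * ((pT c)^[i] ((pT d)^[j] Φ)) 0 := by
      simp only [pT_iter_zero c, pE, ← pT_shift d, mul_sum, ← hy, ← tsum_mul_left]
      rw [← Summable.tsum_finsetSum fun a _ => ?_]
      · exact tsum_congr fun j => sum_congr rfl fun a _ => by ring
      · refine ((pE_summable hd (Φ := fun u => Φ (u + univ.val.map a)) (h.shift _).growth).mul_left
          (∏ k, c (a k))).congr fun j => ?_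
        rw [← pT_shift, hy]
    rw [key, ← hx, ← tsum_mul_left]
  rw [lhs, rhs, ← hf.tsum_prod, ← (Finset.HasAntidiagonal.sigmaAntidiagonalEquivProd (A := ℕ)).tsum_eq f]
  have hs : Summable fun c => f (Finset.HasAntidiagonal.sigmaAntidiagonalEquivProd (A := ℕ) c) :=
    (Equiv.summable_iff _).2 hf
  rw [Summable.tsum_sigma hs]
  refine tsum_congr fun n => ?_
  exact (Finset.tsum_subtype (Finset.HasAntidiagonal.antidiagonal n) f).symm

theorem pE_add_le {B : ℝ} (hc : ∀ a, 0 ≤ c a) (hd : ∀ a, 0 ≤ d a) (h : PLip Φ B) :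
    |pE (fun a => c a + d a) Φ - pE c Φ| ≤ B * ∑ a, d a := by
  rw [pE_split hc hd h]
  refine pE_mono hc (h.avg hd).growth h.growth fun s => ?_
  simpa using pE_near_zero hd (h.shift s)

theorem pE_scale_le {B α β : ℝ} {w : A → ℝ} (hw : ∀ a, 0 ≤ w a) (hα : 0 ≤ α) (hβ : 0 ≤ β) (h : PLip Φ B) :
    |pE (fun a => α * w a) Φ - pE (fun a => β * w a) Φ| ≤ B * (|α - β| * ∑ a, w a) := by
  wlog hab : β ≤ α generalizing α β
  · rw [abs_sub_comm, abs_sub_comm α]; exact this hβ hα (le_of_not_ge hab)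
  have e : (fun a => α * w a) = fun a => β * w a + (α - β) * w a := funext fun a => by ring
  rw [e, abs_of_nonneg (sub_nonneg.2 hab), mul_sum]
  exact pE_add_le (fun a => mul_nonneg hβ (hw a)) (fun a => mul_nonneg (sub_nonneg.2 hab) (hw a)) h

/-- The image of an intensity. -/
noncomputable def pPush [DecidableEq A'] (g : A → A') (c : A → ℝ) (b : A') : ℝ :=
  ∑ a ∈ univ.filter (fun a => g a = b), c a

theorem pPush_total [DecidableEq A'] (g : A → A') (c : A → ℝ) : ∑ b, pPush g c b = ∑ a, c a :=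
  sum_fiberwise univ g c

theorem pE_map [DecidableEq A'] (g : A → A') (c : A → ℝ) (Φ : Multiset A' → ℝ) :
    pE c (fun s => Φ (s.map g)) = pE (pPush g c) Φ := by
  have hstep : ∀ Φ : Multiset A' → ℝ,
      pT c (fun s => Φ (s.map g)) = fun s => pT (pPush g c) Φ (s.map g) := fun Φ => by
    funext s
    simp only [pT_apply, pPush, sum_mul, Multiset.map_cons]
    rw [← sum_fiberwise univ g fun a => c a * Φ (g a ::ₘ s.map g)]
    exact sum_congr rfl fun b _ => sum_congr rfl fun a ha => by rw [(mem_filter.1 ha).2]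
  have hit : ∀ (n : ℕ) (Φ : Multiset A' → ℝ),
      (pT c)^[n] (fun s => Φ (s.map g)) = fun s => ((pT (pPush g c))^[n] Φ) (s.map g) := by
    intro n
    induction n with
    | zero => intro Φ; rfl
    | succ n ih => intro Φ; rw [Function.iterate_succ_apply, hstep, ih, Function.iterate_succ_apply]
  simp only [pE, hit, pPush_total, Multiset.map_zero]

theorem pE_mul (r : ℝ) (w : A → ℝ) (hw : ∑ a, w a = 1) (Φ : Multiset A → ℝ) :
    pE (fun a => r * w a) Φ
      = ∑' n : ℕ, pois r n * ∑ a : Fin n → A, (∏ k, w (a k)) * Φ (univ.val.map a) := by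
  refine tsum_congr fun n => ?_
  rw [← mul_sum, hw, mul_one, pT_iter_zero, mul_sum, mul_sum]
  refine sum_congr rfl fun a _ => ?_
  simp only [prod_mul_distrib, prod_const, card_univ, Fintype.card_fin, pois]
  ring

end Vale.Agent.P168
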